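import Vale.Agent.P132.Core.Decay

/-!
# P132 core: the kernels of the two variable model detect the value at the origin
-/

noncomputable section

namespace P132.Core

open MeasureTheory Filter Topology Complex
open scoped ComplexConjugate

lemma bump_cutoff (b : ContDiffBump (0 : ℝ)) {R : ℝ} (hR : 0 < R) :
    Bump fun ν => ((b (ν / R) : ℝ) : ℂ) where
  smooth n := Complex.ofRealCLM.contDiff.comp (b.contDiff.comp (contDiff_id.div_const R))
  support := by
    refine HasCompactSupport.intro (isCompact_closedBall (0 : ℝ) (b.rOut * R)) fun ν hν => ?_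
    rw [Metric.mem_closedBall, dist_zero_right, Real.norm_eq_abs, not_le] at hν
    rw [b.zero_of_le_dist, Complex.ofReal_zero]
    rw [dist_zero_right, Real.norm_eq_abs, abs_div, abs_of_pos hR, le_div_iff₀ hR]
    exact hν.le

lemma pwave_scale (f : ℝ → ℂ) {R : ℝ} (hR : 0 < R) (x : ℝ) :
    pwave (fun ν => f (ν / R)) x = (R : ℂ) * pwave f (R * x) := by
  have h := Measure.integral_comp_div (fun ν => wave ν (R * x) * f ν) R
  rw [abs_of_pos hR, Complex.real_smul] at h
  rw [pwave, pwave, ← h]
  congr 1
  ext ν
  simp only [wave]
  congr 3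
  field_simp

variable {E : Type*} [NormedAddCommGroup E] [NormedSpace ℂ E] [CompleteSpace E]

/-- If all kernels of band limited windows annihilate a bounded continuous function then it
vanishes at the origin. -/
theorem detect {Φ : ℝ → E} (hΦ : Continuous Φ) {B : ℝ} (hB : ∀ u, ‖Φ u‖ ≤ B)
    (h : ∀ g : ℝ → ℂ, Bump g → (∀ ν, conj (g ν) = g ν) → ∀ t t' : ℝ,
      ∫ u, (pwave g (t - u) * pwave (fun ν => g ν * ((Real.exp (-(Real.pi * ν)) : ℝ) : ℂ)) (u - t'))
        • Φ u = 0) : Φ 0 = 0 := by
  let b : ContDiffBump (0 : ℝ) := ⟨1, 2, one_pos, by norm_num⟩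
  set g1 : ℝ → ℂ := fun ν => ((b (ν / 1) : ℝ) : ℂ) with hg1
  have hbg1 : Bump g1 := bump_cutoff b one_pos
  set w : ℝ → ℂ := fun ν => g1 ν * ((Real.exp (-(Real.pi * ν)) : ℝ) : ℂ) with hw
  have hexp : ∀ n : ℕ, ContDiff ℝ n fun ν : ℝ => ((Real.exp (-(Real.pi * ν)) : ℝ) : ℂ) := fun n =>
    Complex.ofRealCLM.contDiff.comp (Real.contDiff_exp.comp (contDiff_const.mul contDiff_id).neg)
  have hbw : Bump w := hbg1.mul hexp
  set G : ℝ → E := fun u => pwave w u • Φ u
  have hGc : Continuous G := (continuous_pwave hbw.integrable).smul hΦ
  obtain ⟨C, hC0, hC⟩ := exists_decay_pwave hbw 0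
  have hGb : ∀ u, ‖G u‖ ≤ C * B := fun u => by
    rw [norm_smul]
    exact mul_le_mul (by simpa using hC u) (hB u) (norm_nonneg _) hC0
  -- windows equal to one on the support of `g1` annihilate `G`
  have hRG : ∀ n : ℕ, 2 ≤ n → ∫ v, pwave g1 (-v) • G (v / n) = 0 := by
    intro n hn
    have hn0 : (0 : ℝ) < n := by exact_mod_cast (show 0 < n by omega)
    set g : ℝ → ℂ := fun ν => ((b (ν / n) : ℝ) : ℂ) with hg
    have hbg : Bump g := bump_cutoff b hn0
    have hgm : ∀ ν, g1 ν * g ν = g1 ν := by
      intro ν
      rcases eq_or_ne (g1 ν) 0 with h0 | h0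
      · rw [h0, zero_mul]
      · rw [hg]
        simp only
        rw [b.one_of_mem_closedBall, Complex.ofReal_one, mul_one]
        rw [Metric.mem_closedBall, dist_zero_right, Real.norm_eq_abs, abs_div, abs_of_pos hn0,
          div_le_iff₀ hn0]
        have h2 : |ν| < 2 := by
          by_contra hge
          exact h0 (by
            rw [hg1]
            simp only [div_one]
            rw [b.zero_of_le_dist (by rw [dist_zero_right, Real.norm_eq_abs]; exact not_lt.1 hge),
              Complex.ofReal_zero])
        have : (2 : ℝ) ≤ n := by exact_mod_cast hn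
        show |ν| ≤ 1 * n
        linarith
    set ge : ℝ → ℂ := fun ν => g ν * ((Real.exp (-(Real.pi * ν)) : ℝ) : ℂ) with hge
    have hbge : Bump ge := hbg.mul hexp
    have hconv : ∀ u, ∫ t', pwave g1 t' * pwave ge (u - t') = pwave w u := by
      intro u
      have e := pwave_conv hbge hbg1 u 0
      simp only [sub_zero] at e
      rw [show (fun ν => ge ν * g1 ν) = w from funext fun ν => by
        rw [hge, hw]; simp only; rw [mul_right_comm, mul_comm (g ν), hgm]] at e
      rw [← e]
      congr 1
      ext v
      ring
    have hreal : ∀ ν, conj (g ν) = g ν := fun ν => Complex.conj_ofReal _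
    have hswap : ∫ u, pwave g (0 - u) • G u = 0 := by
      calc ∫ u, pwave g (0 - u) • G u
          = ∫ u, ∫ t', pwave g1 t' • ((pwave g (0 - u) * pwave ge (u - t')) • Φ u) := by
            congr 1; ext u
            rw [show pwave g (0 - u) • G u = (pwave g (0 - u) * pwave w u) • Φ u from smul_smul _ _ _,
              ← hconv u, ← integral_const_mul, ← integral_smul_const]
            congr 1; ext t'
            rw [smul_smul]
            congr 1
            ring
        _ = ∫ t', ∫ u, pwave g1 t' • ((pwave g (0 - u) * pwave ge (u - t')) • Φ u) := by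
            refine integral_integral_swap ?_
            refine Integrable.mono'
              ((((integrable_pwave hbg).comp_sub_left 0).norm.mul_prod
                (integrable_pwave hbg1).norm).const_mul ((∫ ν, ‖ge ν‖) * B))
              ?_ (Eventually.of_forall fun p => ?_)
            · exact (((continuous_pwave hbg1.integrable).comp continuous_snd).smul
                ((((continuous_pwave hbg.integrable).comp (continuous_const.sub continuous_fst)).mul
                  ((continuous_pwave hbge.integrable).comp (continuous_fst.sub continuous_snd))).smul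
                    (hΦ.comp continuous_fst))).aestronglyMeasurable
            · simp only [Function.uncurry, norm_smul, norm_mul]
              calc ‖pwave g1 p.2‖ * (‖pwave g (0 - p.1)‖ * ‖pwave ge (p.1 - p.2)‖ * ‖Φ p.1‖)
                  ≤ ‖pwave g1 p.2‖ * (‖pwave g (0 - p.1)‖ * (∫ ν, ‖ge ν‖) * B) := by
                    gcongr
                    exacts [pwave_le _ _, hB _]
                _ = _ := by ring
        _ = 0 := by
            simp only [integral_smul, hge, h g hbg hreal, smul_zero, integral_zero]
    have hsub := Measure.integral_comp_div (fun u => pwave g (0 - u) • G u) (n : ℝ)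
    rw [hswap, smul_zero] at hsub
    have e : (fun v => pwave g (0 - v / n) • G (v / n)) =
        fun v => (n : ℂ) • (pwave g1 (-v) • G (v / n)) := by
      funext v
      have : g = fun ν => g1 (ν / n) := funext fun ν => by simp [hg, hg1]
      rw [this, pwave_scale g1 hn0, zero_sub, mul_neg, mul_div_cancel₀ v hn0.ne', Complex.ofReal_natCast]
      exact (smul_smul _ _ _).symm
    rw [e, integral_smul, smul_eq_zero] at hsub
    exact hsub.resolve_left (Nat.cast_ne_zero.2 (by omega))
  -- the limit
  have hlim : Tendsto (fun n : ℕ => ∫ v, pwave g1 (-v) • G (v / n)) atTop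
      (𝓝 (∫ v, pwave g1 (-v) • G 0)) := by
    refine tendsto_integral_of_dominated_convergence (fun v => ‖pwave g1 (-v)‖ * (C * B))
      (fun n => (((continuous_pwave hbg1.integrable).comp continuous_neg).smul
        (hGc.comp (continuous_id.div_const _))).aestronglyMeasurable)
      ((integrable_pwave hbg1).comp_neg.norm.mul_const _)
      (fun n => Eventually.of_forall fun v => ?_) (Eventually.of_forall fun v => ?_)
    · rw [norm_smul]; exact mul_le_mul_of_nonneg_left (hGb _) (norm_nonneg _)
    · refine Tendsto.const_smul ?_ _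
      exact (hGc.tendsto 0).comp (tendsto_const_div_atTop_nhds_zero_nat v)
  have h0 : ∫ v, pwave g1 (-v) • G 0 = 0 :=
    tendsto_nhds_unique hlim (tendsto_const_nhds.congr'
      (by filter_upwards [eventually_ge_atTop 2] with n hn using (hRG n hn).symm))
  have hint : ∫ v, pwave g1 (-v) = 1 := by
    have := integral_pwave_wave hbg1 0
    simp only [wave, mul_zero, zero_mul, Complex.ofReal_zero, Complex.exp_zero, mul_one] at this
    rw [integral_neg_eq_self (fun v => pwave g1 v), this, hg1]
    simp only [zero_div]
    rw [b.one_of_mem_closedBall (Metric.mem_closedBall_self b.rIn_pos.le), Complex.ofReal_one]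
  rw [integral_smul_const, hint, one_smul] at h0
  -- the transform of a positive bump does not vanish at the origin
  have hw0 : pwave w 0 = ((∫ ν, b (ν / 1) * Real.exp (-(Real.pi * ν)) : ℝ) : ℂ) := by
    rw [← integral_complex_ofReal, pwave]
    congr 1
    ext ν
    simp [hw, hg1, wave]
  have hpos : 0 < ∫ ν, b (ν / 1) * Real.exp (-(Real.pi * ν)) := by
    have hcont : Continuous fun ν => b (ν / 1) * Real.exp (-(Real.pi * ν)) :=
      (b.continuous.comp (continuous_id.div_const 1)).mul (by fun_prop)
    have hcs : HasCompactSupport fun ν => b (ν / 1) * Real.exp (-(Real.pi * ν)) := by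
      refine HasCompactSupport.mul_right ?_
      simp only [div_one]
      exact b.hasCompactSupport
    refine hcont.integral_pos_of_hasCompactSupport_nonneg_nonzero hcs
      (fun ν => mul_nonneg b.nonneg (Real.exp_pos _).le) (x := 0) ?_
    rw [zero_div, b.one_of_mem_closedBall (Metric.mem_closedBall_self b.rIn_pos.le)]
    simp
  refine (smul_eq_zero.1 h0).resolve_left ?_
  rw [hw0]
  exact Complex.ofReal_ne_zero.2 hpos.ne'

end P132.Core
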