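import Vale.Agent.P132.Smooth
import Vale.Agent.P132.Basic

/-!
# P132, Route B: reduction of ergodicity to the commutation of flow fixed unitaries with smoothed elements
-/

noncomputable section

namespace P132

open Filter Topology Complex ComplexConjugate
open scoped InnerProductSpace

variable {H : Type*} [NormedAddCommGroup H] [InnerProductSpace ℂ H] [CompleteSpace H]
variable {S : Std H} {D : Modular S}

/-- The fixed points of the flow, as a `*`-subalgebra. -/
def flowFixed (hb : BFacts D) (F : Flow D) : StarSubalgebra ℂ (H →L[ℂ] H) where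
  carrier := {x | x ∈ S.B ∧ ∀ s, F.β s x = x}
  mul_mem' := fun ha hc => ⟨hb.mul _ ha.1 _ hc.1, fun s => by
    rw [F.map_mul s _ ha.1 _ hc.1, ha.2, hc.2]⟩
  one_mem' := ⟨hb.one, F.map_one⟩
  add_mem' := fun ha hc => ⟨hb.add _ ha.1 _ hc.1, fun s => by
    rw [F.map_add s _ ha.1 _ hc.1, ha.2, hc.2]⟩
  zero_mem' := by
    have h := hb.smul 0 _ hb.one
    rw [zero_smul] at h
    refine ⟨h, fun s => ?_⟩
    rw [← zero_smul ℂ (1 : H →L[ℂ] H), F.map_smul s 0 _ hb.one, zero_smul, zero_smul]
  algebraMap_mem' := fun c => by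
    rw [Algebra.algebraMap_eq_smul_one]
    exact ⟨hb.smul c _ hb.one, fun s => by rw [F.map_smul s c _ hb.one, F.map_one]⟩
  star_mem' := fun ha => ⟨hb.star_mem _ ha.1, fun s => by rw [F.map_star s _ ha.1, ha.2]⟩

lemma isClosed_flowFixed (hb : BFacts D) (F : Flow D) :
    IsClosed (flowFixed hb F : Set (H →L[ℂ] H)) := by
  refine isClosed_of_closure_subset fun x hx => ?_
  have hxM : x ∈ S.M := (isClosed_vN S.M).closure_subset_iff.2 (fun y hy => hy.1.1) hx
  have hxB : x ∈ S.B := hb.sot_closed x hxM fun ε hε => by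
    obtain ⟨y, hy, hxy⟩ := Metric.mem_closure_iff.1 hx ε hε
    rw [dist_eq_norm] at hxy
    exact ⟨y, hy.1, (((x - y).le_opNorm _).trans_eq (by rw [S.norm_Ω, mul_one])).trans hxy.le⟩
  refine ⟨hxB, fun s => ?_⟩
  refine eq_of_forall_dist_le fun ε hε => ?_
  obtain ⟨y, hy, hxy⟩ := Metric.mem_closure_iff.1 hx _ (half_pos hε)
  rw [dist_eq_norm] at hxy
  have hd : x - y ∈ S.B := by
    rw [sub_eq_add_neg, ← neg_one_smul ℂ y]
    exact hb.add _ hxB _ (hb.smul _ _ hy.1)
  have e : F.β s x - x = F.β s (x - y) - (x - y) := by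
    have := F.map_add s (x - y) hd y hy.1
    rw [sub_add_cancel, hy.2] at this
    rw [this]; abel
  rw [dist_eq_norm, e]
  refine (norm_sub_le _ _).trans ?_
  linarith [F.norm_le s (x - y) hd]

/-- Ergodicity of the flow follows from the commutation of flow fixed unitaries with smoothed
self-adjoint elements. -/
theorem routeB_of_comm (D : Modular S)
    (key : ∀ F : Flow D, ∀ u ∈ S.B, star u * u = 1 → (∀ s, F.β s u = u) → ∀ b ∈ S.M,
      IsSelfAdjoint b → ∀ m > 0, u * D.smooth m b = D.smooth m b * u) :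
    GoalRouteB D := by
  intro h hb F x hx hfix
  have := isClosed_flowFixed hb F
  let A := flowFixed hb F
  let : CStarAlgebra A := StarSubalgebra.cstarAlgebra A
  -- fixed elements commute with smoothed elements
  have hall : ∀ b ∈ S.M, IsSelfAdjoint b → ∀ m > 0, ∀ a : A,
      (a : H →L[ℂ] H) * D.smooth m b = D.smooth m b * a := by
    intro b hb' hsa m hm a
    have ha : a ∈ Submodule.span ℂ (unitary A : Set A) := by
      rw [CStarAlgebra.span_unitary]; trivial
    induction ha using Submodule.span_induction with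
    | mem u hu =>
      exact key F u u.2.1 (congrArg Subtype.val (Unitary.mem_iff.1 hu).1) u.2.2 b hb' hsa m hm
    | zero => simp
    | add p q _ _ hp hq => push_cast; rw [add_mul, mul_add, hp, hq]
    | smul c p _ hp => rw [SetLike.val_smul, smul_mul_assoc, mul_smul_comm, hp]
  have hsa : ∀ b ∈ S.M, IsSelfAdjoint b → x * b = b * x := by
    intro b hb' hs
    ext v
    have h1 : Tendsto (fun n : ℕ => x (D.smooth (n + 1) b v)) atTop (𝓝 (x (b v))) :=
      (x.continuous.tendsto _).comp (D.tendsto_smooth b v)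
    have h2 : Tendsto (fun n : ℕ => x (D.smooth (n + 1) b v)) atTop (𝓝 (b (x v))) := by
      refine (D.tendsto_smooth b (x v)).congr fun n => ?_
      exact congr($(hall b hb' hs (n + 1) (by positivity) ⟨x, hx, hfix⟩) v).symm
    exact tendsto_nhds_unique h1 h2
  have hcomm : x ∈ S.M.commutant := by
    rw [VonNeumannAlgebra.mem_commutant_iff]
    intro b hb'
    have h1 := hsa (b + star b) (add_mem hb' (star_mem hb')) (IsSelfAdjoint.add_star_self b)
    have h2 := hsa (I • (star b - b)) (vN_smul_mem _ _ (sub_mem (star_mem hb') hb')) (by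
      rw [IsSelfAdjoint, star_smul, star_sub, star_star, RCLike.star_def, Complex.conj_I, neg_smul,
        ← smul_neg, neg_sub])
    rw [mul_smul_comm, smul_mul_assoc] at h2
    have h3 := (smul_right_injective _ I_ne_zero) h2
    rw [mul_add, add_mul] at h1
    rw [mul_sub, sub_mul] at h3
    have h4 : (2 : ℂ) • (x * b - b * x) = 0 := by
      rw [two_smul]
      linear_combination (norm := abel) h1 - h3
    exact (sub_eq_zero.1 ((smul_eq_zero.1 h4).resolve_left two_ne_zero)).symm
  obtain ⟨c, hc⟩ := h.factor x hx.1 hcomm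
  exact ⟨c, hc.symm⟩

end P132
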