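import Vale.Agent.P132.Core.Fourier

/-!
# P132 core: boxes in the spectral variable
-/

noncomputable section

namespace P132.Core

open MeasureTheory FourierTransform Complex Set
open scoped InnerProductSpace

/-- The left end point of the `k`-th box. -/
def node (c0 δ : ℝ) (k : ℕ) : ℝ := c0 + k * δ

/-- The normalised indicator of `[c0 + kδ, c0 + (k+1)δ)`. -/
def box (c0 δ : ℝ) (k : ℕ) : L2 :=
  indicatorConstLp 2 (measurableSet_Ico (a := node c0 δ k) (b := node c0 δ k + δ))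
    (by rw [Real.volume_Ico]; exact ENNReal.ofReal_ne_top) (((Real.sqrt δ)⁻¹ : ℝ) : ℂ)

/-- Its inverse Fourier transform. -/
def bx (c0 δ : ℝ) (k : ℕ) : L2 := 𝓕⁻ (box c0 δ k)

theorem coeFn_box (c0 δ : ℝ) (k : ℕ) :
    (box c0 δ k : ℝ → ℂ) =ᵐ[volume] (Ico (node c0 δ k) (node c0 δ k + δ)).indicator
      (fun _ => (((Real.sqrt δ)⁻¹ : ℝ) : ℂ)) :=
  indicatorConstLp_coeFn

theorem node_disjoint {c0 δ : ℝ} (hδ : 0 < δ) {j k : ℕ} (h : j ≠ k) :
    Disjoint (Ico (node c0 δ j) (node c0 δ j + δ)) (Ico (node c0 δ k) (node c0 δ k + δ)) := by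
  rw [Set.disjoint_left]
  intro x hj hk
  simp only [node, mem_Ico] at hj hk
  rcases Nat.lt_or_gt_of_ne h with h' | h'
  · have : (j : ℝ) + 1 ≤ k := by exact_mod_cast h'
    nlinarith
  · have : (k : ℝ) + 1 ≤ j := by exact_mod_cast h'
    nlinarith

theorem norm_box {c0 δ : ℝ} (hδ : 0 < δ) (k : ℕ) : ‖box c0 δ k‖ = 1 := by
  rw [box, norm_indicatorConstLp (by norm_num) ENNReal.ofNat_ne_top]
  simp only [Complex.norm_real, norm_inv, Real.norm_eq_abs, measureReal_def, Real.volume_Ico]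
  rw [ENNReal.toReal_ofReal (by linarith), abs_of_nonneg (Real.sqrt_nonneg _)]
  simp only [add_sub_cancel_left, ENNReal.toReal_ofNat]
  rw [← Real.sqrt_eq_rpow]
  exact inv_mul_cancel₀ (Real.sqrt_ne_zero'.2 hδ)

theorem norm_bx {c0 δ : ℝ} (hδ : 0 < δ) (k : ℕ) : ‖bx c0 δ k‖ = 1 := by
  rw [bx]
  exact ((Lp.fourierTransformₗᵢ ℝ ℂ).symm.norm_map _).trans (norm_box hδ k)

theorem orthonormal_bx {c0 δ : ℝ} (hδ : 0 < δ) :
    Orthonormal ℂ fun k : ℕ => bx c0 δ k := by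
  refine ⟨fun k => norm_bx hδ k, fun j k h => ?_⟩
  simp only [bx]
  refine ((Lp.fourierTransformₗᵢ ℝ ℂ).symm.inner_map_map _ _).trans ?_
  rw [L2.inner_def]
  refine integral_eq_zero_of_ae ?_
  filter_upwards [coeFn_box c0 δ j, coeFn_box c0 δ k] with x h1 h2
  rw [h1, h2]
  by_cases hx : x ∈ Ico (node c0 δ j) (node c0 δ j + δ)
  · rw [indicator_of_notMem (Set.disjoint_left.1 (node_disjoint hδ h) hx)]; simp
  · rw [indicator_of_notMem hx]; simp

/-- The translation error of one box. -/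
def bxErr (c0 δ t : ℝ) (k : ℕ) : L2 :=
  trans t (bx c0 δ k) - wave (node c0 δ k) (-t) • bx c0 δ k

theorem bxErr_eq (c0 δ t : ℝ) (k : ℕ) :
    bxErr c0 δ t k
      = 𝓕⁻ (modulate t (box c0 δ k) - wave (node c0 δ k) (-t) • box c0 δ k) := by
  rw [bxErr, bx, trans_fourierInv]
  exact ((map_sub (Lp.fourierTransformₗᵢ ℝ ℂ).symm _ _).trans
    (congrArg _ (map_smul (Lp.fourierTransformₗᵢ ℝ ℂ).symm _ _))).symm

theorem norm_wave_sub_le (ν ν' t : ℝ) :
    ‖wave ν t - wave ν' t‖ ≤ 2 * Real.pi * |ν - ν'| * |t| := by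
  have h : wave ν t - wave ν' t = wave ν' t * (wave (ν - ν') t - 1) := by
    rw [mul_sub, mul_one, ← wave_add_left, add_sub_cancel]
  rw [h, norm_mul, norm_wave, one_mul, wave, mul_comm _ I]
  refine (Real.norm_exp_I_mul_ofReal_sub_one_le).trans ?_
  rw [Real.norm_eq_abs, abs_mul, abs_mul, abs_mul, abs_two, abs_of_pos Real.pi_pos]

theorem ae_modulate_box (c0 δ t : ℝ) (k : ℕ) :
    ((modulate t (box c0 δ k) - wave (node c0 δ k) (-t) • box c0 δ k : L2) : ℝ → ℂ) =ᵐ[volume]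
      fun ν => (wave ν (-t) - wave (node c0 δ k) (-t)) * (box c0 δ k : ℝ → ℂ) ν := by
  filter_upwards [Lp.coeFn_sub (modulate t (box c0 δ k)) (wave (node c0 δ k) (-t) • box c0 δ k),
    coeFn_modulate t (box c0 δ k), Lp.coeFn_smul (wave (node c0 δ k) (-t)) (box c0 δ k)]
    with ν h1 h2 h3
  rw [h1, Pi.sub_apply, h2, h3, Pi.smul_apply, smul_eq_mul, sub_mul]

theorem norm_bxErr {c0 δ : ℝ} (hδ : 0 < δ) (t : ℝ) (k : ℕ) :
    ‖bxErr c0 δ t k‖ ≤ 2 * Real.pi * δ * |t| := by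
  rw [bxErr_eq]
  refine ((Lp.fourierTransformₗᵢ ℝ ℂ).symm.norm_map _).le.trans ?_
  have h := Lp.norm_le_mul_norm_of_ae_le_mul (c := 2 * Real.pi * δ * |t|)
    (f := modulate t (box c0 δ k) - wave (node c0 δ k) (-t) • box c0 δ k) (g := box c0 δ k) ?_
  · rwa [norm_box hδ, mul_one] at h
  filter_upwards [ae_modulate_box c0 δ t k, coeFn_box c0 δ k] with ν h1 h2
  rw [h1, norm_mul, h2]
  by_cases hν : ν ∈ Ico (node c0 δ k) (node c0 δ k + δ)
  · refine mul_le_mul_of_nonneg_right ((norm_wave_sub_le _ _ _).trans ?_) (norm_nonneg _)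
    rw [abs_neg]
    have : |ν - node c0 δ k| ≤ δ := abs_le.2 ⟨by linarith [hν.1], by linarith [hν.2]⟩
    gcongr
  · simp [indicator_of_notMem hν]

theorem inner_bxErr {c0 δ : ℝ} (hδ : 0 < δ) (t : ℝ) {j k : ℕ} (h : j ≠ k) :
    ⟪bxErr c0 δ t j, bxErr c0 δ t k⟫_ℂ = 0 := by
  rw [bxErr_eq, bxErr_eq]
  refine ((Lp.fourierTransformₗᵢ ℝ ℂ).symm.inner_map_map _ _).trans ?_
  rw [L2.inner_def]
  refine integral_eq_zero_of_ae ?_
  filter_upwards [ae_modulate_box c0 δ t j, ae_modulate_box c0 δ t k, coeFn_box c0 δ j,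
    coeFn_box c0 δ k] with x h1 h2 h3 h4
  rw [h1, h2, h3, h4]
  by_cases hx : x ∈ Ico (node c0 δ j) (node c0 δ j + δ)
  · rw [indicator_of_notMem (Set.disjoint_left.1 (node_disjoint hδ h) hx)]; simp
  · rw [indicator_of_notMem hx]; simp

/-- A Lipschitz function supported in the boxes is a combination of the boxes up to `L δ √(n δ)`. -/
theorem bx_approx {c0 δ : ℝ} (hδ : 0 < δ) (n : ℕ) (f : ℝ → ℂ) (F : L2)
    (hF : (F : ℝ → ℂ) =ᵐ[volume] f) (L : ℝ) (hL : 0 ≤ L)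
    (hlip : ∀ a b, ‖f a - f b‖ ≤ L * |a - b|)
    (hsupp : ∀ ν, ν ∉ Ico c0 (c0 + n * δ) → f ν = 0) :
    ‖𝓕⁻ F - ∑ k : Fin n, ((Real.sqrt δ : ℂ) * f (node c0 δ k)) • bx c0 δ k‖
      ≤ L * δ * Real.sqrt (n * δ) := by
  have e : 𝓕⁻ F - ∑ k : Fin n, ((Real.sqrt δ : ℂ) * f (node c0 δ k)) • bx c0 δ k
      = (Lp.fourierTransformₗᵢ ℝ ℂ).symm
        (F - ∑ k : Fin n, ((Real.sqrt δ : ℂ) * f (node c0 δ k)) • box c0 δ k) := by
    simp only [map_sub, map_sum, map_smul]; rfl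
  rw [e, LinearIsometryEquiv.norm_map]
  set G : L2 := indicatorConstLp 2 (measurableSet_Ico (a := c0) (b := c0 + n * δ))
    (by rw [Real.volume_Ico]; exact ENNReal.ofReal_ne_top) (1 : ℂ)
  have hG : ‖G‖ = Real.sqrt (n * δ) := by
    rw [norm_indicatorConstLp (by norm_num) ENNReal.ofNat_ne_top, norm_one, one_mul,
      measureReal_def, Real.volume_Ico, ENNReal.toReal_ofReal (by nlinarith [n.cast_nonneg (α := ℝ)]),
      ENNReal.toReal_ofNat, Real.sqrt_eq_rpow]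
    congr 1
    ring
  rw [← hG]
  refine Lp.norm_le_mul_norm_of_ae_le_mul ?_
  have hb : ∀ᵐ ν, ∀ k : Fin n, (((Real.sqrt δ : ℂ) * f (node c0 δ k)) • box c0 δ k : L2) ν
      = (Ico (node c0 δ k) (node c0 δ k + δ)).indicator (fun _ => f (node c0 δ k)) ν := by
    rw [ae_all_iff]
    intro k
    filter_upwards [Lp.coeFn_smul ((Real.sqrt δ : ℂ) * f (node c0 δ k)) (box c0 δ k),
      coeFn_box c0 δ k] with ν h1 h2
    rw [h1, Pi.smul_apply, h2, smul_eq_mul]
    by_cases hν : ν ∈ Ico (node c0 δ k) (node c0 δ k + δ)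
    · rw [indicator_of_mem hν, indicator_of_mem hν]
      have h0 : (Real.sqrt δ : ℂ) ≠ 0 := by exact_mod_cast Real.sqrt_ne_zero'.2 hδ
      push_cast
      field_simp
    · rw [indicator_of_notMem hν, indicator_of_notMem hν, mul_zero]
  filter_upwards [Lp.coeFn_sub F (∑ k : Fin n, ((Real.sqrt δ : ℂ) * f (node c0 δ k)) • box c0 δ k),
    Lp.coeFn_fun_finsetSum Finset.univ
      (fun k : Fin n => ((Real.sqrt δ : ℂ) * f (node c0 δ k)) • box c0 δ k),
    hb, hF, indicatorConstLp_coeFn (p := 2) (μ := volume) (s := Ico c0 (c0 + n * δ))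
      (hs := measurableSet_Ico) (hμs := by rw [Real.volume_Ico]; exact ENNReal.ofReal_ne_top)
      (c := (1 : ℂ))] with ν h1 h2 h3 h4 h5
  rw [h1, Pi.sub_apply, h2, h4, h5]
  simp only [h3]
  by_cases hν : ν ∈ Ico c0 (c0 + n * δ)
  · rw [indicator_of_mem hν, norm_one, mul_one]
    set m := ⌊(ν - c0) / δ⌋₊ with hm
    have hnn : 0 ≤ (ν - c0) / δ := div_nonneg (by linarith [hν.1]) hδ.le
    have h6 := Nat.floor_le hnn
    have h7 := Nat.lt_floor_add_one ((ν - c0) / δ)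
    rw [← hm] at h6 h7
    rw [le_div_iff₀ hδ] at h6
    rw [div_lt_iff₀ hδ] at h7
    have hmn : m < n := by
      have : (m : ℝ) < n := by nlinarith [hν.2]
      exact_mod_cast this
    have hmem : ν ∈ Ico (node c0 δ m) (node c0 δ m + δ) := by
      constructor <;> simp only [node] <;> linarith
    rw [Finset.sum_eq_single (⟨m, hmn⟩ : Fin n)]
    · rw [indicator_of_mem hmem]
      refine (hlip _ _).trans (mul_le_mul_of_nonneg_left ?_ hL)
      exact abs_le.2 ⟨by linarith [hmem.1], by linarith [hmem.2]⟩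
    · intro k _ hk
      exact indicator_of_notMem (Set.disjoint_left.1
        (node_disjoint hδ fun h => hk (Fin.ext h.symm)) hmem) _
    · simp
  · rw [indicator_of_notMem hν, norm_zero, mul_zero, hsupp ν hν, Finset.sum_eq_zero, sub_zero,
      norm_zero]
    intro k _
    refine indicator_of_notMem (fun hk => hν ⟨?_, ?_⟩) _
    · simp only [node, mem_Ico] at hk
      nlinarith [(k : ℕ).cast_nonneg (α := ℝ)]
    · simp only [node, mem_Ico] at hk
      have : ((k : ℕ) : ℝ) + 1 ≤ n := by exact_mod_cast k.isLt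
      nlinarith

end P132.Core
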