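import Vale.Agent.P132.Setup

/-!
# P132: the finite dimensional half of Route B

`vec L y` is the vector of a matrix over `M` in the standard form of `ψ = φ ⊗ diag (exp ∘ L)`,
`LR D e` is left multiplication by `e`, right multiplication by `e*`. A flow fixed isometry `x`
in `B` does not change the expectation of `LR D e` at scalar vectors when `e` is almost invariant.
-/

noncomputable section

namespace P132

open Finset ComplexConjugate
open scoped InnerProductSpace

variable {H : Type*} [NormedAddCommGroup H] [InnerProductSpace ℂ H] [CompleteSpace H]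
variable {S : Std H} {n : ℕ}

/-- The vector of the matrix `y`. -/
def vec (S : Std H) (L : Fin n → ℝ) (y : Fin n → Fin n → H →L[ℂ] H) (k l : Fin n) : H :=
  ((Real.exp (L l / 2) : ℝ) : ℂ) • y k l S.Ω

/-- Left multiplication by `e`, right multiplication by `e*`. -/
def LR (D : Modular S) (e : Fin n → Fin n → H →L[ℂ] H) (ξ : Fin n → Fin n → H) (k l : Fin n) : H :=
  ∑ p, ∑ m, e k p (D.J (e l m (D.J (ξ p m))))

namespace FiniteKey

def opL (e : Fin n → Fin n → H →L[ℂ] H) (ξ : Fin n → Fin n → H) (k l : Fin n) : H :=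
  ∑ p, e k p (ξ p l)

def opR (D : Modular S) (e : Fin n → Fin n → H →L[ℂ] H) (ξ : Fin n → Fin n → H) (k l : Fin n) : H :=
  ∑ m, D.J (e l m (D.J (ξ k m)))

/-- Right multiplication by a scalar matrix. -/
def opQ (L : Fin n → ℝ) (q : Fin n → Fin n → ℂ) (ξ : Fin n → Fin n → H) (k l : Fin n) : H :=
  ∑ m, (q m l * ((Real.exp ((L l - L m) / 2) : ℝ) : ℂ)) • ξ k m

def nsq (ξ : Fin n → Fin n → H) : ℝ := ∑ k, ∑ l, ‖ξ k l‖ ^ 2

lemma LR_eq (D : Modular S) (e : Fin n → Fin n → H →L[ℂ] H) (ξ : Fin n → Fin n → H) :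
    LR D e ξ = opL e (opR D e ξ) := by
  funext k l
  simp only [LR, opL, opR, map_sum]

lemma opR_comm (D : Modular S) {e : Fin n → Fin n → H →L[ℂ] H} (he : ∀ k l, e k l ∈ S.M)
    {c : Fin n → Fin n → H →L[ℂ] H} (hc : ∀ k l, c k l ∈ S.M) (ξ : Fin n → Fin n → H) :
    opL c (opR D e ξ) = opR D e (opL c ξ) := by
  funext k l
  simp only [opL, opR, map_sum]
  rw [Finset.sum_comm]
  refine sum_congr rfl fun m _ => sum_congr rfl fun p _ => ?_
  exact D.J_commutant _ (hc k p) _ (he l m) _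

lemma opQ_comm (L : Fin n → ℝ) (q : Fin n → Fin n → ℂ) (c : Fin n → Fin n → H →L[ℂ] H)
    (ξ : Fin n → Fin n → H) : opL c (opQ L q ξ) = opQ L q (opL c ξ) := by
  funext k l
  simp only [opL, opQ, map_sum, map_smul, smul_sum]
  exact Finset.sum_comm

lemma nsq_opR (D : Modular S) {e : Fin n → Fin n → H →L[ℂ] H} (he : MatBound e 1)
    (ξ : Fin n → Fin n → H) : nsq (opR D e ξ) ≤ nsq ξ := by
  refine sum_le_sum fun k _ => ?_
  have h := he fun m => D.J (ξ k m)
  simp only [LinearIsometryEquiv.norm_map, one_pow, one_mul] at h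
  refine le_trans (le_of_eq <| sum_congr rfl fun l _ => ?_) h
  rw [opR, ← map_sum, LinearIsometryEquiv.norm_map]

lemma transpose_bound (D : Modular S) {q : Fin n → Fin n → ℂ}
    (hq : MatBound (fun k l => q k l • (1 : H →L[ℂ] H)) 1) (u : Fin n → H) :
    (∑ l, ‖∑ m, q m l • u m‖ ^ 2) ≤ ∑ m, ‖u m‖ ^ 2 := by
  set a : Fin n → H := fun l => ∑ m, q m l • u m with ha
  set b : Fin n → H := fun m => ∑ l, q m l • D.J (a l)
  have h := hq fun l => D.J (a l)
  simp only [one_pow, one_mul, smul_apply, one_apply_eq_self,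
    LinearIsometryEquiv.norm_map] at h
  have e1 : ((∑ l, ‖a l‖ ^ 2 : ℝ) : ℂ) = ∑ m, ⟪D.J (b m), u m⟫_ℂ := by
    have : ∀ m, D.J (b m) = ∑ l, conj (q m l) • a l := fun m => by
      simp only [b, map_sum, LinearIsometryEquiv.map_smulₛₗ, D.J_J]
    simp only [this, sum_inner, inner_smul_left, Complex.conj_conj]
    rw [Finset.sum_comm]
    push_cast
    refine sum_congr rfl fun l _ => ?_
    have hh : ⟪a l, a l⟫_ℂ = ((‖a l‖ : ℝ) : ℂ) ^ 2 := inner_self_eq_norm_sq_to_K _
    calc ((‖a l‖ : ℝ) : ℂ) ^ 2 = ⟪a l, a l⟫_ℂ := hh.symm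
      _ = ⟪a l, ∑ m, q m l • u m⟫_ℂ := rfl
      _ = ∑ m, q m l * ⟪a l, u m⟫_ℂ := by simp only [inner_sum, inner_smul_right]
  have e2 : ∑ l, ‖a l‖ ^ 2 ≤ ∑ m, ‖b m‖ * ‖u m‖ := by
    have : ∑ l, ‖a l‖ ^ 2 = ‖((∑ l, ‖a l‖ ^ 2 : ℝ) : ℂ)‖ := by
      rw [Complex.norm_real, Real.norm_of_nonneg (by positivity)]
    rw [this, e1]
    refine (norm_sum_le _ _).trans (sum_le_sum fun m _ => ?_)
    exact (norm_inner_le_norm _ _).trans_eq (by rw [LinearIsometryEquiv.norm_map])
  have e3 := sum_mul_sq_le_sq_mul_sq univ (fun m => ‖b m‖) (fun m => ‖u m‖)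
  have h0 : 0 ≤ ∑ l, ‖a l‖ ^ 2 := by positivity
  have h1 : 0 ≤ ∑ m, ‖u m‖ ^ 2 := by positivity
  have hb : ∑ m, ‖b m‖ ^ 2 ≤ ∑ l, ‖a l‖ ^ 2 := h
  show ∑ l, ‖a l‖ ^ 2 ≤ _
  nlinarith [pow_le_pow_left₀ h0 e2 2, mul_le_mul_of_nonneg_right hb h1]

lemma nsq_opQ (D : Modular S) {L : Fin n → ℝ} {R : ℝ} (hR : ∀ k l, |L k - L l| ≤ R)
    {q : Fin n → Fin n → ℂ} (hq : MatBound (fun k l => q k l • (1 : H →L[ℂ] H)) 1)
    (ξ : Fin n → Fin n → H) : nsq (opQ L q ξ) ≤ Real.exp R * nsq ξ := by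
  rw [nsq, nsq, mul_sum]
  refine sum_le_sum fun k _ => ?_
  obtain ⟨j, -, hj⟩ := exists_max_image univ L ⟨k, mem_univ _⟩
  set u : Fin n → H := fun m => ((Real.exp (-(L m / 2)) : ℝ) : ℂ) • ξ k m
  have hl : ∀ l, ‖opQ L q ξ k l‖ ^ 2 ≤ Real.exp (L j) * ‖∑ m, q m l • u m‖ ^ 2 := fun l => by
    have : opQ L q ξ k l = ((Real.exp (L l / 2) : ℝ) : ℂ) • ∑ m, q m l • u m := by
      simp only [opQ, u, smul_sum, smul_smul]
      refine sum_congr rfl fun m _ => ?_
      rw [show (L l - L m) / 2 = L l / 2 + -(L m / 2) by ring, Real.exp_add]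
      push_cast
      congr 1
      ring
    rw [this, norm_smul, mul_pow, Complex.norm_real, Real.norm_of_nonneg (Real.exp_pos _).le,
      ← Real.exp_nat_mul]
    gcongr
    push_cast
    linarith [hj l (mem_univ _)]
  refine (sum_le_sum fun l _ => hl l).trans ?_
  rw [← mul_sum]
  refine (mul_le_mul_of_nonneg_left (transpose_bound D hq u) (Real.exp_pos _).le).trans ?_
  rw [mul_sum, mul_sum]
  refine sum_le_sum fun m _ => ?_
  simp only [u, norm_smul, mul_pow, Complex.norm_real, Real.norm_of_nonneg (Real.exp_pos _).le]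
  rw [← Real.exp_nat_mul, ← mul_assoc, ← Real.exp_add]
  gcongr
  push_cast
  linarith [le_abs_self (L j - L m), hR j m]

lemma ip_le (a b : Fin n → Fin n → H) :
    ‖∑ k, ∑ l, ⟪a k l, b k l⟫_ℂ‖ ≤ √(nsq a * nsq b) := by
  simp only [nsq, ← Fintype.sum_prod_type']
  refine (norm_sum_le _ _).trans ?_
  refine (sum_le_sum fun p _ => norm_inner_le_norm _ _).trans ?_
  rw [Real.sqrt_mul (by positivity)]
  exact Real.sum_mul_le_sqrt_mul_sqrt _ _ _

end FiniteKey

/-- `x` almost commutes with every almost invariant matrix over `M`: what Route B uses. -/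
def Modular.KeyFix (D : Modular S) (x : H →L[ℂ] H) : Prop :=
  ∀ K : ℝ, ∀ ε > 0, ∃ η > 0, ∀ (n : ℕ) (L : Fin n → ℝ) (e : Fin n → Fin n → H →L[ℂ] H),
    (∑ k, Real.exp (L k)) = 1 → (∀ k l, e k l ∈ S.M) → MatBound e K → MatLip D L e η →
    (∑ k, ∑ l, Real.exp (L l) * ‖(x * e k l - e k l * x) S.Ω‖ ^ 2) ≤ ε

lemma Flow.keyFix {D : Modular S} (F : Flow D) {x : H →L[ℂ] H} (hx : x ∈ S.B)
    (hfix : ∀ s, F.β s x = x) : D.KeyFix x := F.key_fixed x hx hfix

open FiniteKey in
/-- The finite key estimate of Route B. -/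
theorem finite_key (D : Modular S) {x : H →L[ℂ] H} (hxM : x ∈ S.M)
    (hfix : D.KeyFix x) (hiso : star x * x = 1) (R : ℝ) {ε : ℝ} (hε : 0 < ε) :
    ∃ η > 0, ∀ (n : ℕ) (L : Fin n → ℝ) (e : Fin n → Fin n → H →L[ℂ] H) (q : Fin n → Fin n → ℂ),
      (∀ k l, |L k - L l| ≤ R) → (∀ k l, e k l ∈ S.M) → MatBound e 1 → MatLip D L e η →
      MatBound (fun k l => q k l • (1 : H →L[ℂ] H)) 1 →
      ‖(∑ k, ∑ l, ⟪vec S L (fun i j => q i j • x) k l,
            LR D e (vec S L fun i j => q i j • x) k l⟫_ℂ) -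
          ∑ k, ∑ l, ⟪vec S L (fun i j => q i j • 1) k l,
            LR D e (vec S L fun i j => q i j • 1) k l⟫_ℂ‖ ≤
        ε * ∑ k, Real.exp (L k) := by
  set δ : ℝ := ε ^ 2 / Real.exp R with hδ
  obtain ⟨η, hη, hkey⟩ := hfix 1 δ (by positivity)
  refine ⟨η, hη, fun n L e q hR he heb hlip hq => ?_⟩
  rcases Nat.eq_zero_or_pos n with rfl | hn
  · simp
  set Z : ℝ := ∑ k, Real.exp (L k) with hZ
  have hZ0 : 0 < Z := sum_pos (fun k _ => Real.exp_pos _) ⟨⟨0, hn⟩, mem_univ _⟩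
  -- the key inequality, normalised
  have hkey' : (∑ k, ∑ l, Real.exp (L l) * ‖(x * e k l - e k l * x) S.Ω‖ ^ 2) ≤ δ * Z := by
    have hs : ∀ l, Real.exp (L l - Real.log Z) = Real.exp (L l) / Z := fun l => by
      rw [Real.exp_sub, Real.exp_log hZ0]
    have h := hkey n (fun l => L l - Real.log Z) e
      (by simp only [hs, ← Finset.sum_div, ← hZ, div_self hZ0.ne']) he heb
      (fun t => by
        have := hlip t
        simpa only [ampσ, sub_sub_sub_cancel_right] using this)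
    simp only [hs, div_mul_eq_mul_div, ← Finset.sum_div] at h
    exact (div_le_iff₀ hZ0).1 h
  -- the vectors
  set I0 : Fin n → Fin n → H := fun k m =>
    if k = m then ((Real.exp (L m / 2) : ℝ) : ℂ) • S.Ω else 0 with hI0
  set v : Fin n → Fin n → H := vec S L fun i j => q i j • 1 with hv
  set c : Fin n → Fin n → H →L[ℂ] H := fun k p => e k p * x - x * e k p with hc
  have hcM : ∀ k p, c k p ∈ S.M := fun k p => sub_mem (mul_mem (he k p) hxM) (mul_mem hxM (he k p))
  have hvQ : v = opQ L q I0 := by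
    funext k l
    simp only [hv, vec, opQ, hI0, smul_apply, one_apply_eq_self]
    rw [sum_eq_single k]
    · rw [if_pos rfl, smul_smul, smul_smul]
      congr 1
      rw [mul_assoc, ← Complex.ofReal_mul, ← Real.exp_add, mul_comm]
      congr 3
      ring
    · intro m _ hm; rw [if_neg (Ne.symm hm), smul_zero]
    · simp
  have hvx : (vec S L fun i j => q i j • x) = fun k l => x (v k l) := by
    funext k l
    simp [hv, vec, smul_apply]
  have hix : ∀ a b : H, ⟪x a, x b⟫_ℂ = ⟪a, b⟫_ℂ := fun a b => by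
    rw [← ContinuousLinearMap.adjoint_inner_right, ← ContinuousLinearMap.star_eq_adjoint,
      ← ContinuousLinearMap.mul_apply, hiso, one_apply_eq_self]
  have hcomm : ∀ ξ : Fin n → Fin n → H,
      opR D e (fun k l => x (ξ k l)) = fun k l => x (opR D e ξ k l) := fun ξ => by
    funext k l
    simp only [opR, map_sum]
    exact sum_congr rfl fun m _ => (D.J_commutant x hxM _ (he l m) _).symm
  have hdiff : ∀ k l, LR D e (fun k l => x (v k l)) k l - x (LR D e v k l)
      = opR D e (opQ L q (opL c I0)) k l := fun k l => by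
    rw [← opQ_comm, ← opR_comm D he hcM, ← hvQ, LR_eq, LR_eq, hcomm]
    simp only [opL, hc, map_sum, ← sum_sub_distrib]
    rfl
  have hC : nsq (opL c I0) ≤ δ * Z := by
    refine le_trans (le_of_eq (sum_congr rfl fun k _ => sum_congr rfl fun l _ => ?_)) hkey'
    simp only [opL, hI0]
    rw [sum_eq_single l (fun p _ hp => by rw [if_neg hp, map_zero]) (by simp), if_pos rfl, map_smul,
      norm_smul, mul_pow, Complex.norm_real, Real.norm_of_nonneg (Real.exp_pos _).le,
      ← Real.exp_nat_mul, Nat.cast_two, mul_div_cancel₀ _ (two_ne_zero' ℝ)]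
    congr 2
    rw [hc, ← norm_neg, ← ContinuousLinearMap.neg_apply, neg_sub]
  have hvn : nsq v ≤ Z := by
    rw [hv, nsq, Finset.sum_comm]
    refine sum_le_sum fun l _ => ?_
    have h := hq fun j => if j = l then S.Ω else 0
    simp only [smul_apply, one_apply_eq_self, smul_ite, smul_zero, sum_ite_eq',
      mem_univ, if_true, one_pow, one_mul] at h
    have h2 : (∑ j : Fin n, ‖if j = l then S.Ω else 0‖ ^ 2) = 1 := by
      rw [sum_eq_single l (fun j _ hj => by simp [hj]) (by simp), if_pos rfl, S.norm_Ω, one_pow]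
    rw [h2] at h
    calc (∑ k, ‖vec S L (fun i j => q i j • 1) k l‖ ^ 2)
        = Real.exp (L l) * ∑ k, ‖q k l • S.Ω‖ ^ 2 := by
          rw [mul_sum]
          refine sum_congr rfl fun k _ => ?_
          rw [vec, norm_smul, mul_pow, Complex.norm_real, Real.norm_of_nonneg (Real.exp_pos _).le,
            ← Real.exp_nat_mul, Nat.cast_two, mul_div_cancel₀ _ (two_ne_zero' ℝ)]
          rfl
      _ ≤ Real.exp (L l) := mul_le_of_le_one_right (Real.exp_pos _).le h
  have key : (∑ k, ∑ l, ⟪x (v k l), LR D e (fun k l => x (v k l)) k l⟫_ℂ) -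
      (∑ k, ∑ l, ⟪v k l, LR D e v k l⟫_ℂ)
      = ∑ k, ∑ l, ⟪x (v k l), opR D e (opQ L q (opL c I0)) k l⟫_ℂ := by
    simp only [← hdiff, inner_sub_right, hix, sum_sub_distrib]
  rw [hvx, key]
  refine (ip_le _ _).trans ?_
  have hxv : nsq (fun k l => x (v k l)) = nsq v := by
    refine sum_congr rfl fun k _ => sum_congr rfl fun l _ => ?_
    rw [← inner_self_eq_norm_sq (𝕜 := ℂ), ← inner_self_eq_norm_sq (𝕜 := ℂ), hix]
  have hb : nsq (opR D e (opQ L q (opL c I0))) ≤ ε ^ 2 * Z := by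
    refine (nsq_opR D heb _).trans ((nsq_opQ D hR hq _).trans ?_)
    refine (mul_le_mul_of_nonneg_left hC (Real.exp_pos _).le).trans_eq ?_
    rw [hδ]; field_simp
  rw [hxv]
  refine Real.sqrt_le_iff.2 ⟨by positivity, ?_⟩
  refine (mul_le_mul hvn hb (by unfold nsq; positivity) hZ0.le).trans_eq ?_
  ring

end P132
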