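import Vale.Agent.P132.Core.Decay
import Vale.Agent.P132.Core.Boxes

/-!
# P132 core: packets

`p (τ, τ') = χ (τ / T) K (τ - τ')`, where `χ = pwave β` and `K = pwave kk`, is within `C δ T ^ (3/2)` of a
combination of products of boxes whose coefficients form a band of width `1 / T`.
-/

noncomputable section

set_option linter.unusedSectionVars false

namespace P132.Core

open MeasureTheory FourierTransform Complex Filter Topology Set
open scoped InnerProductSpace

/-- `L²(ℝ²)`. -/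
abbrev L22 := Lp (α := ℝ × ℝ) ℂ 2 (volume : Measure (ℝ × ℝ))

lemma aesm_fst {f : ℝ → ℂ} (hf : AEStronglyMeasurable f volume) :
    AEStronglyMeasurable (fun p : ℝ × ℝ => f p.1) volume := by
  rw [Measure.volume_eq_prod]; exact hf.comp_fst

lemma aesm_snd {f : ℝ → ℂ} (hf : AEStronglyMeasurable f volume) :
    AEStronglyMeasurable (fun p : ℝ × ℝ => f p.2) volume := by
  rw [Measure.volume_eq_prod]; exact hf.comp_snd

lemma memLp_t2 (φ ψ : L2) :
    MemLp (fun p : ℝ × ℝ => (φ : ℝ → ℂ) p.1 * (starRingEnd ℂ) ((ψ : ℝ → ℂ) p.2)) 2 volume := by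
  have hm : AEStronglyMeasurable
      (fun p : ℝ × ℝ => (φ : ℝ → ℂ) p.1 * (starRingEnd ℂ) ((ψ : ℝ → ℂ) p.2)) volume :=
    (aesm_fst (Lp.aestronglyMeasurable φ)).mul
      (Complex.continuous_conj.comp_aestronglyMeasurable (aesm_snd (Lp.aestronglyMeasurable ψ)))
  rw [memLp_two_iff_integrable_sq_norm hm, Measure.volume_eq_prod]
  refine (((memLp_two_iff_integrable_sq_norm (Lp.aestronglyMeasurable φ)).1 (Lp.memLp φ)).mul_prod
    ((memLp_two_iff_integrable_sq_norm (Lp.aestronglyMeasurable ψ)).1 (Lp.memLp ψ))).congr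
    (Eventually.of_forall fun p => ?_)
  simp [mul_pow]

/-- `φ (τ) conj (ψ (τ'))`. -/
def t2 (φ ψ : L2) : L22 := (memLp_t2 φ ψ).toLp _

theorem coeFn_t2 (φ ψ : L2) :
    (t2 φ ψ : ℝ × ℝ → ℂ) =ᵐ[volume] fun p => (φ : ℝ → ℂ) p.1 * (starRingEnd ℂ) ((ψ : ℝ → ℂ) p.2) :=
  MemLp.coeFn_toLp _

theorem inner_t2 (φ ψ φ' ψ' : L2) : ⟪t2 φ ψ, t2 φ' ψ'⟫_ℂ = ⟪φ, φ'⟫_ℂ * ⟪ψ', ψ⟫_ℂ := by
  rw [L2.inner_def, L2.inner_def, L2.inner_def]
  conv_rhs => rw [← integral_prod_mul, ← Measure.volume_eq_prod]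
  refine integral_congr_ae ?_
  filter_upwards [coeFn_t2 φ ψ, coeFn_t2 φ' ψ'] with p h1 h2
  rw [h1, h2]
  simp only [RCLike.inner_apply, map_mul, Complex.conj_conj]
  ring

theorem t2_fst_aux (f : L2) {φ : ℝ → ℂ} (h : (f : ℝ → ℂ) =ᵐ[volume] φ) :
    (fun p : ℝ × ℝ => (f : ℝ → ℂ) p.1) =ᵐ[volume] fun p => φ p.1 := by
  rw [Measure.volume_eq_prod]
  exact Measure.quasiMeasurePreserving_fst.ae_eq_comp h

theorem t2_sub (φ φ' ψ : L2) : t2 (φ - φ') ψ = t2 φ ψ - t2 φ' ψ := by
  apply Lp.ext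
  filter_upwards [coeFn_t2 (φ - φ') ψ, coeFn_t2 φ ψ, coeFn_t2 φ' ψ,
    Lp.coeFn_sub (t2 φ ψ) (t2 φ' ψ), t2_fst_aux _ (Lp.coeFn_sub φ φ')] with p h1 h2 h3 h4 h5
  rw [h1, h4, Pi.sub_apply, h2, h3, h5, Pi.sub_apply, sub_mul]

theorem t2_smul (c : ℂ) (φ ψ : L2) : t2 (c • φ) ψ = c • t2 φ ψ := by
  apply Lp.ext
  filter_upwards [coeFn_t2 (c • φ) ψ, coeFn_t2 φ ψ, Lp.coeFn_smul c (t2 φ ψ),
    t2_fst_aux _ (Lp.coeFn_smul c φ)] with p h1 h2 h3 h4
  rw [h1, h3, Pi.smul_apply, h2, h4, Pi.smul_apply, smul_eq_mul, smul_eq_mul, mul_assoc]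

theorem t2_add (φ φ' ψ : L2) : t2 (φ + φ') ψ = t2 φ ψ + t2 φ' ψ := by
  apply Lp.ext
  filter_upwards [coeFn_t2 (φ + φ') ψ, coeFn_t2 φ ψ, coeFn_t2 φ' ψ,
    Lp.coeFn_add (t2 φ ψ) (t2 φ' ψ), t2_fst_aux _ (Lp.coeFn_add φ φ')] with p h1 h2 h3 h4 h5
  rw [h1, h4, Pi.add_apply, h2, h3, h5, Pi.add_apply, add_mul]

theorem t2_sum {ι : Type*} (s : Finset ι) (φ : ι → L2) (ψ : L2) :
    t2 (∑ i ∈ s, φ i) ψ = ∑ i ∈ s, t2 (φ i) ψ :=
  map_sum (AddMonoidHom.mk' (fun f => t2 f ψ) fun a b => t2_add a b ψ) _ _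

theorem norm_sum_t2_sq {ι : Type*} [Fintype ι] (φ ψ : ι → L2) (hψ : Orthonormal ℂ ψ) :
    ‖∑ i, t2 (φ i) (ψ i)‖ ^ 2 = ∑ i, ‖φ i‖ ^ 2 := by
  classical
  have e : ⟪∑ i, t2 (φ i) (ψ i), ∑ i, t2 (φ i) (ψ i)⟫_ℂ = ((∑ i, ‖φ i‖ ^ 2 : ℝ) : ℂ) := by
    rw [sum_inner, Complex.ofReal_sum]
    refine Finset.sum_congr rfl fun j _ => ?_
    rw [inner_sum, Finset.sum_eq_single j]
    · rw [inner_t2, inner_self_eq_norm_sq_to_K, inner_self_eq_norm_sq_to_K, hψ.norm_eq_one]
      simp
    · intro k _ hk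
      rw [inner_t2, hψ.inner_eq_zero hk, mul_zero]
    · simp
  rw [inner_self_eq_norm_sq_to_K] at e
  exact Complex.ofReal_injective ((Complex.ofReal_pow _ 2).trans e)

theorem norm_sq_eq_integral {α : Type*} [MeasurableSpace α] {μ : Measure α}
    (f : Lp ℂ 2 μ) : ‖f‖ ^ 2 = ∫ x, ‖(f : α → ℂ) x‖ ^ 2 ∂μ := by
  have h : ((‖f‖ ^ 2 : ℝ) : ℂ) = ((∫ x, ‖(f : α → ℂ) x‖ ^ 2 ∂μ : ℝ) : ℂ) := by
    rw [Complex.ofReal_pow, ← integral_complex_ofReal]
    refine (inner_self_eq_norm_sq_to_K (𝕜 := ℂ) f).symm.trans ?_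
    rw [L2.inner_def]
    refine integral_congr_ae (Eventually.of_forall fun x => ?_)
    simp [inner_self_eq_norm_sq_to_K]
  exact Complex.ofReal_injective h

/-- The bumps of a packet. -/
structure PacketData where
  β : ℝ → ℂ
  kk : ℝ → ℂ
  W : ℝ
  hW : 1 ≤ W
  hβ : Bump β
  hkk : Bump kk
  β_support : ∀ ν, β ν ≠ 0 → |ν| ≤ 1
  kk_support : ∀ ν, kk ν ≠ 0 → |ν| ≤ W
  kk_real : ∀ ν, (starRingEnd ℂ) (kk ν) = kk ν

namespace PacketData

variable (d : PacketData)

/-- The width of a box when there are `n` of them. -/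
def step (n : ℕ) : ℝ := 2 * (d.W + 1) / n

/-- The left end of the window. -/
def left : ℝ := -(d.W + 1)

/-- The packet. -/
def fn (T : ℝ) (p : ℝ × ℝ) : ℂ := pwave d.β (p.1 / T) * pwave d.kk (p.1 - p.2)

/-- The coefficients of the box approximation. -/
def coef (T : ℝ) (n : ℕ) (k l : ℕ) : ℂ :=
  (d.step n : ℂ) * ((T : ℂ) * d.β (T * (node d.left (d.step n) k - node d.left (d.step n) l))) *
    d.kk (node d.left (d.step n) l)

lemma continuous_fn (T : ℝ) : Continuous (d.fn T) :=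
  ((continuous_pwave d.hβ.integrable).comp (continuous_fst.div_const T)).mul
    ((continuous_pwave d.hkk.integrable).comp (continuous_fst.sub continuous_snd))

lemma step_pos {n : ℕ} (hn : 0 < n) : 0 < d.step n := by
  have := d.hW
  unfold step
  positivity

lemma exists_sq_bound :
    ∃ A : ℝ, 0 ≤ A ∧ ∀ s, ‖pwave d.β s‖ ^ 2 * (1 + |s|) ^ 2 ≤ A * (wgt s)⁻¹ := by
  obtain ⟨C, hC0, hC⟩ := exists_decay_pwave d.hβ 1
  refine ⟨2 * C ^ 2, by positivity, fun s => ?_⟩
  have h1 := pow_le_pow_left₀ (norm_nonneg _) (hC s) 2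
  have h2 : (1 + |s|) ^ 2 ≤ 2 * wgt s := by
    simp only [wgt]; nlinarith [sq_nonneg (|s| - 1), sq_abs s]
  refine (mul_le_mul h1 h2 (by positivity) (by positivity)).trans_eq ?_
  have := (wgt_pos s).ne'
  field_simp

lemma exists_fn_memLp : ∃ C : ℝ, 0 ≤ C ∧ ∀ T : ℝ, 0 < T →
    MemLp (d.fn T) 2 volume ∧ ∫ p, ‖d.fn T p‖ ^ 2 ≤ C * T := by
  obtain ⟨A, hA0, hA⟩ := d.exists_sq_bound
  obtain ⟨B, hB0, hB⟩ := exists_decay_pwave d.hkk 1
  refine ⟨A * B ^ 2 * Real.pi * Real.pi, by positivity, fun T hT => ?_⟩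
  have hsh : MeasurePreserving (fun p : ℝ × ℝ => (p.1, p.1 - p.2))
      ((volume : Measure ℝ).prod volume) ((volume : Measure ℝ).prod volume) :=
    (MeasurePreserving.id (volume : Measure ℝ)).skew_product (g := fun x y => x - y)
      (by exact measurable_fst.sub measurable_snd)
      (Eventually.of_forall fun x => (Measure.measurePreserving_sub_left volume x).map_eq)
  have hi : Integrable (fun q : ℝ × ℝ => A * (wgt (q.1 / T))⁻¹ * (B ^ 2 * (wgt q.2)⁻¹))
      ((volume : Measure ℝ).prod volume) :=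
    (((integrable_inv_one_add_sq.comp_div hT.ne').const_mul A).mul_prod
      (integrable_inv_one_add_sq.const_mul (B ^ 2)))
  have hb : ∀ p : ℝ × ℝ, ‖d.fn T p‖ ^ 2 ≤
      A * (wgt (p.1 / T))⁻¹ * (B ^ 2 * (wgt (p.1 - p.2))⁻¹) := fun p => by
    rw [fn, norm_mul, mul_pow]
    refine mul_le_mul ((le_mul_of_one_le_right (sq_nonneg _)
      (one_le_pow₀ (le_add_of_nonneg_right (abs_nonneg _)))).trans (hA _)) ?_ (sq_nonneg _)
      (mul_nonneg hA0 (inv_nonneg.2 (wgt_pos _).le))
    refine (pow_le_pow_left₀ (norm_nonneg _) (hB _) 2).trans ?_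
    rw [pow_one, mul_pow]
    refine mul_le_mul_of_nonneg_left ?_ (sq_nonneg _)
    exact pow_le_of_le_one (inv_nonneg.2 (wgt_pos _).le) (inv_le_one_of_one_le₀ (one_le_wgt _))
      two_ne_zero
  have hi' := (hsh.integrable_comp hi.aestronglyMeasurable).2 hi
  have hsq : Integrable (fun p => ‖d.fn T p‖ ^ 2) volume := by
    rw [Measure.volume_eq_prod]
    exact hi'.mono' ((d.continuous_fn T).norm.pow 2).aestronglyMeasurable
      (Eventually.of_forall fun p => by simpa [Real.norm_of_nonneg (sq_nonneg _)] using hb p)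
  refine ⟨(memLp_two_iff_integrable_sq_norm (d.continuous_fn T).aestronglyMeasurable).2 hsq, ?_⟩
  rw [Measure.volume_eq_prod] at hsq ⊢
  refine (integral_mono hsq hi' hb).trans_eq ?_
  rw [integral_prod _ hi']
  simp only [Function.comp, integral_const_mul,
    integral_sub_left_eq_self (fun y => (wgt y)⁻¹) volume]
  simp only [wgt, integral_univ_inv_one_add_sq, integral_mul_const, integral_const_mul]
  rw [Measure.integral_comp_div (fun s => (1 + s ^ 2)⁻¹) T, integral_univ_inv_one_add_sq,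
    abs_of_pos hT, smul_eq_mul]
  ring

/-- The `l`-th row. -/
lemma exists_row {T : ℝ} (hT : 0 < T) (a : ℝ) :
    ∃ F : L2, ((F : ℝ → ℂ) =ᵐ[volume] fun ν => (T : ℂ) * d.β (T * (ν - a))) ∧
      ((𝓕⁻ F : L2) : ℝ → ℂ) =ᵐ[volume] fun τ => pwave d.β (τ / T) * wave a τ := by
  have hB : Bump fun ν => (T : ℂ) * d.β (T * (ν - a)) :=
    { smooth := fun n => contDiff_const.mul ((d.hβ.smooth n).comp (by fun_prop))
      support := HasCompactSupport.intro (isCompact_Icc (a := a - 1 / T) (b := a + 1 / T))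
        fun ν hν => by
          by_contra h
          have hb := d.β_support _ (right_ne_zero_of_mul h)
          rw [abs_mul, abs_of_pos hT, ← le_div_iff₀' hT, abs_le] at hb
          exact hν ⟨by linarith [hb.1], by linarith [hb.2]⟩ }
  refine ⟨(hB.continuous.memLp_of_hasCompactSupport hB.support).toLp _, MemLp.coeFn_toLp _, ?_⟩
  refine (fourierInvL2_coeFn _ (hB.integrable.congr (MemLp.coeFn_toLp _).symm)).trans
    (Eventually.of_forall fun τ => ?_)
  simp only [pwave]
  calc ∫ ν, wave ν τ * (MemLp.toLp _ _ : ℝ → ℂ) ν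
      = ∫ ν, wave ν τ * ((T : ℂ) * d.β (T * (ν - a))) := by
        refine integral_congr_ae ?_
        filter_upwards [MemLp.coeFn_toLp (hB.continuous.memLp_of_hasCompactSupport hB.support)]
          with ν h using by rw [h]
    _ = ∫ ν, wave a τ * ((T : ℂ) * (wave (T * (ν - a)) (τ / T) * d.β (T * (ν - a)))) := by
        congr 1; ext ν
        rw [show wave ν τ = wave a τ * wave (T * (ν - a)) (τ / T) by
          simp only [wave, ← Complex.exp_add]
          congr 1
          rw [show 2 * Real.pi * (T * (ν - a)) * (τ / T) = 2 * Real.pi * (ν - a) * τ by field_simp]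
          push_cast; ring]
        ring
    _ = wave a τ * ((T : ℂ) * ((|T⁻¹| : ℝ) • ∫ ν, wave ν (τ / T) * d.β ν)) := by
        rw [integral_const_mul, integral_const_mul]
        congr 2
        rw [integral_sub_right_eq_self (fun x => wave (T * x) (τ / T) * d.β (T * x)) a,
          Measure.integral_comp_mul_left (fun x => wave x (τ / T) * d.β x) T]
    _ = (∫ ν, wave ν (τ / T) * d.β ν) * wave a τ := by
        rw [abs_of_pos (inv_pos.2 hT), Complex.real_smul, Complex.ofReal_inv, ← mul_assoc (T : ℂ),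
          mul_inv_cancel₀ (by exact_mod_cast hT.ne'), one_mul, mul_comm]

lemma bx_shift (c δ : ℝ) (m j : ℕ) : bx (node c δ m) δ j = bx c δ (m + j) := by
  unfold bx
  congr 1
  apply Lp.ext
  filter_upwards [coeFn_box (node c δ m) δ j, coeFn_box c δ (m + j)] with x h1 h2
  rw [h1, h2]
  simp only [node, Nat.cast_add]
  rw [show c + m * δ + j * δ = c + (m + j) * δ by ring]

/-- A function supported near `node l` is approximated by few boxes. -/
lemma bx_approx_near {n : ℕ} (hn : 0 < n) {r l : ℕ} (hl : r ≤ l) (hln : l + r < n) (f : ℝ → ℂ)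
    (F : L2) (hF : (F : ℝ → ℂ) =ᵐ[volume] f) (L : ℝ) (hL : 0 ≤ L)
    (hlip : ∀ a b, ‖f a - f b‖ ≤ L * |a - b|)
    (hsupp : ∀ ν, f ν ≠ 0 → |ν - node d.left (d.step n) l| < r * d.step n) :
    ‖𝓕⁻ F - ∑ k : Fin n, ((Real.sqrt (d.step n) : ℂ) * f (node d.left (d.step n) k)) •
        bx d.left (d.step n) k‖ ≤ L * d.step n * Real.sqrt ((2 * r + 1 : ℕ) * d.step n) := by
  set δ := d.step n
  have hδ := d.step_pos hn
  have h := bx_approx (c0 := node d.left δ (l - r)) hδ (2 * r + 1) f F hF L hL hlip fun ν hν => by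
    by_contra h
    have h' := abs_lt.1 (hsupp ν h)
    apply hν
    simp only [node, Set.mem_Ico, Nat.cast_sub hl] at h' ⊢
    push_cast
    constructor <;> nlinarith
  refine le_of_eq_of_le ?_ h
  congr 2
  rw [Fin.sum_univ_eq_sum_range (fun k => ((Real.sqrt δ : ℂ) * f (node d.left δ k)) •
    bx d.left δ k), Fin.sum_univ_eq_sum_range (fun j => ((Real.sqrt δ : ℂ) *
      f (node (node d.left δ (l - r)) δ j)) • bx (node d.left δ (l - r)) δ j)]
  symm
  rw [Finset.sum_congr rfl (g := fun j => ((Real.sqrt δ : ℂ) * f (node d.left δ (l - r + j))) •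
      bx d.left δ (l - r + j)) fun j _ => by
    rw [bx_shift, show node (node d.left δ (l - r)) δ j = node d.left δ (l - r + j) by
      simp only [node, Nat.cast_add]; ring]]
  have e := Finset.sum_Ico_eq_sum_range (fun k => ((Real.sqrt δ : ℂ) * f (node d.left δ k)) •
    bx d.left δ k) (l - r) (l + r + 1)
  rw [show l + r + 1 - (l - r) = 2 * r + 1 by omega] at e
  rw [← e]
  refine Finset.sum_subset (fun k hk => by simp only [Finset.mem_Ico, Finset.mem_range] at hk ⊢; omega)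
    fun k hk hk' => ?_
  simp only [Finset.mem_Ico, Finset.mem_range, not_and_or, not_le, not_lt] at hk hk'
  suffices f (node d.left δ k) = 0 by rw [this, mul_zero, zero_smul]
  by_contra h
  have h' := abs_lt.1 (hsupp _ h)
  simp only [node] at h'
  rcases hk' with hk' | hk'
  · have : ((k : ℝ) + r) + 1 ≤ l := by exact_mod_cast (show k + r + 1 ≤ l by omega)
    nlinarith
  · have : (l : ℝ) + r + 1 ≤ k := by exact_mod_cast hk'
    nlinarith

theorem exists_packet : ∃ C : ℝ, 0 ≤ C ∧ ∀ T : ℝ, 4 ≤ T → ∀ n : ℕ, 0 < n → d.step n * T ≤ 1 →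
    ∃ p : L22, ((p : ℝ × ℝ → ℂ) =ᵐ[volume] d.fn T) ∧ ‖p‖ ≤ C * Real.sqrt T ∧
      ‖p - ∑ k : Fin n, ∑ l : Fin n, d.coef T n k l •
          t2 (bx d.left (d.step n) k) (bx d.left (d.step n) l)‖ ≤
        C * (d.step n * T) * Real.sqrt T := by
  obtain ⟨C₀, hC₀, hfn⟩ := d.exists_fn_memLp
  obtain ⟨A, hA0, hA⟩ := d.exists_sq_bound
  obtain ⟨Lβ, hLβ0, hLβ⟩ := d.hβ.exists_lip
  obtain ⟨Lk, hLk0, hLk⟩ := d.hkk.exists_lip
  obtain ⟨Bk, hBk⟩ := d.hkk.support.exists_bound_of_continuous d.hkk.continuous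
  have hBk0 : 0 ≤ Bk := (norm_nonneg _).trans (hBk 0)
  set W2 := 2 * (d.W + 1) with hW2
  set K₁ := Real.sqrt (A * Real.pi * W2) * (Lk + 2 * Real.pi * Bk) with hK₁
  set K₂ := Bk * Real.sqrt W2 * (Lβ * Real.sqrt 9) with hK₂
  refine ⟨max (Real.sqrt C₀) (K₁ + K₂), le_max_of_le_left (Real.sqrt_nonneg _),
    fun T hT n hn hδT => ?_⟩
  set δ := d.step n with hδdef
  have hT0 : 0 < T := by linarith
  have hδ : 0 < δ := d.step_pos hn
  have hW := d.hW
  have hnδ : (n : ℝ) * δ = W2 := by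
    rw [hδdef, step, hW2]; field_simp
  have hWn : d.left + n * δ = d.W + 1 := by rw [hnδ, hW2, left]; ring
  set c : ℕ → L2 := fun k => bx d.left δ k
  set p : L22 := (hfn T hT0).1.toLp _
  have hp : (p : ℝ × ℝ → ℂ) =ᵐ[volume] d.fn T := MemLp.coeFn_toLp _
  refine ⟨p, hp, ?_, ?_⟩
  · refine le_trans ?_ (mul_le_mul_of_nonneg_right (le_max_left _ _) (Real.sqrt_nonneg _))
    rw [← Real.sqrt_mul hC₀]
    refine Real.le_sqrt_of_sq_le ?_
    rw [norm_sq_eq_integral]
    refine le_of_eq_of_le (integral_congr_ae ?_) (hfn T hT0).2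
    filter_upwards [hp] with x hx
    rw [hx]
  choose F hF hF' using fun l : Fin n => d.exists_row hT0 (node d.left δ l)
  set a : Fin n → ℂ := fun l => (Real.sqrt δ : ℂ) * d.kk (node d.left δ l)
  set P₂ : L22 := ∑ l : Fin n, t2 (a l • (𝓕⁻ (F l) : L2)) (c l)
  set s : Fin n → L2 := fun l => ∑ k : Fin n, ((Real.sqrt δ : ℂ) *
    ((T : ℂ) * d.β (T * (node d.left δ k - node d.left δ l)))) • c k
  -- the first variable
  have h1 : ‖p - P₂‖ ≤ K₁ * (δ * T) * Real.sqrt T := by
    have hK : K₁ * (δ * T) * Real.sqrt T =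
        Real.sqrt (A * Real.pi * W2 * (Lk + 2 * Real.pi * Bk) ^ 2 * (δ * T) ^ 2 * T) := by
      rw [Real.sqrt_mul (by positivity), Real.sqrt_mul (by positivity),
        Real.sqrt_mul (by positivity), Real.sqrt_sq (by positivity), Real.sqrt_sq (by positivity)]
    rw [hK]
    refine Real.le_sqrt_of_sq_le ?_
    rw [norm_sq_eq_integral]
    set Φ : ℝ × ℝ → ℂ := fun q => pwave d.β (q.1 / T) *
      (pwave d.kk (q.1 - q.2) - ∑ l : Fin n, a l * wave (node d.left δ l) q.1 *
        (starRingEnd ℂ) ((c l : ℝ → ℂ) q.2))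
    have hae : ((p - P₂ : L22) : ℝ × ℝ → ℂ) =ᵐ[volume] Φ := by
      have hl : ∀ᵐ q : ℝ × ℝ, ∀ l : Fin n, (t2 (a l • (𝓕⁻ (F l) : L2)) (c l) : ℝ × ℝ → ℂ) q =
          a l * (pwave d.β (q.1 / T) * wave (node d.left δ l) q.1) *
            (starRingEnd ℂ) ((c l : ℝ → ℂ) q.2) := by
        rw [ae_all_iff]
        intro l
        filter_upwards [coeFn_t2 (a l • (𝓕⁻ (F l) : L2)) (c l),
          t2_fst_aux _ ((Lp.coeFn_smul (a l) (𝓕⁻ (F l) : L2)).trans ((hF' l).const_smul (a l)))]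
          with q e1 e2
        rw [e1, e2, Pi.smul_apply, smul_eq_mul]
      filter_upwards [Lp.coeFn_sub p P₂, hp, hl, Lp.coeFn_fun_finsetSum Finset.univ
        (fun l : Fin n => t2 (a l • (𝓕⁻ (F l) : L2)) (c l))] with q e1 e2 e3 e4
      rw [e1, Pi.sub_apply, e2, e4]
      simp only [e3, fn, Φ, mul_sub, Finset.mul_sum]
      congr 1
      refine Finset.sum_congr rfl fun l _ => ?_
      ring
    have hint : Integrable (fun q => ‖Φ q‖ ^ 2) (volume : Measure (ℝ × ℝ)) :=
      ((Lp.memLp (p - P₂)).integrable_norm_pow (p := 2) (by norm_num)).congr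
        (hae.mono fun q hq => by simp only [hq])
    refine le_of_eq_of_le (integral_congr_ae (g := fun q => ‖Φ q‖ ^ 2)
      (hae.mono fun q hq => by simp only [hq])) ?_
    rw [Measure.volume_eq_prod] at hint ⊢
    rw [integral_prod _ hint]
    have hslice : ∀ τ : ℝ, ∫ τ', ‖Φ (τ, τ')‖ ^ 2 ≤
        δ ^ 2 * W2 * (Lk + 2 * Real.pi * Bk) ^ 2 * T ^ 2 * (A * (wgt (τ / T))⁻¹) := by
      intro τ
      set f : ℝ → ℂ := fun ν => d.kk ν * wave ν (-τ)
      have hfc : Continuous f :=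
        d.hkk.continuous.mul (continuous_wave.comp (continuous_id.prodMk continuous_const))
      have hfs : HasCompactSupport f := d.hkk.support.mul_right
      set G : L2 := (hfc.memLp_of_hasCompactSupport hfs).toLp _
      have hG : (G : ℝ → ℂ) =ᵐ[volume] f := MemLp.coeFn_toLp _
      have hlip : ∀ x y, ‖f x - f y‖ ≤ ((Lk + 2 * Real.pi * Bk) * (1 + |τ|)) * |x - y| := by
        intro x y
        have e : f x - f y =
            (d.kk x - d.kk y) * wave x (-τ) + d.kk y * (wave x (-τ) - wave y (-τ)) := by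
          simp only [f]; ring
        rw [e]
        refine (norm_add_le _ _).trans ?_
        rw [norm_mul, norm_mul, norm_wave, mul_one]
        refine (add_le_add (hLk x y) (mul_le_mul (hBk y) (norm_wave_sub_le x y (-τ))
          (norm_nonneg _) hBk0)).trans ?_
        rw [abs_neg]
        nlinarith [mul_nonneg (mul_nonneg hLk0 (abs_nonneg τ)) (abs_nonneg (x - y)),
          mul_nonneg (mul_nonneg Real.pi_pos.le hBk0) (abs_nonneg (x - y))]
      have happ := bx_approx (c0 := d.left) hδ n f G hG _ (by positivity) hlip fun ν hν => by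
        by_contra h
        have := abs_le.1 (d.kk_support ν (left_ne_zero_of_mul h))
        apply hν
        rw [hWn, left]
        constructor <;> linarith
      rw [hnδ] at happ
      set Z : L2 := 𝓕⁻ G - ∑ k : Fin n, ((Real.sqrt δ : ℂ) * f (node d.left δ k)) • bx d.left δ k
      have hpw : ∀ τ', pwave d.kk (τ - τ') = (starRingEnd ℂ) (pwave f τ') := by
        intro τ'
        unfold pwave
        rw [← integral_conj]
        congr 1
        ext ν
        simp only [f, map_mul, d.kk_real, wave, ← Complex.exp_conj, Complex.conj_ofReal,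
          Complex.conj_I]
        rw [mul_comm (d.kk ν), ← mul_assoc, ← Complex.exp_add]
        congr 2
        push_cast
        ring
      have hZ : (fun τ' => ‖Φ (τ, τ')‖ ^ 2) =ᵐ[volume]
          fun τ' => ‖pwave d.β (τ / T)‖ ^ 2 * ‖(Z : ℝ → ℂ) τ'‖ ^ 2 := by
        have hb : ∀ᵐ τ' : ℝ, ∀ k : Fin n,
            (((Real.sqrt δ : ℂ) * f (node d.left δ k)) • bx d.left δ k : L2) τ' =
              (Real.sqrt δ : ℂ) * f (node d.left δ k) * (c k : ℝ → ℂ) τ' := by
          rw [ae_all_iff]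
          intro k
          filter_upwards [Lp.coeFn_smul ((Real.sqrt δ : ℂ) * f (node d.left δ k)) (bx d.left δ k)]
            with x hx
          rw [hx, Pi.smul_apply, smul_eq_mul]
        filter_upwards [Lp.coeFn_sub (𝓕⁻ G : L2) (∑ k : Fin n,
            ((Real.sqrt δ : ℂ) * f (node d.left δ k)) • bx d.left δ k),
          fourierInvL2_coeFn G ((hfc.integrable_of_hasCompactSupport hfs).congr hG.symm),
          Lp.coeFn_fun_finsetSum Finset.univ (fun k : Fin n =>
            ((Real.sqrt δ : ℂ) * f (node d.left δ k)) • bx d.left δ k), hb] with x e1 e2 e3 e4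
        have e2' : ((𝓕⁻ G : L2) : ℝ → ℂ) x = pwave f x := by
          rw [e2]
          unfold pwave
          refine integral_congr_ae ?_
          filter_upwards [hG] with ν hν using by rw [hν]
        rw [e1, Pi.sub_apply, e2', e3]
        simp only [e4, Φ, norm_mul, mul_pow, hpw]
        congr 2
        rw [← RCLike.norm_conj]
        congr 1
        simp only [map_sub, map_sum, map_mul, Complex.conj_conj, a, f, d.kk_real,
          Complex.conj_ofReal]
        congr 1
        refine Finset.sum_congr rfl fun k _ => ?_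
        simp only [wave, ← Complex.exp_conj, map_mul, Complex.conj_ofReal, Complex.conj_I]
        rw [show ((2 * Real.pi * node d.left δ k * τ : ℝ) : ℂ) * -I =
          ((2 * Real.pi * node d.left δ k * -τ : ℝ) : ℂ) * I by push_cast; ring]
        ring
      rw [integral_congr_ae hZ, integral_const_mul, ← norm_sq_eq_integral]
      have h2 := pow_le_pow_left₀ (norm_nonneg _) happ 2
      rw [mul_pow, mul_pow, mul_pow, Real.sq_sqrt (by positivity)] at h2
      refine (mul_le_mul_of_nonneg_left h2 (sq_nonneg _)).trans ?_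
      have h3 : ‖pwave d.β (τ / T)‖ ^ 2 * (1 + |τ|) ^ 2 ≤ T ^ 2 * (A * (wgt (τ / T))⁻¹) := by
        refine le_trans ?_ (mul_le_mul_of_nonneg_left (hA (τ / T)) (sq_nonneg T))
        rw [← mul_assoc, mul_comm (T ^ 2), mul_assoc]
        refine mul_le_mul_of_nonneg_left ?_ (sq_nonneg _)
        rw [← mul_pow, mul_add, mul_one, abs_div, abs_of_pos hT0, mul_div_cancel₀ _ hT0.ne']
        exact pow_le_pow_left₀ (by positivity) (by linarith) 2
      calc _ = δ ^ 2 * W2 * (Lk + 2 * Real.pi * Bk) ^ 2 *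
            (‖pwave d.β (τ / T)‖ ^ 2 * (1 + |τ|) ^ 2) := by ring
        _ ≤ δ ^ 2 * W2 * (Lk + 2 * Real.pi * Bk) ^ 2 * (T ^ 2 * (A * (wgt (τ / T))⁻¹)) :=
            mul_le_mul_of_nonneg_left h3 (by positivity)
        _ = _ := by ring
    refine (integral_mono hint.integral_prod_left ?_ hslice).trans ?_
    · exact ((integrable_inv_one_add_sq.comp_div hT0.ne').const_mul _).const_mul _
    simp only [wgt, integral_const_mul]
    rw [Measure.integral_comp_div (fun x => (1 + x ^ 2)⁻¹) T, integral_univ_inv_one_add_sq,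
      abs_of_pos hT0, smul_eq_mul]
    exact le_of_eq (by ring)
  -- the second variable
  have h2 : ‖P₂ - ∑ l : Fin n, t2 (a l • s l) (c l)‖ ≤ K₂ * (δ * T) * Real.sqrt T := by
    rw [show P₂ - ∑ l : Fin n, t2 (a l • s l) (c l) =
        ∑ l : Fin n, t2 (a l • ((𝓕⁻ (F l) : L2) - s l)) (c l) by
      rw [← Finset.sum_sub_distrib]; simp only [smul_sub, t2_sub]]
    refine le_of_pow_le_pow_left₀ two_ne_zero (by positivity) ?_
    rw [norm_sum_t2_sq _ (fun l : Fin n => c l)
      ((orthonormal_bx hδ).comp _ Fin.val_injective)]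
    have hterm : ∀ l : Fin n, ‖a l • ((𝓕⁻ (F l) : L2) - s l)‖ ^ 2 ≤
        δ * Bk ^ 2 * (Lβ ^ 2 * 9 * ((δ * T) ^ 2 * T)) := by
      intro l
      by_cases h0 : d.kk (node d.left δ l) = 0
      · simp only [a, h0, mul_zero, zero_smul, norm_zero]
        rw [sq, zero_mul]; positivity
      have hν := abs_le.1 (d.kk_support _ h0)
      set r := ⌊(T * δ)⁻¹⌋₊ + 1 with hr
      have hTδ : (T * δ)⁻¹ * δ = T⁻¹ := by field_simp
      have hr1 : T⁻¹ < r * δ := by
        rw [← hTδ, hr]; push_cast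
        exact mul_lt_mul_of_pos_right (Nat.lt_floor_add_one _) hδ
      have hδ1 : δ ≤ T⁻¹ := by rw [← one_div, le_div_iff₀ hT0]; exact hδT
      have hr2 : r * δ ≤ 2 * T⁻¹ := by
        have := mul_le_mul_of_nonneg_right
          (Nat.floor_le (inv_nonneg.2 (mul_nonneg hT0.le hδ.le))) hδ.le
        rw [hTδ] at this
        rw [hr]; push_cast; linarith
      have hT4 : T⁻¹ ≤ 1 / 4 := by rw [one_div]; exact inv_anti₀ (by norm_num) hT
      simp only [node, left] at hν
      have hlr : r ≤ (l : ℕ) := by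
        have : (r : ℝ) * δ < (l : ℕ) * δ := by linarith [hν.1]
        exact_mod_cast (lt_of_mul_lt_mul_right this hδ.le).le
      have hlrn : (l : ℕ) + r < n := by
        have : (((l : ℕ) + r : ℕ) : ℝ) * δ < n * δ := by
          rw [hnδ, hW2]; push_cast; linarith [hν.2]
        exact_mod_cast lt_of_mul_lt_mul_right this hδ.le
      have happ : ‖(𝓕⁻ (F l) : L2) - s l‖ ≤
          T ^ 2 * Lβ * δ * Real.sqrt ((2 * r + 1 : ℕ) * δ) :=
        d.bx_approx_near hn hlr hlrn (fun ν => (T : ℂ) * d.β (T * (ν - node d.left δ l))) (F l)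
          (hF l) (T ^ 2 * Lβ) (by positivity)
          (fun x y => by
            rw [← mul_sub, norm_mul, Complex.norm_real, Real.norm_of_nonneg hT0.le]
            refine (mul_le_mul_of_nonneg_left (hLβ _ _) hT0.le).trans_eq ?_
            rw [show T * (x - node d.left δ l) - T * (y - node d.left δ l) = T * (x - y) by ring,
              abs_mul, abs_of_pos hT0]
            ring)
          (fun ν hν' => by
            have hb := d.β_support _ (right_ne_zero_of_mul hν')
            rw [abs_mul, abs_of_pos hT0, ← le_div_iff₀' hT0, one_div] at hb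
            exact hb.trans_lt hr1)
      have h9 : ((2 * r + 1 : ℕ) : ℝ) * δ ≤ 9 * T⁻¹ := by push_cast; linarith
      rw [norm_smul, mul_pow]
      refine (mul_le_mul ?_ (pow_le_pow_left₀ (norm_nonneg _) happ 2) (sq_nonneg _)
        (by positivity : (0:ℝ) ≤ δ * Bk ^ 2)).trans ?_
      · simp only [a, norm_mul, Complex.norm_real, mul_pow, Real.norm_eq_abs, sq_abs,
          Real.sq_sqrt hδ.le]
        exact mul_le_mul_of_nonneg_left (pow_le_pow_left₀ (norm_nonneg _) (hBk _) 2) hδ.le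
      · refine mul_le_mul_of_nonneg_left ?_ (by positivity)
        rw [mul_pow, Real.sq_sqrt (by positivity)]
        refine (mul_le_mul_of_nonneg_left h9 (sq_nonneg _)).trans_eq ?_
        field_simp
    refine (Finset.sum_le_sum fun l _ => hterm l).trans_eq ?_
    rw [Finset.sum_const, Finset.card_univ, Fintype.card_fin, nsmul_eq_mul, hK₂]
    simp only [mul_pow]
    rw [Real.sq_sqrt (by positivity), Real.sq_sqrt (by norm_num), Real.sq_sqrt hT0.le, ← hnδ]
    ring
  have e : (∑ k : Fin n, ∑ l : Fin n, d.coef T n k l • t2 (c k) (c l)) =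
      ∑ l : Fin n, t2 (a l • s l) (c l) := by
    rw [Finset.sum_comm]
    refine Finset.sum_congr rfl fun l _ => ?_
    simp only [s, Finset.smul_sum, smul_smul, t2_sum, t2_smul]
    refine Finset.sum_congr rfl fun k _ => ?_
    congr 1
    simp only [coef, a, ← hδdef]
    have hs : (δ : ℂ) = (Real.sqrt δ : ℂ) * (Real.sqrt δ : ℂ) := by
      rw [← Complex.ofReal_mul, Real.mul_self_sqrt hδ.le]
    rw [hs]
    ring
  rw [show (∑ k : Fin n, ∑ l : Fin n, d.coef T n k l • t2 (bx d.left δ k) (bx d.left δ l)) =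
    ∑ l : Fin n, t2 (a l • s l) (c l) from e]
  refine (norm_sub_le_norm_sub_add_norm_sub _ P₂ _).trans ((add_le_add h1 h2).trans ?_)
  rw [← add_mul, ← add_mul]
  exact mul_le_mul_of_nonneg_right (mul_le_mul_of_nonneg_right (le_max_right _ _) (by positivity))
    (Real.sqrt_nonneg _)

end PacketData

end P132.Core
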