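import Vale.Agent.P132.Core.Model2
import Vale.Agent.P132.Core.FiniteKey
import Vale.Agent.P132.Core.Packet

/-!
# P132 core: a flow fixed isometry is invisible to words

For a flow fixed isometry `x` in `B`, boxes of width `δ` spreading over a frequency window of length `R`
and a scalar matrix `q` with bound `1`, expectations of words in the `Dop`s at `Y = x (ι q)` and at
`P = ι q` differ by at most `ε` times the total weight, once `δ` is small.
-/

noncomputable section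

set_option linter.unusedSectionVars false

namespace P132.Core

open MeasureTheory Complex ComplexConjugate
open scoped InnerProductSpace

variable {H : Type*} [NormedAddCommGroup H] [InnerProductSpace ℂ H] [CompleteSpace H]
variable {S : Std H} (D : Modular S)

theorem matBound_mono {n : ℕ} {e : Fin n → Fin n → H →L[ℂ] H} {a b : ℝ} (he : MatBound e a)
    (ha : 0 ≤ a) (hab : a ≤ b) : MatBound e b := fun v =>
  (he v).trans (mul_le_mul_of_nonneg_right (pow_le_pow_left₀ ha hab 2) (by positivity))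

theorem abs_logW_sub_le {c0 δ shift R : ℝ} (hδ : 0 ≤ δ) {n : ℕ} (hR : n * δ ≤ R) (k l : Fin n) :
    |logW (n := n) c0 δ shift k - logW c0 δ shift l| ≤ 2 * Real.pi * R := by
  have hk : (k : ℝ) ≤ n := by exact_mod_cast k.isLt.le
  have hl : (l : ℝ) ≤ n := by exact_mod_cast l.isLt.le
  have hk0 : (0 : ℝ) ≤ (k : ℝ) := Nat.cast_nonneg _
  have hl0 : (0 : ℝ) ≤ (l : ℝ) := Nat.cast_nonneg _
  have e : logW (n := n) c0 δ shift k - logW c0 δ shift l
      = 2 * Real.pi * (((l : ℝ) - k) * δ) := by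
    simp only [logW, node]; ring
  rw [e, abs_mul, abs_of_pos Real.two_pi_pos, abs_mul, abs_of_nonneg hδ]
  refine mul_le_mul_of_nonneg_left (le_trans ?_ hR) Real.two_pi_pos.le
  exact mul_le_mul_of_nonneg_right (abs_le.2 ⟨by linarith, by linarith⟩) hδ

/-- `1 ⊗ x` of `ι (vec q)` is `ι (vec (q x))`. -/
theorem lift2_iota_vec (x : H →L[ℂ] H) (c0 δ : ℝ) {n : ℕ} (L : Fin n → ℝ) (q : Fin n → Fin n → ℂ) :
    lift2 x (iota c0 δ (vec S L fun i j => q i j • 1))
      = iota c0 δ (vec S L fun i j => q i j • x) := by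
  rw [lift2_iota]
  congr 1
  funext k l
  simp [vec]

/-- Words cannot tell `x (ι q)` from `ι q`, uniformly in the word, the boxes and `q`. -/
theorem word_close {x : H →L[ℂ] H} (hx : x ∈ S.M) (hfix : D.KeyFix x)
    (hiso : star x * x = 1) (R : ℝ) {ε : ℝ} (hε : 0 < ε) :
    ∃ δ0 > 0, ∀ (c0 δ shift : ℝ), 0 < δ → δ ≤ δ0 → ∀ n : ℕ, n * δ ≤ R →
      ∀ (q : Fin n → Fin n → ℂ), MatBound (fun k l => q k l • (1 : H →L[ℂ] H)) 1 →
      ∀ {k : ℝ → ℂ} (hki : Integrable k), (∀ u, k (-u) = conj (k u)) →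
      ∀ {N : ℕ} (a : Fin N → H →L[ℂ] H), (∀ j, a j ∈ S.M) → (∀ j, IsSelfAdjoint (a j)) →
      ∀ U ∈ Coherence.words (Dop D hki a),
        ‖⟪lift2 x (iota c0 δ (vec S (logW (n := n) c0 δ shift) fun i j => q i j • 1)),
            U (lift2 x (iota c0 δ (vec S (logW (n := n) c0 δ shift) fun i j => q i j • 1)))⟫_ℂ -
          ⟪iota c0 δ (vec S (logW (n := n) c0 δ shift) fun i j => q i j • 1),
            U (iota c0 δ (vec S (logW (n := n) c0 δ shift) fun i j => q i j • 1))⟫_ℂ‖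
        ≤ ε * ∑ i : Fin n, Real.exp (logW c0 δ shift i) := by
  obtain ⟨η, hη, hkey⟩ := P132.finite_key D hx hfix hiso (2 * Real.pi * R) hε
  refine ⟨η / (4 * Real.pi), by positivity,
    fun c0 δ shift hδ hδ0 n hR q hq k hki hk N a ha hsa U hU => ?_⟩
  obtain ⟨c, hc, -, hinv, halg, heq⟩ := word_compress D hki hk a ha hsa hU
  have hc1 := norm_le_one_of_unitary hc
  have hb : Orthonormal ℂ fun i : Fin n => bx c0 δ i :=
    (orthonormal_bx hδ).comp _ Fin.val_injective
  have hbound : MatBound (compress (n := n) c0 δ c) 1 :=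
    matBound_mono (matBound_entry _ _ hb (fun i j h => hb.inner_eq_zero h) zero_le_one
      (fun i => (hb.norm_eq_one i).le) c) (by positivity) (by rwa [mul_one])
  have hlip : MatLip D (logW (n := n) c0 δ shift) (compress c0 δ c) η := fun t =>
    matBound_mono (matLip_compress D hδ n shift hinv t) (by positivity)
      (mul_le_mul_of_nonneg_right
        (calc 4 * Real.pi * δ * ‖c‖ ≤ 4 * Real.pi * δ * 1 :=
              mul_le_mul_of_nonneg_left hc1 (by positivity)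
          _ ≤ η := by rw [mul_one, mul_comm]; exact (le_div_iff₀ (by positivity)).1 hδ0)
        (abs_nonneg t))
  rw [lift2_iota_vec, heq, heq]
  exact hkey n _ _ q (abs_logW_sub_le hδ.le hR) (fun i j => entry_mem halg _ _) hbound hlip hq

/-! ### Packets -/

theorem norm_lift2_of_isometry {x : H →L[ℂ] H} (hiso : star x * x = 1) (P : K2 H) :
    ‖lift2 x P‖ = ‖P‖ := by
  have hv : ∀ v, ‖x v‖ = ‖v‖ := fun v => by
    rw [@norm_eq_sqrt_re_inner ℂ, @norm_eq_sqrt_re_inner ℂ, ← ContinuousLinearMap.adjoint_inner_right,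
      ← ContinuousLinearMap.star_eq_adjoint, ← mul_apply_eq_comp, hiso, one_apply_eq_self]
  rw [Lp.norm_def, Lp.norm_def]
  congr 1
  refine eLpNorm_congr_norm_ae ?_
  filter_upwards [(constField x).coeFn_mulOp P] with p hp
  rw [lift2, hp]
  exact hv _

/-- Words in self-adjoint operators preserve norms. -/
theorem norm_word_apply {E : Type*} [NormedAddCommGroup E] [InnerProductSpace ℂ E] [CompleteSpace E]
    {N : ℕ} {Ds : Fin N → E →L[ℂ] E} (hD : ∀ j, IsSelfAdjoint (Ds j)) {U : E →L[ℂ] E}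
    (hU : U ∈ Coherence.words Ds) : ∀ z, ‖U z‖ = ‖z‖ := by
  unfold Coherence.words at hU
  induction hU using Submonoid.closure_induction with
  | mem U hU =>
    rcases hU with ⟨j, rfl⟩ | ⟨j, rfl⟩
    · exact Coherence.norm_phase_apply (hD j)
    · intro z
      dsimp only
      rw [← smul_neg]
      exact Coherence.norm_phase_apply (hD j).neg z
  | one => intro z; rfl
  | mul U V _ _ hU hV => intro z; rw [mul_apply_eq_comp, hU, hV]

theorem norm_sandwich_sub_le {E : Type*} [NormedAddCommGroup E] [InnerProductSpace ℂ E]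
    {U : E →L[ℂ] E} (hU : ∀ z, ‖U z‖ = ‖z‖) (a b : E) :
    ‖⟪a, U a⟫_ℂ - ⟪b, U b⟫_ℂ‖ ≤ ‖a - b‖ * (‖a‖ + ‖b‖) := by
  have e : ⟪a, U a⟫_ℂ - ⟪b, U b⟫_ℂ = ⟪a - b, U a⟫_ℂ + ⟪b, U (a - b)⟫_ℂ := by
    simp only [inner_sub_left, map_sub, inner_sub_right]; ring
  rw [e]
  refine (norm_add_le _ _).trans ((add_le_add (norm_inner_le_norm _ _)
    (norm_inner_le_norm _ _)).trans_eq ?_)
  rw [hU, hU]; ring

/-- Schur's test for a scalar matrix. -/
theorem matBound_scalar {n : ℕ} {q : Fin n → Fin n → ℂ} {C : ℝ} (hr : ∀ k, ∑ l, ‖q k l‖ ≤ C)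
    (hc : ∀ l, ∑ k, ‖q k l‖ ≤ C) : MatBound (fun k l => q k l • (1 : H →L[ℂ] H)) C := by
  intro v
  simp only [smul_apply, one_apply_eq_self]
  calc ∑ k, ‖∑ l, q k l • v l‖ ^ 2 ≤ ∑ k, C * ∑ l, ‖q k l‖ * ‖v l‖ ^ 2 := by
        refine Finset.sum_le_sum fun k _ => ?_
        have h1 : ‖∑ l, q k l • v l‖ ≤ ∑ l, ‖q k l‖ * ‖v l‖ :=
          (norm_sum_le _ _).trans_eq (Finset.sum_congr rfl fun l _ => norm_smul _ _)
        refine (pow_le_pow_left₀ (norm_nonneg _) h1 2).trans ?_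
        refine (Finset.sum_sq_le_sum_mul_sum_of_sq_le_mul _ (fun l _ => norm_nonneg _)
          (fun l _ => mul_nonneg (norm_nonneg (q k l)) (sq_nonneg ‖v l‖)) fun l _ => le_of_eq (by ring)).trans ?_
        exact mul_le_mul_of_nonneg_right (hr k)
          (Finset.sum_nonneg fun l _ => mul_nonneg (norm_nonneg _) (sq_nonneg _))
    _ = C * ∑ l, (∑ k, ‖q k l‖) * ‖v l‖ ^ 2 := by
        rw [← Finset.mul_sum, Finset.sum_comm]
        simp only [Finset.sum_mul]
    _ ≤ C ^ 2 * ∑ l, ‖v l‖ ^ 2 := by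
        rcases isEmpty_or_nonempty (Fin n) with h | ⟨⟨i⟩⟩
        · simp
        have hC : 0 ≤ C := (Finset.sum_nonneg fun l _ => norm_nonneg _).trans (hr i)
        rw [pow_two, mul_assoc]
        refine mul_le_mul_of_nonneg_left ?_ hC
        rw [Finset.mul_sum]
        exact Finset.sum_le_sum fun l _ => mul_le_mul_of_nonneg_right (hc l) (sq_nonneg _)

/-- At most `2 s + 1` indices lie within `s` of a given one. -/
theorem card_near_le {n : ℕ} (k : Fin n) {s : ℝ} (hs : 0 ≤ s) :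
    ((Finset.univ.filter fun l : Fin n => |(k : ℝ) - l| ≤ s).card : ℝ) ≤ 2 * s + 1 := by
  have h : (Finset.univ.filter fun l : Fin n => |(k : ℝ) - l| ≤ s).card
      ≤ (Finset.Icc ((k : ℤ) - ⌊s⌋) ((k : ℤ) + ⌊s⌋)).card := by
    refine Finset.card_le_card_of_injOn (fun l => (l : ℤ)) (fun l hl => ?_) fun a _ b _ hab => ?_
    · simp only [Finset.coe_filter, Finset.mem_univ, true_and, Set.mem_ofPred_eq] at hl
      have h1 : |(k : ℤ) - l| ≤ ⌊s⌋ := Int.le_floor.2 (by push_cast; exact hl)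
      rw [abs_le] at h1
      simp only [Finset.coe_Icc, Set.mem_Icc]
      omega
    · exact Fin.ext (Int.ofNat.inj hab)
  rw [Int.card_Icc] at h
  have h0 : 0 ≤ ⌊s⌋ := Int.floor_nonneg.2 hs
  refine (Nat.cast_le.2 h).trans ?_
  have h2 : ((((k : ℤ) + ⌊s⌋ + 1 - ((k : ℤ) - ⌊s⌋)).toNat : ℕ) : ℤ) = 2 * ⌊s⌋ + 1 := by omega
  have h3 : ((((k : ℤ) + ⌊s⌋ + 1 - ((k : ℤ) - ⌊s⌋)).toNat : ℕ) : ℝ) = 2 * (⌊s⌋ : ℝ) + 1 := by
    exact_mod_cast h2
  rw [h3]
  linarith [Int.floor_le s]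

theorem ten_sub {α : Type*} [MeasurableSpace α] {μ : Measure α} (w : H) (f g : Lp ℂ 2 μ) :
    ten w (f - g) = ten w f - ten w g :=
  map_sub (ContinuousLinearMap.compLpL 2 μ (ContinuousLinearMap.toSpanSingleton ℂ w)) f g

theorem ten_t2 (φ ψ : L2) (v : H) : ten v (t2 φ ψ) = inL (conjL ψ) (tenL φ v) := by
  apply Lp.ext
  filter_upwards [coeFn_ten v (t2 φ ψ), coeFn_t2 φ ψ, coeFn_inL (conjL ψ) (ten v φ),
    ae_fst (coeFn_ten v φ), ae_snd (coeFn_conjL ψ)] with p h1 h2 h3 h4 h5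
  rw [tenL_apply, h1, h2, h3, h4, h5, smul_smul, mul_comm]

/-- The scalar matrix of the box approximation of a packet. -/
def packetQ (d : PacketData) (T : ℝ) (n : ℕ) (k l : Fin n) : ℂ :=
  d.coef T n k l * ((Real.exp (Real.pi * node d.left (d.step n) l) : ℝ) : ℂ)

theorem iota_packetQ (d : PacketData) (T : ℝ) (n : ℕ) :
    iota d.left (d.step n) (vec S (logW (n := n) d.left (d.step n) 0)
        fun i j => packetQ d T n i j • 1)
      = ten S.Ω (∑ k : Fin n, ∑ l : Fin n, d.coef T n k l •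
          t2 (bx d.left (d.step n) k) (bx d.left (d.step n) l)) := by
  have hv : ∀ k l : Fin n, vec S (logW (n := n) d.left (d.step n) 0)
      (fun i j => packetQ d T n i j • 1) k l = d.coef T n k l • S.Ω := fun k l => by
    simp only [vec, packetQ, smul_apply, one_apply_eq_self, smul_smul, logW]
    congr 1
    rw [mul_left_comm, ← Complex.ofReal_mul, ← Real.exp_add,
      show (-(2 * Real.pi * node d.left (d.step n) l) + 0) / 2
        + Real.pi * node d.left (d.step n) l = 0 by ring, Real.exp_zero, Complex.ofReal_one, mul_one]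
  have hlin : ∀ (c : ℂ) (f : L22), ten S.Ω (c • f) = c • ten S.Ω f := fun c f =>
    map_smul (ContinuousLinearMap.compLpL 2 volume (ContinuousLinearMap.toSpanSingleton ℂ S.Ω)) c f
  have hsum : ∀ f : Fin n → L22, ten S.Ω (∑ i, f i) = ∑ i, ten S.Ω (f i) := fun f =>
    map_sum (ContinuousLinearMap.compLpL 2 volume (ContinuousLinearMap.toSpanSingleton ℂ S.Ω)) f _
  simp only [iota, hv, hsum, hlin, ten_t2, map_sum, map_smul]
  exact Finset.sum_comm

theorem node_left_abs_le (d : PacketData) {n : ℕ} (l : Fin n) :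
    |node d.left (d.step n) l| ≤ d.W + 1 := by
  have hn : 0 < n := l.pos
  have h0 := d.step_pos hn
  have h1 : (l : ℝ) * d.step n ≤ n * d.step n :=
    mul_le_mul_of_nonneg_right (by exact_mod_cast l.isLt.le) h0.le
  have h2 : (n : ℝ) * d.step n = 2 * (d.W + 1) := by
    have : (n : ℝ) ≠ 0 := by exact_mod_cast hn.ne'
    rw [PacketData.step]; field_simp
  have h3 : (0 : ℝ) ≤ l * d.step n := by positivity
  rw [node, PacketData.left, abs_le]
  constructor <;> linarith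

/-- The matrix of a packet is bounded, uniformly in `T` and in the number of boxes. -/
theorem exists_packetQ_bound (d : PacketData) : ∃ C : ℝ, 0 < C ∧ ∀ T : ℝ, 0 < T → ∀ n : ℕ,
    d.step n * T ≤ 1 → MatBound (fun k l => packetQ d T n k l • (1 : H →L[ℂ] H)) C := by
  obtain ⟨Bb, hBb⟩ := d.hβ.support.exists_bound_of_continuous d.hβ.continuous
  obtain ⟨Bk, hBk⟩ := d.hkk.support.exists_bound_of_continuous d.hkk.continuous
  have hBb0 : 0 ≤ Bb := (norm_nonneg _).trans (hBb 0)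
  have hBk0 : 0 ≤ Bk := (norm_nonneg _).trans (hBk 0)
  set E := Real.exp (Real.pi * (d.W + 1))
  refine ⟨3 * (Bb * Bk * E) + 1, by positivity, fun T hT n hδT => ?_⟩
  rcases Nat.eq_zero_or_pos n with rfl | hn
  · intro v; simp
  set δ := d.step n with hδdef
  have hδ : 0 < δ := d.step_pos hn
  have hdT : 0 < δ * T := mul_pos hδ hT
  have hq : ∀ k l : Fin n, ‖packetQ d T n k l‖ ≤
      if |(k : ℝ) - l| ≤ (δ * T)⁻¹ then δ * T * (Bb * Bk * E) else 0 := by
    intro k l
    have e : T * (node d.left δ k - node d.left δ l) = ((k : ℝ) - l) * (δ * T) := by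
      simp only [node]; ring
    simp only [packetQ, PacketData.coef, norm_mul, Complex.norm_real, Real.norm_eq_abs,
      Real.abs_exp, abs_of_pos hT, ← hδdef, abs_of_pos hδ]
    split_ifs with h
    · calc δ * (T * ‖d.β (T * (node d.left δ k - node d.left δ l))‖) * ‖d.kk (node d.left δ l)‖
            * Real.exp (Real.pi * node d.left δ l)
          ≤ δ * (T * Bb) * Bk * E := by
            refine mul_le_mul (mul_le_mul ?_ (hBk _) (norm_nonneg _) (by positivity))
              (Real.exp_le_exp.2 (mul_le_mul_of_nonneg_left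
                ((le_abs_self _).trans (node_left_abs_le d l)) Real.pi_pos.le))
              (Real.exp_pos _).le (by positivity)
            exact mul_le_mul_of_nonneg_left (mul_le_mul_of_nonneg_left (hBb _) hT.le) hδ.le
        _ = δ * T * (Bb * Bk * E) := by ring
    · have hz : d.β (T * (node d.left δ k - node d.left δ l)) = 0 := by
        by_contra hb
        have hb' := d.β_support _ hb
        rw [e, abs_mul, abs_of_pos hdT] at hb'
        exact h (by rwa [inv_eq_one_div, le_div_iff₀ hdT])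
      simp [hz]
  have hrow : ∀ k : Fin n, (∑ l : Fin n,
      if |(k : ℝ) - l| ≤ (δ * T)⁻¹ then δ * T * (Bb * Bk * E) else 0) ≤ 3 * (Bb * Bk * E) + 1 := by
    intro k
    rw [← Finset.sum_filter, Finset.sum_const, nsmul_eq_mul]
    refine (mul_le_mul_of_nonneg_right (card_near_le k (inv_nonneg.2 hdT.le)) (by positivity)).trans ?_
    have h2 : (2 * (δ * T)⁻¹ + 1) * (δ * T * (Bb * Bk * E))
        = (2 + δ * T) * (Bb * Bk * E) := by field_simp
    rw [h2]
    nlinarith [mul_le_mul_of_nonneg_right hδT (show (0 : ℝ) ≤ Bb * Bk * E by positivity)]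
  refine matBound_scalar (fun k => (Finset.sum_le_sum fun l _ => hq k l).trans (hrow k))
    fun l => (Finset.sum_le_sum fun k _ => (hq k l).trans (le_of_eq ?_)).trans (hrow l)
  simp only [abs_sub_comm]

theorem iota_smul_vec (c0 δ : ℝ) {n : ℕ} (L : Fin n → ℝ) (c : ℂ) (q : Fin n → Fin n → ℂ) :
    iota c0 δ (vec S L fun i j => (c * q i j) • 1) = c • iota c0 δ (vec S L fun i j => q i j • 1) := by
  have hv : ∀ k l : Fin n, vec S L (fun i j => (c * q i j) • 1) k l
      = c • vec S L (fun i j => q i j • 1) k l := fun k l => by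
    simp only [vec, mul_smul, smul_apply, smul_comm c]
  simp only [iota, hv, map_smul, ← Finset.smul_sum]

/-- Scaling a difference of expectations. -/
theorem norm_scaled_sub {E : Type*} [NormedAddCommGroup E] [InnerProductSpace ℂ E]
    (A U : E →L[ℂ] E) {c : ℝ} (hc : 0 < c) (v : E) {r : ℝ}
    (h : ‖⟪A ((c : ℂ)⁻¹ • v), U (A ((c : ℂ)⁻¹ • v))⟫_ℂ -
      ⟪(c : ℂ)⁻¹ • v, U ((c : ℂ)⁻¹ • v)⟫_ℂ‖ ≤ r) :
    ‖⟪A v, U (A v)⟫_ℂ - ⟪v, U v⟫_ℂ‖ ≤ c ^ 2 * r := by
  simp only [map_smul, inner_smul_left, inner_smul_right] at h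
  rw [← mul_sub, ← mul_sub, norm_mul, norm_mul, map_inv₀, Complex.conj_ofReal, norm_inv,
    Complex.norm_real, Real.norm_eq_abs, abs_of_pos hc, ← mul_assoc, ← mul_inv, ← pow_two,
    inv_mul_le_iff₀ (by positivity)] at h
  exact h

/-- Passing from a nearby vector. -/
theorem norm_close_of_near {E : Type*} [NormedAddCommGroup E] [InnerProductSpace ℂ E]
    {A U : E →L[ℂ] E} (hA : ∀ z, ‖A z‖ = ‖z‖) (hU : ∀ z, ‖U z‖ = ‖z‖) (P Q : E) {r s : ℝ}
    (h : ‖⟪A Q, U (A Q)⟫_ℂ - ⟪Q, U Q⟫_ℂ‖ ≤ r) (h2 : ‖P - Q‖ * (‖P‖ + ‖Q‖) ≤ s) :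
    ‖⟪A P, U (A P)⟫_ℂ - ⟪P, U P⟫_ℂ‖ ≤ r + 2 * s := by
  have hx1 := norm_sandwich_sub_le hU (A P) (A Q)
  rw [← map_sub, hA, hA, hA] at hx1
  have hx2 := norm_sandwich_sub_le hU P Q
  have e : ⟪A P, U (A P)⟫_ℂ - ⟪P, U P⟫_ℂ =
      (⟪A P, U (A P)⟫_ℂ - ⟪A Q, U (A Q)⟫_ℂ) + (⟪A Q, U (A Q)⟫_ℂ - ⟪Q, U Q⟫_ℂ)
        - (⟪P, U P⟫_ℂ - ⟪Q, U Q⟫_ℂ) := by ring
  rw [e]
  refine (norm_sub_le _ _).trans ((add_le_add (norm_add_le _ _) le_rfl).trans ?_)
  linarith

/-- Words cannot tell `x P` from `P` for a packet `P` of length `T`, up to `o(T)`. -/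
theorem exists_close (d : PacketData) {k : ℝ → ℂ} (hki : Integrable k)
    (hk : ∀ u, k (-u) = conj (k u)) {x : H →L[ℂ] H} (hx : x ∈ S.M)
    (hfix : D.KeyFix x) (hiso : star x * x = 1) {ε : ℝ} (hε : 0 < ε) :
    ∀ᶠ T in Filter.atTop, ∀ p : L22, ((p : ℝ × ℝ → ℂ) =ᵐ[volume] d.fn T) →
      ∀ (N : ℕ) (a : Fin N → H →L[ℂ] H), (∀ j, a j ∈ S.M) → (∀ j, IsSelfAdjoint (a j)) →
      ∀ U ∈ Coherence.words (Dop D hki a),
        ‖⟪lift2 x (ten S.Ω p), U (lift2 x (ten S.Ω p))⟫_ℂ - ⟪ten S.Ω p, U (ten S.Ω p)⟫_ℂ‖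
          ≤ ε * T := by
  obtain ⟨C, hC0, hC⟩ := d.exists_packet
  obtain ⟨Cq, hCq0, hCq⟩ := exists_packetQ_bound (H := H) d
  have hW := d.hW
  set R := 2 * (d.W + 1) with hR
  have hR0 : 0 < R := by positivity
  set κ := min 1 (ε / (12 * C ^ 2 + 1)) with hκ
  have hκ0 : 0 < κ := lt_min one_pos (by positivity)
  set M0 := Cq ^ 2 * (R / κ + 1) * Real.exp (2 * Real.pi * (d.W + 1)) with hM0
  have hM0' : 0 < M0 := by positivity
  obtain ⟨δ0, hδ0, hclose⟩ := word_close D hx hfix hiso R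
    (show 0 < ε / (2 * M0) by positivity)
  filter_upwards [Filter.eventually_ge_atTop (4 : ℝ), Filter.eventually_ge_atTop (κ / δ0)]
    with T hT4 hTδ p hp N a ha hsa U hU
  have hT : 0 < T := by linarith
  set n := ⌈R * T / κ⌉₊ with hn
  have hn0 : 0 < n := Nat.ceil_pos.2 (by positivity)
  have hnR : (0 : ℝ) < n := by exact_mod_cast hn0
  set δ := d.step n with hδ
  have hδpos : 0 < δ := d.step_pos hn0
  have hnδ : (n : ℝ) * δ = R := by rw [hδ, PacketData.step, hR]; field_simp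
  have hδT : δ * T ≤ κ := by
    have h1 : R * T ≤ n * κ := (div_le_iff₀ hκ0).1 (Nat.le_ceil _)
    rw [hδ, PacketData.step, ← hR, div_mul_eq_mul_div, div_le_iff₀ hnR]
    linarith
  have hδle : δ ≤ δ0 := by
    have h1 : κ ≤ T * δ0 := (div_le_iff₀ hδ0).1 hTδ
    nlinarith
  have hδT1 : δ * T ≤ 1 := hδT.trans (min_le_left _ _)
  obtain ⟨p', hp', hpn, hpe⟩ := hC T hT4 n hn0 hδT1
  obtain rfl : p = p' := Lp.ext (hp.trans hp'.symm)
  set pb := ∑ k : Fin n, ∑ l : Fin n, d.coef T n k l •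
    t2 (bx d.left (d.step n) k) (bx d.left (d.step n) l) with hpb
  set Q : K2 H := iota d.left δ (vec S (logW (n := n) d.left δ 0)
    fun i j => packetQ d T n i j • 1) with hQ
  have hQp : Q = ten S.Ω pb := iota_packetQ d T n
  set Wt := ∑ i : Fin n, Real.exp (logW d.left δ 0 i) with hWt
  -- the boxes
  have hbox : ‖⟪lift2 x Q, U (lift2 x Q)⟫_ℂ - ⟪Q, U Q⟫_ℂ‖ ≤ Cq ^ 2 * (ε / (2 * M0) * Wt) := by
    have hq : MatBound (fun i j => ((Cq : ℂ)⁻¹ * packetQ d T n i j) • (1 : H →L[ℂ] H)) 1 := by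
      intro v
      have h := hCq T hT n hδT1 v
      simp only [smul_apply, one_apply_eq_self, mul_smul, ← Finset.smul_sum, norm_smul, mul_pow,
        norm_inv, Complex.norm_real, Real.norm_eq_abs, abs_of_pos hCq0, ← Finset.mul_sum] at h ⊢
      rw [one_pow, one_mul, inv_pow, inv_mul_le_iff₀ (by positivity)]
      exact h
    have h := hclose d.left δ 0 hδpos hδle n hnδ.le _ hq hki hk a ha hsa U hU
    rw [iota_smul_vec] at h
    exact norm_scaled_sub _ _ hCq0 _ h
  -- the error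
  have hU1 := norm_word_apply (isSelfAdjoint_Dop D hki hk a hsa) hU
  have hnn : ∀ f : L22, ‖ten S.Ω f‖ = ‖f‖ := fun f => by rw [norm_ten, S.norm_Ω, one_mul]
  set P : K2 H := ten S.Ω p with hP
  have hPQ : ‖P - Q‖ ≤ C * κ * Real.sqrt T := by
    rw [hQp, hP, ← ten_sub, hnn]
    exact hpe.trans (mul_le_mul_of_nonneg_right (mul_le_mul_of_nonneg_left hδT hC0)
      (Real.sqrt_nonneg _))
  have hPn : ‖P‖ ≤ C * Real.sqrt T := by rwa [hP, hnn]
  have hQn : ‖Q‖ ≤ 2 * C * Real.sqrt T := by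
    have h1 : C * κ * Real.sqrt T ≤ C * Real.sqrt T := by
      rw [mul_right_comm]
      exact mul_le_of_le_one_right (by positivity) (min_le_left _ _)
    linarith [norm_le_norm_add_norm_sub P Q, norm_sub_rev Q P]
  have herr : ‖P - Q‖ * (‖P‖ + ‖Q‖) ≤ 3 * C ^ 2 * κ * T := by
    refine (mul_le_mul hPQ (add_le_add hPn hQn) (by positivity) (by positivity)).trans_eq ?_
    linear_combination (3 * C ^ 2 * κ) * Real.mul_self_sqrt hT.le
  have hκε : 6 * C ^ 2 * κ ≤ ε / 2 := by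
    have h1 : κ * (12 * C ^ 2 + 1) ≤ ε := (le_div_iff₀ (by positivity)).1 (min_le_right _ _)
    linarith
  have hWle : Wt ≤ (R / κ + 1) * T * Real.exp (2 * Real.pi * (d.W + 1)) := by
    refine (Finset.sum_le_sum (g := fun _ => Real.exp (2 * Real.pi * (d.W + 1)))
      fun i _ => Real.exp_le_exp.2 ?_).trans ?_
    · simp only [logW, add_zero]
      nlinarith [(abs_le.1 (node_left_abs_le d i)).1, Real.two_pi_pos]
    · rw [Finset.sum_const, Finset.card_univ, Fintype.card_fin, nsmul_eq_mul]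
      refine mul_le_mul_of_nonneg_right ?_ (Real.exp_pos _).le
      have h1 := Nat.ceil_lt_add_one (show 0 ≤ R * T / κ by positivity)
      rw [← hn] at h1
      have h2 : (R / κ + 1) * T = R * T / κ + T := by field_simp
      linarith
  have hbox' : ‖⟪lift2 x Q, U (lift2 x Q)⟫_ℂ - ⟪Q, U Q⟫_ℂ‖ ≤ ε / 2 * T := by
    refine hbox.trans ((mul_le_mul_of_nonneg_left
      (mul_le_mul_of_nonneg_left hWle (by positivity)) (by positivity)).trans_eq ?_)
    rw [hM0]
    field_simp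
  have hA : ∀ z : K2 H, ‖lift2 x z‖ = ‖z‖ := fun z => norm_lift2_of_isometry hiso z
  have h := norm_close_of_near (E := K2 H) (A := lift2 x) (U := U) hA hU1 P Q
    (r := ε / 2 * T) (s := 3 * C ^ 2 * κ * T) hbox' herr
  exact h.trans (by linarith only [mul_le_mul_of_nonneg_right hκε hT.le])

end P132.Core
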