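import Mathlib

/-!
# P132, route B: coherence under almost invariant unitaries

`D j` are bounded self-adjoint operators which move `P` little, and `Y` cannot be told apart from `P`
by expectations of words in the unitaries `exp (± i D j)`. Then `Y` is almost fixed by a resolvent of the
averaged unitaries, so it pairs weakly with sums `∑ D j (η j)`.
-/

noncomputable section

namespace P132.Coherence

open Complex Finset NormedSpace
open scoped InnerProductSpace

variable {E : Type*} [NormedAddCommGroup E] [InnerProductSpace ℂ E] [CompleteSpace E]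

/-- The unitary `exp (i A)`. -/
def phase (A : E →L[ℂ] E) : E →L[ℂ] E := exp (I • A)

/-- The words in `exp (± i D j)`. -/
def words {N : ℕ} (D : Fin N → E →L[ℂ] E) : Submonoid (E →L[ℂ] E) :=
  Submonoid.closure (Set.range (fun j => exp (I • D j)) ∪ Set.range fun j => exp (-(I • D j)))

lemma star_phase {A : E →L[ℂ] E} (hA : IsSelfAdjoint A) : star (phase A) = exp (-(I • A)) := by
  rw [phase, star_exp, star_smul, hA.star_eq, Complex.star_def, Complex.conj_I, neg_smul]

lemma star_mul_phase {A : E →L[ℂ] E} (hA : IsSelfAdjoint A) : star (phase A) * phase A = 1 := by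
  let : NormedAlgebra ℚ (E →L[ℂ] E) := NormedAlgebra.restrictScalars ℚ ℂ _
  exact Unitary.star_mul_self_of_mem
    (exp_mem_unitary_of_mem_skewAdjoint (hA.smul_mem_skewAdjoint conj_I))

lemma norm_phase_apply {A : E →L[ℂ] E} (hA : IsSelfAdjoint A) (z : E) : ‖phase A z‖ = ‖z‖ := by
  have h : ⟪phase A z, phase A z⟫_ℂ = ⟪z, z⟫_ℂ := by
    rw [← ContinuousLinearMap.adjoint_inner_right, ← ContinuousLinearMap.star_eq_adjoint,
      ← mul_apply_eq_comp, star_mul_phase hA, one_apply_eq_self]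
  rw [@norm_eq_sqrt_re_inner ℂ, @norm_eq_sqrt_re_inner ℂ, h]

/-- `exp (i A) z - z` is `i A z` up to a proportion `3/4`. -/
lemma norm_phase_sub_linear {A : E →L[ℂ] E} (hA : ‖A‖ ≤ 1) (z : E) :
    ‖phase A z - z - I • A z‖ ≤ 3 / 4 * ‖A z‖ := by
  have h0 := (exp_series_hasSum_exp' (𝕂 := ℂ) (I • A)).mapL (ContinuousLinearMap.apply ℂ E z)
  have h1 := (hasSum_nat_add_iff' 2).2 h0
  simp only [ContinuousLinearMap.apply_apply, smul_apply, Finset.sum_range_succ,
    Finset.range_zero, Finset.sum_empty, zero_add, pow_zero, pow_one, Nat.factorial_zero,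
    Nat.factorial_one, Nat.cast_one, inv_one, one_smul, one_apply_eq_self,
    ← sub_sub] at h1
  have hr : HasSum (fun k : ℕ => ((k + 2).factorial : ℝ)⁻¹) (Real.exp 1 - 2) := by
    have h := (hasSum_nat_add_iff' 2).2 (exp_series_hasSum_exp' (𝕂 := ℝ) (1 : ℝ))
    simp only [Real.exp_eq_exp_ℝ, smul_eq_mul, one_pow, mul_one, Finset.sum_range_succ,
      Finset.range_zero, Finset.sum_empty, zero_add, Nat.factorial_zero, Nat.factorial_one,
      Nat.cast_one, inv_one] at h ⊢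
    rwa [show (1:ℝ) + 1 = 2 by norm_num] at h
  have hb : ∀ k : ℕ, ‖((k + 2).factorial : ℂ)⁻¹ • (((I • A) ^ (k + 2)) z)‖ ≤
      ‖A z‖ * ((k + 2).factorial : ℝ)⁻¹ := by
    intro k
    rw [norm_smul, norm_inv, Complex.norm_natCast, mul_comm]
    refine mul_le_mul_of_nonneg_right ?_ (by positivity)
    rw [pow_succ, mul_apply_eq_comp]
    refine (ContinuousLinearMap.le_opNorm _ _).trans ?_
    rw [smul_apply, norm_smul, Complex.norm_I, one_mul]
    refine mul_le_of_le_one_left (norm_nonneg _) ?_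
    refine (norm_pow_le' (I • A) (Nat.succ_pos k)).trans (pow_le_one₀ (norm_nonneg _) ?_)
    rw [norm_smul, Complex.norm_I, one_mul]
    exact hA
  rw [show phase A z - z - I • A z = exp (I • A) z - z - I • A z from rfl, ← h1.tsum_eq]
  refine (tsum_of_norm_bounded (hr.mul_left ‖A z‖) hb).trans ?_
  rw [mul_comm (3 / 4 : ℝ)]
  exact mul_le_mul_of_nonneg_left (by linarith [Real.exp_one_lt_d9]) (norm_nonneg _)

lemma norm_phase_sub_le {A : E →L[ℂ] E} (hA : ‖A‖ ≤ 1) (z : E) :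
    ‖phase A z - z‖ ≤ 2 * ‖A z‖ := by
  have h := norm_le_norm_sub_add (phase A z - z) (I • A z)
  rw [norm_smul, Complex.norm_I, one_mul] at h
  linarith [norm_phase_sub_linear hA z, norm_nonneg (A z)]

lemma norm_le_phase_sub {A : E →L[ℂ] E} (hA : ‖A‖ ≤ 1) (z : E) :
    ‖A z‖ ≤ 4 * ‖phase A z - z‖ := by
  have h := norm_le_norm_sub_add (I • A z) (phase A z - z)
  rw [norm_smul, Complex.norm_I, one_mul, norm_sub_rev] at h
  linarith [norm_phase_sub_linear hA z]

section average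

variable {N : ℕ} (D : Fin N → E →L[ℂ] E)

/-- The averaged unitaries. -/
def mean : E →L[ℂ] E := (((2 * N : ℝ)⁻¹ : ℝ) : ℂ) • ∑ j, (phase (D j) + star (phase (D j)))

/-- The energy of `z`: the average of `‖exp (i D j) z - z‖ ^ 2 / 2`. -/
def energy (z : E) : ℝ := (2 * N : ℝ)⁻¹ * ∑ j, ‖phase (D j) z - z‖ ^ 2

lemma energy_nonneg (z : E) : 0 ≤ energy D z := by
  unfold energy
  positivity

lemma isSelfAdjoint_mean : IsSelfAdjoint (mean D) := by
  rw [isSelfAdjoint_iff, mean, star_smul, star_sum]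
  simp [star_add, add_comm]

variable {D}

lemma re_inner_mean (hN : 0 < N) (hD : ∀ j, IsSelfAdjoint (D j)) (z : E) :
    (⟪z, mean D z⟫_ℂ).re = ‖z‖ ^ 2 - energy D z := by
  have hj : ∀ j, (⟪z, phase (D j) z + star (phase (D j)) z⟫_ℂ).re =
      2 * ‖z‖ ^ 2 - ‖phase (D j) z - z‖ ^ 2 := by
    intro j
    rw [inner_add_right, Complex.add_re, ContinuousLinearMap.star_eq_adjoint,
      ContinuousLinearMap.adjoint_inner_right, ← inner_conj_symm (phase (D j) z) z,
      Complex.conj_re, @norm_sub_sq ℂ, norm_phase_apply (hD j), ← inner_conj_symm z (phase (D j) z)]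
    simp only [RCLike.re_to_complex, Complex.conj_re]
    ring
  have hN' : (N : ℝ) ≠ 0 := by positivity
  rw [mean, smul_apply, inner_smul_right, Complex.re_ofReal_mul, _root_.sum_apply, inner_sum,
    Complex.re_sum]
  simp only [add_apply, hj, Finset.sum_sub_distrib, Finset.sum_const, Finset.card_univ,
    Fintype.card_fin, nsmul_eq_mul, energy]
  field_simp

lemma norm_mean_le (hN : 0 < N) (hD : ∀ j, IsSelfAdjoint (D j)) : ‖mean D‖ ≤ 1 := by
  refine ContinuousLinearMap.opNorm_le_bound _ zero_le_one fun z => ?_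
  have h1 : ∀ j, ‖phase (D j) z + star (phase (D j)) z‖ ≤ 2 * ‖z‖ := fun j => by
    have h : ‖phase (D j)‖ ≤ 1 := ContinuousLinearMap.opNorm_le_bound _ zero_le_one fun w => by
      rw [norm_phase_apply (hD j), one_mul]
    have := ((star (phase (D j))).le_opNorm z).trans
      (mul_le_of_le_one_left (norm_nonneg _) (by rwa [norm_star]))
    linarith [norm_add_le (phase (D j) z) (star (phase (D j)) z), norm_phase_apply (hD j) z]
  rw [mean, smul_apply, norm_smul, Complex.norm_real, Real.norm_eq_abs,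
    abs_of_pos (by positivity), _root_.sum_apply, inv_mul_le_iff₀ (by positivity), one_mul]
  refine (norm_sum_le _ _).trans ((Finset.sum_le_sum fun j _ => h1 j).trans_eq ?_)
  rw [Finset.sum_const, Finset.card_univ, Fintype.card_fin, nsmul_eq_mul]
  ring

lemma exists_resolvent (hN : 0 < N) (hD : ∀ j, IsSelfAdjoint (D j)) {n : ℝ} (hn : 0 < n) :
    ∃ R : E →L[ℂ] E, (∀ y, R y + (n : ℂ) • (R y - mean D (R y)) = y) ∧
      ∀ (f : (E →L[ℂ] E) →L[ℂ] ℂ) (ε : ℝ), (∀ k, ‖f (mean D ^ k)‖ ≤ ε) → ‖f R‖ ≤ ε := by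
  set c : ℝ := n / (1 + n) with hc
  have hc0 : 0 ≤ c := by positivity
  have hc1 : c < 1 := by rw [hc, div_lt_one (by positivity)]; linarith
  set T : E →L[ℂ] E := (c : ℂ) • mean D with hT
  have hT1 : ‖T‖ < 1 := by
    rw [hT, norm_smul, Complex.norm_real, Real.norm_eq_abs, abs_of_nonneg hc0]
    exact (mul_le_of_le_one_right hc0 (norm_mean_le hN hD)).trans_lt hc1
  have hs : Summable fun k => T ^ k := summable_geometric_of_norm_lt_one hT1
  refine ⟨((1 + n)⁻¹ : ℂ) • ∑' k, T ^ k, fun y => ?_, fun f ε hf => ?_⟩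
  · have h := congrArg (fun P : E →L[ℂ] E => P y) (mul_neg_geom_series T hT1)
    simp only [mul_apply_eq_comp, sub_apply, one_apply_eq_self, hT,
      smul_apply] at h
    have hn1 : (1 + n : ℂ) ≠ 0 := by exact_mod_cast (by positivity : (1 + n : ℝ) ≠ 0)
    rw [← hT] at h
    simp only [smul_apply, map_smul]
    generalize (∑' k, T ^ k) y = v at h ⊢
    conv_rhs => rw [← h, hc, Complex.ofReal_div, Complex.ofReal_add, Complex.ofReal_one]
    match_scalars <;> field_simp
  · have hε : 0 ≤ ε := (norm_nonneg _).trans (hf 0)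
    rw [map_smul, f.map_tsum hs, norm_smul]
    have hk : ∀ k, ‖f (T ^ k)‖ ≤ c ^ k * ε := fun k => by
      rw [hT, smul_pow, map_smul, norm_smul, norm_pow, Complex.norm_real, Real.norm_eq_abs,
        abs_of_nonneg hc0]
      exact mul_le_mul_of_nonneg_left (hf k) (pow_nonneg hc0 k)
    refine (mul_le_mul_of_nonneg_left
      (tsum_of_norm_bounded ((hasSum_geometric_of_lt_one hc0 hc1).mul_right ε) hk)
      (norm_nonneg _)).trans ?_
    rw [show ((1 + n : ℂ))⁻¹ = (((1 + n)⁻¹ : ℝ) : ℂ) by push_cast; ring, Complex.norm_real,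
      Real.norm_eq_abs, abs_of_pos (by positivity), hc, one_sub_div (by positivity)]
    refine le_of_eq ?_
    field_simp
    ring

lemma norm_expectation_pow_le {Y P : E} {ε : ℝ} (hN : 0 < N) (hD : ∀ j, IsSelfAdjoint (D j))
    (hclose : ∀ U ∈ words D, ‖⟪Y, U Y⟫_ℂ - ⟪P, U P⟫_ℂ‖ ≤ ε) (k : ℕ) :
    ∀ U ∈ words D, ‖⟪Y, (U * mean D ^ k) Y⟫_ℂ - ⟪P, (U * mean D ^ k) P⟫_ℂ‖ ≤ ε := by
  induction k with
  | zero => simpa using hclose
  | succ k ih =>
    intro U hU
    have h1 : ∀ j, phase (D j) ∈ words D := fun j => Submonoid.subset_closure (Or.inl ⟨j, rfl⟩)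
    have h2 : ∀ j, star (phase (D j)) ∈ words D := fun j =>
      Submonoid.subset_closure (Or.inr ⟨j, (star_phase (hD j)).symm⟩)
    have e : U * mean D ^ (k + 1) = (((2 * N : ℝ)⁻¹ : ℝ) : ℂ) •
        ∑ j, (U * phase (D j) * mean D ^ k + U * star (phase (D j)) * mean D ^ k) := by
      rw [pow_succ', ← mul_assoc]
      conv_lhs => arg 1; rw [mean]
      simp only [mul_smul_comm, smul_mul_assoc, Finset.mul_sum, Finset.sum_mul, mul_add, add_mul]
    simp only [e, smul_apply, _root_.sum_apply, add_apply, inner_smul_right, inner_sum, inner_add_right]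
    rw [← mul_sub, ← Finset.sum_sub_distrib, norm_mul, Complex.norm_real, Real.norm_eq_abs,
      abs_of_pos (by positivity), inv_mul_le_iff₀ (by positivity)]
    refine (norm_sum_le _ _).trans ((Finset.sum_le_sum (g := fun _ => 2 * ε) fun j _ => ?_).trans_eq ?_)
    · rw [add_sub_add_comm]
      exact (norm_add_le _ _).trans ((add_le_add (ih _ (mul_mem hU (h1 j)))
        (ih _ (mul_mem hU (h2 j)))).trans_eq (two_mul ε).symm)
    · rw [Finset.sum_const, Finset.card_univ, Fintype.card_fin, nsmul_eq_mul]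
      ring

end average

/-- The coherence estimate. -/
theorem coherence {N : ℕ} (D : Fin N → E →L[ℂ] E) (hD : ∀ j, IsSelfAdjoint (D j))
    (hD1 : ∀ j, ‖D j‖ ≤ 1) {P Y : E} (hYP : ‖Y‖ = ‖P‖) {A ε : ℝ}
    (hmove : ∑ j, ‖D j P‖ ^ 2 ≤ N * A)
    (hclose : ∀ U ∈ words D, ‖⟪Y, U Y⟫_ℂ - ⟪P, U P⟫_ℂ‖ ≤ ε)
    (η : Fin N → E) {b : ℝ} (hb : 0 ≤ b) (hη : ∀ j, ‖η j‖ ≤ b) {n : ℝ} (hn : 0 < n) :
    ‖∑ j, ⟪D j (η j), Y⟫_ℂ‖ ≤
      ‖∑ j, D j (η j)‖ * Real.sqrt (ε + 2 * n * A) + 6 * N * b * ‖P‖ / Real.sqrt n := by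
  rcases Nat.eq_zero_or_pos N with rfl | hN
  · simp
  obtain ⟨R, hR, hRf⟩ := exists_resolvent hN hD hn
  set μ := mean D
  have hsym : ∀ u v, ⟪μ u, v⟫_ℂ = ⟪u, μ v⟫_ℂ := fun u v =>
    (isSelfAdjoint_mean D).isSymmetric u v
  have hq : ∀ v, (⟪v, v - μ v⟫_ℂ).re = energy D v := fun v => by
    rw [inner_sub_right, Complex.sub_re, re_inner_mean hN hD, ← RCLike.re_to_complex,
      inner_self_eq_norm_sq]
    ring
  have hs : ∀ v : E, (⟪v, v⟫_ℂ).re = ‖v‖ ^ 2 := fun v => inner_self_eq_norm_sq (𝕜 := ℂ) v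
  -- the quadratic form of `1 - R`
  have hform : ∀ y, (⟪y, y - R y⟫_ℂ).re = n * energy D (R y) + ‖y - R y‖ ^ 2 := fun y => by
    have e : y - R y = (n : ℂ) • (R y - μ (R y)) := sub_eq_iff_eq_add'.2 (hR y).symm
    conv_lhs => arg 1; arg 2; rw [← add_sub_cancel (R y) y]
    rw [inner_add_left, Complex.add_re]
    nth_rewrite 1 [e]
    rw [inner_smul_right, Complex.re_ofReal_mul, hq, ← RCLike.re_to_complex (x := ⟪y - R y, _⟫_ℂ),
      inner_self_eq_norm_sq]
  have henergy : ∀ y, (⟪y, y - R y⟫_ℂ).re ≤ n * energy D y := fun y => by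
    set z := R y
    have e : y - z = (n : ℂ) • (z - μ z) := sub_eq_iff_eq_add'.2 (hR y).symm
    have hy : energy D y = energy D z + 2 * (⟪y - z, z - μ z⟫_ℂ).re + energy D (y - z) := by
      rw [← hq, ← hq, ← hq]
      conv_lhs => rw [← add_sub_cancel z y]
      generalize y - z = w
      simp only [map_add, inner_sub_right, inner_add_right, inner_add_left, Complex.sub_re,
        Complex.add_re]
      have s1 : (⟪z, μ w⟫_ℂ).re = (⟪w, μ z⟫_ℂ).re := by
        rw [← hsym, ← inner_conj_symm, Complex.conj_re]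
      have s2 : (⟪z, w⟫_ℂ).re = (⟪w, z⟫_ℂ).re := by
        rw [← inner_conj_symm, Complex.conj_re]
      linarith
    have hn2 : ‖y - z‖ ^ 2 = n * (⟪y - z, z - μ z⟫_ℂ).re := by
      rw [← inner_self_eq_norm_sq (𝕜 := ℂ)]
      nth_rewrite 2 [e]
      rw [inner_smul_right, RCLike.re_to_complex, Complex.re_ofReal_mul]
    rw [hform, hy, hn2]
    nlinarith [energy_nonneg D (y - z), sq_nonneg ‖y - z‖]
  have hRY : (⟪Y, Y - R Y⟫_ℂ).re ≤ (⟪P, P - R P⟫_ℂ).re + ε := by
    have h : ‖⟪Y, R Y⟫_ℂ - ⟪P, R P⟫_ℂ‖ ≤ ε :=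
      hRf ((innerSL ℂ Y).comp (ContinuousLinearMap.apply ℂ E Y) -
        (innerSL ℂ P).comp (ContinuousLinearMap.apply ℂ E P)) ε fun k => by
        simpa using norm_expectation_pow_le hN hD hclose k 1 (one_mem _)
    have h' := (Complex.abs_re_le_norm _).trans h
    rw [Complex.sub_re, abs_le] at h'
    rw [inner_sub_right, inner_sub_right, Complex.sub_re, Complex.sub_re, hs, hs, hYP]
    linarith
  have hEP : energy D P ≤ 2 * A := by
    have h := Finset.sum_le_sum fun j (_ : j ∈ Finset.univ) =>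
      pow_le_pow_left₀ (norm_nonneg _) (norm_phase_sub_le (hD1 j) P) 2
    simp only [mul_pow, ← Finset.mul_sum] at h
    rw [energy, inv_mul_le_iff₀ (by positivity)]
    linarith
  have hclose' : ‖Y - R Y‖ ≤ Real.sqrt (ε + 2 * n * A) := by
    refine Real.le_sqrt_of_sq_le ?_
    nlinarith [hform Y, hform P, energy_nonneg D (R Y), henergy P, hRY,
      mul_le_mul_of_nonneg_left hEP hn.le]
  have hsmall : n * energy D (R Y) ≤ ‖P‖ ^ 2 := by
    have h : (⟪Y, R Y⟫_ℂ).re = ‖R Y‖ ^ 2 + n * energy D (R Y) := by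
      have e : (⟪Y, R Y⟫_ℂ).re = (⟪R Y + (n : ℂ) • (R Y - μ (R Y)), R Y⟫_ℂ).re := by rw [hR Y]
      rw [e, inner_add_left, inner_smul_left, Complex.conj_ofReal, Complex.add_re,
        Complex.re_ofReal_mul, ← inner_conj_symm (R Y - μ (R Y)), Complex.conj_re, hs, hq]
    have h2 := hform Y
    rw [inner_sub_right, Complex.sub_re, hs, h, hYP] at h2
    nlinarith [sq_nonneg ‖R Y‖, energy_nonneg D (R Y), sq_nonneg ‖Y - R Y‖]
  -- the pairing
  have hdecomp : ∑ j, ⟪D j (η j), Y⟫_ℂ =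
      ⟪∑ j, D j (η j), Y - R Y⟫_ℂ + ∑ j, ⟪η j, D j (R Y)⟫_ℂ := by
    rw [sum_inner, ← Finset.sum_add_distrib]
    refine Finset.sum_congr rfl fun j _ => ?_
    rw [← ContinuousLinearMap.adjoint_inner_left (A := D j),
      ← ContinuousLinearMap.star_eq_adjoint, (hD j).star_eq, ← inner_add_right, sub_add_cancel]
  rw [hdecomp]
  refine (norm_add_le _ _).trans (add_le_add ((norm_inner_le_norm _ _).trans
    (mul_le_mul_of_nonneg_left hclose' (norm_nonneg _))) ?_)
  have hD' : ∑ j, ‖D j (R Y)‖ ^ 2 ≤ 32 * N * (‖P‖ ^ 2 / n) := by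
    refine (Finset.sum_le_sum fun j _ => pow_le_pow_left₀ (norm_nonneg _)
      (norm_le_phase_sub (hD1 j) (R Y)) 2).trans ?_
    simp only [mul_pow, ← Finset.mul_sum]
    have h : energy D (R Y) ≤ ‖P‖ ^ 2 / n := by rwa [le_div_iff₀' hn]
    rw [energy, inv_mul_le_iff₀ (by positivity)] at h
    linarith
  have hcs : (∑ j, ‖D j (R Y)‖) ^ 2 ≤ N * ∑ j, ‖D j (R Y)‖ ^ 2 := by
    simpa using sq_sum_le_card_mul_sum_sq (s := Finset.univ) (f := fun j => ‖D j (R Y)‖)
  have hsum : ∑ j, ‖D j (R Y)‖ ≤ 6 * N * ‖P‖ / Real.sqrt n := by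
    refine le_of_pow_le_pow_left₀ two_ne_zero (by positivity) ?_
    rw [div_pow, mul_pow, Real.sq_sqrt hn.le]
    refine hcs.trans ((mul_le_mul_of_nonneg_left hD' (Nat.cast_nonneg N)).trans ?_)
    rw [le_div_iff₀ hn]
    field_simp
    nlinarith [sq_nonneg (N : ℝ), sq_nonneg ‖P‖]
  refine (norm_sum_le _ _).trans ((Finset.sum_le_sum fun j _ => (norm_inner_le_norm _ _).trans
    (mul_le_mul_of_nonneg_right (hη j) (norm_nonneg _))).trans ?_)
  rw [← Finset.mul_sum]
  refine (mul_le_mul_of_nonneg_left hsum hb).trans_eq ?_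
  ring

end P132.Coherence
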