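import Vale.Agent.P132.Core.Move

/-!
# P132 core: the correlation of a test vector with the flow-fixed perturbation of a packet

The translates of one test vector give almost orthogonal vectors, while their correlations with
`(1 ⊗ x) P_T` are coherent and equal to `χ (j / T)` times one constant.
-/

noncomputable section

set_option linter.unusedSectionVars false

namespace P132.Core

open MeasureTheory Filter Topology Complex Set
open scoped InnerProductSpace ComplexConjugate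

variable {H : Type*} [NormedAddCommGroup H] [InnerProductSpace ℂ H] [CompleteSpace H]

theorem mulOp_congr {α : Type*} [TopologicalSpace α] [MeasurableSpace α]
    [OpensMeasurableSpace α] [SecondCountableTopology α]
    [TopologicalSpace.PseudoMetrizableSpace α] {μ : Measure α} (f g : OpField α H)
    (h : ∀ x, f x = g x) : f.mulOp μ = g.mulOp μ := by
  ext1 F
  apply Lp.ext
  filter_upwards [f.coeFn_mulOp F, g.coeFn_mulOp F] with x h1 h2
  rw [h1, h2, h]

theorem lift2_ten (x : H →L[ℂ] H) (w : H) (p : L22) : lift2 x (ten w p) = ten (x w) p := by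
  apply Lp.ext
  filter_upwards [ae_lift2 x (coeFn_ten w p), coeFn_ten (x w) p] with q h1 h2
  rw [h1, h2, map_smul]

theorem norm_lift2_apply_le (x : H →L[ℂ] H) (G : K2 H) : ‖lift2 x G‖ ≤ ‖x‖ * ‖G‖ :=
  (lift2 x).le_of_opNorm_le ((constField x).norm_mulOp_le (norm_nonneg x)) G

/-! ### Covariance -/

section Covariance

variable {S : Std H} (D : Modular S) {k : ℝ → ℂ} (hki : Integrable k)

theorem tr_cgL (v : ℝ × ℝ) (G : K2 H) :
    tr (volume : Measure (ℝ × ℝ)) v (cgL hki G) = cgL hki (tr _ v G) :=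
  smear_commute k hki trFieldL (tr (volume : Measure (ℝ × ℝ)) v).toContinuousLinearMap
    (fun u x => by
      change tr (volume : Measure (ℝ × ℝ)) v (tr _ (u, 0) x) = tr _ (u, 0) (tr _ v x)
      rw [← tr_add, ← tr_add, add_comm]) G

theorem tr_cgR (v : ℝ × ℝ) (G : K2 H) :
    tr (volume : Measure (ℝ × ℝ)) v (cgR hki G) = cgR hki (tr _ v G) :=
  smear_commute (fun u => conj (k u)) (integrable_conjk hki) trFieldR
    (tr (volume : Measure (ℝ × ℝ)) v).toContinuousLinearMap
    (fun u x => by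
      change tr (volume : Measure (ℝ × ℝ)) v (tr _ (0, u) x) = tr _ (0, u) (tr _ v x)
      rw [← tr_add, ← tr_add, add_comm]) G

theorem tr_AL (a : H →L[ℂ] H) (r : ℝ) (G : K2 H) :
    tr (volume : Measure (ℝ × ℝ)) (r, r) (AL D hki a G) =
      AL D hki (D.σ (-r) a) (tr _ (r, r) G) := by
  simp only [AL, mul_apply_eq_comp, tr_cgL, mulL]
  rw [tr_mulOp, mulOp_congr ((fieldL D a).shift (r, r)) (fieldL D (D.σ (-r) a)) fun p => by
    change D.σ (p.1 - r) a = D.σ p.1 (D.σ (-r) a)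
    rw [D.σ_σ, sub_eq_add_neg], tr_cgL]

theorem tr_AR (a : H →L[ℂ] H) (r : ℝ) (G : K2 H) :
    tr (volume : Measure (ℝ × ℝ)) (r, r) (AR D hki a G) =
      AR D hki (D.σ (-r) a) (tr _ (r, r) G) := by
  simp only [AR, mul_apply_eq_comp, tr_cgR, mulR]
  rw [tr_mulOp, mulOp_congr ((fieldR D a).shift (r, r)) (fieldR D (D.σ (-r) a)) fun p => by
    change conjJ D (D.σ (p.2 - r) a) = conjJ D (D.σ p.2 (D.σ (-r) a))
    rw [D.σ_σ, sub_eq_add_neg], tr_cgR]

end Covariance

/-! ### Decay of the test vectors -/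

/-- Decay in both variables. -/
def Dec (G : K2 H) (C : ℝ) : Prop :=
  ∀ᵐ q : ℝ × ℝ, ‖G q‖ ≤ C * ((wgt q.1)⁻¹ * (wgt q.2)⁻¹)

lemma Dec.exists_rep {G : K2 H} {C : ℝ} (hC : 0 ≤ C) (h : Dec G C) :
    ∃ f : ℝ × ℝ → H, ((G : ℝ × ℝ → H) =ᵐ[volume] f) ∧
      ∀ q, ‖f q‖ ≤ C * ((wgt q.1)⁻¹ * (wgt q.2)⁻¹) := by
  classical
  refine ⟨fun q => if ‖G q‖ ≤ C * ((wgt q.1)⁻¹ * (wgt q.2)⁻¹) then G q else 0,
    h.mono fun q hq => (if_pos hq).symm, fun q => ?_⟩
  dsimp only
  split_ifs with hq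
  · exact hq
  · simpa using mul_nonneg hC
      (mul_nonneg (inv_nonneg.2 (wgt_pos q.1).le) (inv_nonneg.2 (wgt_pos q.2).le))

section DecOps

variable {S : Std H} (D : Modular S) (W : Window)

lemma Dec.mulL {G : K2 H} {C : ℝ} (h : Dec G C) (a : H →L[ℂ] H) :
    Dec (mulL D a G) (‖a‖ * C) := by
  filter_upwards [ae_mulL D a (Filter.EventuallyEq.refl _ (G : ℝ × ℝ → H)), h] with q h1 h2
  rw [h1, mul_assoc]
  exact ((fieldL D a).apply_norm_le q _).trans (mul_le_mul_of_nonneg_left h2 (norm_nonneg _))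

lemma Dec.mulR {G : K2 H} {C : ℝ} (h : Dec G C) (a : H →L[ℂ] H) :
    Dec (mulR D a G) (‖a‖ * C) := by
  filter_upwards [ae_mulR D a (Filter.EventuallyEq.refl _ (G : ℝ × ℝ → H)), h] with q h1 h2
  rw [h1, mul_assoc]
  exact ((fieldR D a).apply_norm_le q _).trans (mul_le_mul_of_nonneg_left h2 (norm_nonneg _))

lemma exists_dec_smear : ∃ K : ℝ, 0 ≤ K ∧ ∀ (G : K2 H) (C : ℝ), 0 ≤ C → Dec G C →
    Dec (cgL W.hki G) (K * C) ∧ Dec (cgR W.hki G) (K * C) := by
  obtain ⟨c, hc0, hc⟩ := exists_decay_pwave W.hg 2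
  refine ⟨2 * Real.pi * c, by positivity, fun G C hC h => ?_⟩
  obtain ⟨f, hf, hfb⟩ := h.exists_rep hC
  constructor
  · filter_upwards [ae_cgL W.hki hf] with q hq
    rw [hq]
    obtain ⟨t, t'⟩ := q
    have := wgt_pos t'
    refine (norm_integral_le_conv (C := c * C * (wgt t')⁻¹) (a := t) (b := 0) (by positivity)
      fun u => ?_).trans_eq (by rw [sub_zero]; ring)
    rw [norm_smul, sub_zero]
    have := wgt_pos (t - u)
    exact (mul_le_mul (hc _) (hfb (u, t')) (norm_nonneg _) (by positivity)).trans_eq (by ring)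
  · filter_upwards [ae_cgR W.hki W.hk hf] with q hq
    rw [hq]
    obtain ⟨t, t'⟩ := q
    have := wgt_pos t
    refine (norm_integral_le_conv (C := c * C * (wgt t)⁻¹) (a := t') (b := 0) (by positivity)
      fun u => ?_).trans_eq (by rw [sub_zero]; ring)
    rw [norm_smul, sub_zero, ← neg_sub t' u, W.hk, RCLike.norm_conj]
    have := wgt_pos (t' - u)
    exact (mul_le_mul (hc _) (hfb (t, u)) (norm_nonneg _) (by positivity)).trans_eq (by ring)

lemma exists_dec_gen (a : H →L[ℂ] H) : ∃ K : ℝ, 0 ≤ K ∧ ∀ (G : K2 H) (C : ℝ), 0 ≤ C → Dec G C →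
    Dec ((AL D W.hki a - AR D W.hki a) G) (K * C) := by
  obtain ⟨K, hK0, hK⟩ := exists_dec_smear (H := H) W
  refine ⟨2 * (K * (‖a‖ * K)), by positivity, fun G C hC h => ?_⟩
  have hL := (hK _ _ (by positivity) (((hK G C hC h).1).mulL D a)).1
  have hR := (hK _ _ (by positivity) (((hK G C hC h).2).mulR D a)).2
  filter_upwards [hL, hR, Lp.coeFn_sub (AL D W.hki a G) (AR D W.hki a G)] with q h1 h2 h3
  rw [sub_apply, h3, Pi.sub_apply]
  exact (norm_sub_le _ _).trans ((add_le_add h1 h2).trans_eq (by ring))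

end DecOps

lemma exists_sum_inv_wgt_le : ∃ K : ℝ, 0 ≤ K ∧ ∀ (N : ℕ) (t : ℝ),
    ∑ j : Fin N, (wgt (t - j))⁻¹ ≤ K := by
  have hs : Summable fun z : ℤ => (wgt (z : ℝ))⁻¹ := by
    refine Summable.of_nonneg_of_le (fun z => inv_nonneg.2 (wgt_pos _).le) (fun z => ?_)
      (f := fun z : ℤ => 1 / (z : ℝ) ^ 2 + if z = 0 then 1 else 0) ((Real.summable_one_div_int_pow.2 (by norm_num)).add (summable_of_ne_finset_zero (s := {0})
        (by simp +contextual)))
    by_cases hz : z = 0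
    · simp [hz, wgt]
    · simp only [hz, if_false, add_zero, one_div]
      exact inv_anti₀ (by positivity) (le_add_of_nonneg_left zero_le_one)
  refine ⟨4 * ∑' z : ℤ, (wgt (z : ℝ))⁻¹,
    mul_nonneg (by norm_num) (tsum_nonneg fun z => inv_nonneg.2 (wgt_pos _).le), fun N t => ?_⟩
  have hb : ∀ j : Fin N, (wgt (t - j))⁻¹ ≤ 4 * (wgt ((((j : ℕ) : ℤ) - ⌊t⌋ : ℤ) : ℝ))⁻¹ := by
    intro j
    rw [show (((((j : ℕ) : ℤ) - ⌊t⌋ : ℤ) : ℝ)) = (j : ℝ) - ⌊t⌋ by push_cast; ring]
    have h := wgt_add_le ((j : ℝ) - t) (t - ⌊t⌋)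
    rw [sub_add_sub_cancel, ← neg_sub t (j : ℝ), wgt_neg] at h
    have h2 : wgt (t - ⌊t⌋) ≤ 2 := by
      simp only [wgt]
      nlinarith [Int.floor_le t, Int.lt_floor_add_one t]
    have := wgt_pos (t - (j : ℝ))
    rw [← div_eq_mul_inv, inv_eq_one_div, div_le_div_iff₀ (wgt_pos _) (wgt_pos _), one_mul]
    nlinarith
  refine (Finset.sum_le_sum fun j _ => hb j).trans ?_
  rw [← Finset.mul_sum]
  refine mul_le_mul_of_nonneg_left ?_ (by norm_num)
  rw [← Finset.sum_image (g := fun j : Fin N => ((j : ℕ) : ℤ) - ⌊t⌋)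
    (f := fun z : ℤ => (wgt (z : ℝ))⁻¹) (fun a _ b _ h => Fin.ext (by simpa using h))]
  exact hs.sum_le_tsum _ fun z _ => inv_nonneg.2 (wgt_pos _).le

/-- Diagonal translates of a decaying vector are almost orthogonal. -/
theorem exists_sum_translates_le : ∃ K : ℝ, 0 ≤ K ∧ ∀ (G : K2 H) (C : ℝ), 0 ≤ C → Dec G C →
    ∀ N : ℕ, ‖∑ j : Fin N, tr (volume : Measure (ℝ × ℝ)) ((j : ℝ), (j : ℝ)) G‖ ≤
      K * C * Real.sqrt N := by
  obtain ⟨K, hK0, hK⟩ := exists_sum_inv_wgt_le
  refine ⟨Real.sqrt (K * Real.pi * Real.pi), Real.sqrt_nonneg _, fun G C hC h N => ?_⟩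
  rw [show Real.sqrt (K * Real.pi * Real.pi) * C * Real.sqrt N =
      Real.sqrt (K * Real.pi * Real.pi * C ^ 2 * N) by
    rw [Real.sqrt_mul (by positivity : 0 ≤ K * Real.pi * Real.pi * C ^ 2),
      Real.sqrt_mul (by positivity : 0 ≤ K * Real.pi * Real.pi) (C ^ 2), Real.sqrt_sq hC]]
  refine Real.le_sqrt_of_sq_le ?_
  rw [lp_norm_sq]
  have hi : ∀ j : Fin N, Integrable
      (fun q : ℝ × ℝ => K * C ^ 2 * ((wgt (q.1 - j))⁻¹ * (wgt (q.2 - j))⁻¹))
      ((volume : Measure ℝ).prod volume) := fun j =>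
    ((integrable_inv_one_add_sq.comp_sub_right (j : ℝ)).mul_prod
      (integrable_inv_one_add_sq.comp_sub_right (j : ℝ))).const_mul _
  refine (integral_mono_of_nonneg (Eventually.of_forall fun q => sq_nonneg _)
    (integrable_finsetSum Finset.univ fun j _ => hi j) ?_).trans_eq ?_
  · show ∀ᵐ q : ℝ × ℝ, _
    have hG : ∀ᵐ q : ℝ × ℝ, ∀ j : Fin N,
        ‖tr (volume : Measure (ℝ × ℝ)) ((j : ℝ), (j : ℝ)) G q‖ ≤
          C * ((wgt (q.1 - j))⁻¹ * (wgt (q.2 - j))⁻¹) := by
      rw [ae_all_iff]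
      intro j
      filter_upwards [coeFn_tr ((j : ℝ), (j : ℝ)) G,
        (measurePreserving_sub_right volume ((j : ℝ), (j : ℝ))).quasiMeasurePreserving.ae h]
        with q h1 h2
      rw [h1]
      exact h2
    filter_upwards [hG, Lp.coeFn_fun_finsetSum Finset.univ
      (fun j : Fin N => tr (volume : Measure (ℝ × ℝ)) ((j : ℝ), (j : ℝ)) G)] with q h1 h2
    rw [h2]
    refine (pow_le_pow_left₀ (norm_nonneg _)
      ((norm_sum_le _ _).trans (Finset.sum_le_sum fun j _ => h1 j)) 2).trans ?_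
    rw [← Finset.mul_sum, mul_pow]
    set u : Fin N → ℝ := fun j => (wgt (q.1 - j))⁻¹
    set v : Fin N → ℝ := fun j => (wgt (q.2 - j))⁻¹
    have hu : ∀ j, 0 ≤ u j := fun j => inv_nonneg.2 (wgt_pos _).le
    have hv : ∀ j, 0 ≤ v j := fun j => inv_nonneg.2 (wgt_pos _).le
    have hcs : (∑ j, u j * v j) ^ 2 ≤ (∑ j, u j) * ∑ j, u j * v j ^ 2 :=
      Finset.sum_sq_le_sum_mul_sum_of_sq_le_mul _ (fun j _ => hu j)
        (fun j _ => mul_nonneg (hu j) (sq_nonneg _)) fun j _ => le_of_eq (by ring)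
    refine (mul_le_mul_of_nonneg_left (hcs.trans (mul_le_mul (hK N q.1) (Finset.sum_le_sum
      fun j _ => mul_le_mul_of_nonneg_left (pow_le_of_le_one (hv j)
        (inv_le_one_of_one_le₀ (one_le_wgt _)) two_ne_zero) (hu j))
      (Finset.sum_nonneg fun j _ => mul_nonneg (hu j) (sq_nonneg _)) hK0)) (sq_nonneg C)).trans_eq ?_
    rw [← Finset.mul_sum]
    ring
  · have e : ∀ j : Fin N, ∫ q : ℝ × ℝ, (wgt (q.1 - j))⁻¹ * (wgt (q.2 - j))⁻¹
        ∂((volume : Measure ℝ).prod volume) = Real.pi * Real.pi := fun j => by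
      rw [integral_prod_mul (fun x : ℝ => (wgt (x - j))⁻¹) (fun x : ℝ => (wgt (x - j))⁻¹),
        integral_sub_right_eq_self (fun x => (wgt x)⁻¹)]
      simp only [wgt, integral_univ_inv_one_add_sq]
    rw [integral_finsetSum _ fun j _ => hi j]
    simp only [integral_const_mul, e, Finset.sum_const, Finset.card_univ, Fintype.card_fin,
      nsmul_eq_mul]
    ring

/-! ### The correlation -/

/-- The square `[-R, R]²`. -/
def box2 (R : ℝ) : Set (ℝ × ℝ) := Icc (-R) R ×ˢ Icc (-R) R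

lemma measurableSet_box2 (R : ℝ) : MeasurableSet (box2 R) :=
  measurableSet_Icc.prod measurableSet_Icc

lemma volume_box2_lt (R : ℝ) : volume (box2 R) < ⊤ :=
  (isCompact_Icc.prod isCompact_Icc).measure_lt_top

lemma Dec.of_support {G : K2 H} {f : ℝ × ℝ → H} {R B : ℝ} (hB : 0 ≤ B)
    (hG : (G : ℝ × ℝ → H) =ᵐ[volume] (box2 R).indicator f) (hf : ∀ q, ‖f q‖ ≤ B) :
    Dec G (B * (wgt R) ^ 2) := by
  filter_upwards [hG] with q hq
  rw [hq]
  have := wgt_pos R
  have := wgt_pos q.1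
  have := wgt_pos q.2
  by_cases h : q ∈ box2 R
  · rw [indicator_of_mem h]
    refine (hf q).trans ?_
    rw [mul_assoc]
    refine le_mul_of_one_le_right hB ?_
    rw [← mul_inv, ← div_eq_mul_inv, one_le_div (by positivity), pow_two]
    have hle : ∀ y : ℝ, y ∈ Icc (-R) R → wgt y ≤ wgt R := fun y hy => by
      simp only [wgt]; nlinarith [hy.1, hy.2]
    exact mul_le_mul (hle _ h.1) (hle _ h.2) (wgt_pos _).le (wgt_pos _).le
  · rw [indicator_of_notMem h, norm_zero]
    positivity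

variable {S : Std H} {D : Modular S}

/-- `[σ_u a, x] Ω`. -/
def Orbit.comm (o : Orbit D) (x : H →L[ℂ] H) (u : ℝ) : H :=
  D.σ u o.a (x S.Ω) - x (D.σ u o.a S.Ω)

namespace Orbit

variable (o : Orbit D) (x : H →L[ℂ] H)

lemma continuous_comm : Continuous (o.comm x) :=
  (D.continuous_σ_apply _ _).sub (x.continuous.comp (D.continuous_σ_apply _ _))

lemma norm_comm_le (u : ℝ) : ‖o.comm x u‖ ≤ 2 * (o.B * ‖x‖) := by
  refine (norm_sub_le _ _).trans ?_
  have h1 : ‖x S.Ω‖ ≤ ‖x‖ := by simpa [S.norm_Ω] using x.le_opNorm S.Ω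
  have h2 : ‖D.σ u o.a S.Ω‖ ≤ o.B := by simpa [S.norm_Ω] using o.norm_orbit_le u S.Ω
  nlinarith [(o.norm_orbit_le u (x S.Ω)).trans (mul_le_mul_of_nonneg_left h1 o.B_nonneg),
    (x.le_opNorm (D.σ u o.a S.Ω)).trans (mul_le_mul_of_nonneg_left h2 (norm_nonneg x))]

/-- The diagonal translates of the orbit. -/
def shift (r : ℝ) : Orbit D where
  a := D.σ r o.a
  mem := D.σ_mem' _ o.mem
  sa := isSelfAdjoint_σ D o.sa r
  F z := o.F (z + r)
  F_diff := o.F_diff.comp (differentiable_id.add_const _)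
  F_mem _ := o.F_mem _
  F_real t := by rw [← Complex.ofReal_add, o.F_real, D.σ_σ]
  B := o.B
  F_bound z hz := o.F_bound _ (by simpa using hz)

/-- The test vector. -/
def test (W : Window) (R : ℝ) : K2 H :=
  ((memLp_indicator_iff_restrict (μ := (volume : Measure (ℝ × ℝ))) (p := 2)
    (f := W.psi (o.comm x)) (measurableSet_box2 R)).2
      (haveI : IsFiniteMeasure ((volume : Measure (ℝ × ℝ)).restrict (box2 R)) :=
        isFiniteMeasure_restrict.2 (volume_box2_lt R).ne
      MemLp.of_bound (W.continuous_psi (o.continuous_comm x) (o.norm_comm_le x)).aestronglyMeasurable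
        ((Classical.choose (W.exists_psi_bound (H := H))) * (2 * (o.B * ‖x‖)))
        (Eventually.of_forall fun q => (Classical.choose_spec (W.exists_psi_bound (H := H))).2 _ _
          (o.norm_comm_le x) q))).toLp _

lemma coeFn_test (W : Window) (R : ℝ) :
    (o.test x W R : ℝ × ℝ → H) =ᵐ[volume] (box2 R).indicator (W.psi (o.comm x)) :=
  MemLp.coeFn_toLp _

/-- The mass of the test vector. -/
def mass (W : Window) (R : ℝ) : ℝ := ∫ q in box2 R, ‖W.psi (o.comm x) q‖ ^ 2

/-- The correlation with `(1 ⊗ x) P_T`. -/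
theorem exists_correlation (W : Window) (hx : x ∈ S.M) {R : ℝ} (hR : 0 ≤ R) :
    ∃ C : ℝ, 0 ≤ C ∧ ∀ (T s : ℝ), 1 ≤ T → ∀ p : L22, ((p : ℝ × ℝ → ℂ) =ᵐ[volume] W.pfn T s) →
      ‖⟪(AL D W.hki o.a - AR D W.hki o.a) (o.test x W R), lift2 x (ten S.Ω p)⟫_ℂ -
        pwave W.β (s / T) * (o.mass x W R : ℂ)‖ ≤ C / Real.sqrt T := by
  obtain ⟨c₁, hc₁0, hc₁⟩ := W.exists_full_bound (H := H)
  obtain ⟨c₂, hc₂0, hc₂⟩ := W.exists_psi_bound (H := H)
  obtain ⟨c₃, hc₃0, hc₃⟩ := exists_pwave_diff W.hβ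
  obtain ⟨c₄, hc₄0, hc₄⟩ := o.exists_move W
  have hB := o.B_nonneg
  set B := 2 * (o.B * ‖x‖) with hBdef
  have hB0 : 0 ≤ B := by positivity
  set E := c₁ * B + c₃ * wgt R * R * (c₂ * B) with hE
  have hE0 : 0 ≤ E := by have := wgt_pos R; positivity
  refine ⟨c₂ * B * E * volume.real (box2 R) + ‖o.test x W R‖ * (‖x‖ * Real.sqrt c₄),
    by positivity, fun T s hT p hp => ?_⟩
  have hT0 : 0 < T := zero_lt_one.trans_le hT
  set η := o.test x W R
  set P : K2 H := ten S.Ω p
  set A := AL D W.hki o.a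
  set A' := AR D W.hki o.a
  have hsa : IsSelfAdjoint (A - A') :=
    (isSelfAdjoint_AL D W.hki W.hk o.sa).sub (isSelfAdjoint_AR D W.hki W.hk o.sa)
  set Z : K2 H := A (lift2 x P) - lift2 x (A P)
  have hsplit : (A - A') (lift2 x P) = Z + lift2 x ((A - A') P) := by
    have hc : A' (lift2 x P) = lift2 x (A' P) :=
      congrArg (fun T : K2 H →L[ℂ] K2 H => T P) (commute_lift2_AR D W.hki hx o.mem).eq.symm
    simp only [Z, sub_apply, map_sub, hc]
    abel
  have hZ : (Z : ℝ × ℝ → H) =ᵐ[volume] W.full T s (o.comm x) := by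
    filter_upwards [Lp.coeFn_sub (A (lift2 x P)) (lift2 x (A P)),
      ae_lift2 x (o.AL_packet W T s S.Ω hp),
      show ((A (lift2 x P) : K2 H) : ℝ × ℝ → H) =ᵐ[volume] W.full T s fun u => D.σ u o.a (x S.Ω) by
        rw [show lift2 x P = ten (x S.Ω) p from lift2_ten x S.Ω p]
        exact o.AL_packet W T s (x S.Ω) hp] with q h1 h2 h3
    rw [h1, Pi.sub_apply, h3, h2]
    have hi1 := W.integrable_full (D.continuous_σ_apply o.a (x S.Ω))
      (fun u => o.norm_orbit_le u (x S.Ω)) T s q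
    have hi2 := W.integrable_full (D.continuous_σ_apply o.a S.Ω)
      (fun u => o.norm_orbit_le u S.Ω) T s q
    unfold Window.full
    rw [← x.integral_comp_comm hi2, ← integral_sub hi1 (x.integrable_comp hi2)]
    simp only [comm, map_smul, smul_sub]
  have hfirst : ‖⟪η, Z⟫_ℂ - pwave W.β (s / T) * (o.mass x W R : ℂ)‖ ≤
      c₂ * B * (E / T) * volume.real (box2 R) := by
    have e1 : ⟪η, Z⟫_ℂ = ∫ q in box2 R, ⟪W.psi (o.comm x) q, W.full T s (o.comm x) q⟫_ℂ := by
      rw [← integral_indicator (measurableSet_box2 R), L2.inner_def]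
      refine integral_congr_ae ?_
      filter_upwards [o.coeFn_test x W R, hZ] with q h1 h2
      rw [h1, h2]
      by_cases h : q ∈ box2 R
      · rw [indicator_of_mem h, indicator_of_mem h]
      · rw [indicator_of_notMem h, indicator_of_notMem h, inner_zero_left]
    have hi1 : IntegrableOn
        (fun q => ⟪W.psi (o.comm x) q, W.full T s (o.comm x) q⟫_ℂ) (box2 R) := by
      refine (integrable_indicator_iff (measurableSet_box2 R)).1
        ((L2.integrable_inner (𝕜 := ℂ) η Z).congr ?_)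
      filter_upwards [o.coeFn_test x W R, hZ] with q h1 h2
      rw [h1, h2]
      by_cases h : q ∈ box2 R
      · rw [indicator_of_mem h, indicator_of_mem h]
      · rw [indicator_of_notMem h, indicator_of_notMem h, inner_zero_left]
    have hc := W.continuous_psi (o.continuous_comm x) (o.norm_comm_le x)
    have hi2 : IntegrableOn
        (fun q => pwave W.β (s / T) * ((‖W.psi (o.comm x) q‖ ^ 2 : ℝ) : ℂ)) (box2 R) :=
      (continuous_const.mul (Complex.continuous_ofReal.comp (hc.norm.pow 2))).continuousOn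
        |>.integrableOn_compact (isCompact_Icc.prod isCompact_Icc)
    rw [e1, mass, ← integral_complex_ofReal, ← integral_const_mul, ← integral_sub hi1 hi2]
    refine norm_setIntegral_le_of_norm_le_const (volume_box2_lt R) fun q hq => ?_
    have hΨ := hc₂ _ _ (o.norm_comm_le x) q
    have e : ⟪W.psi (o.comm x) q, W.full T s (o.comm x) q⟫_ℂ -
        pwave W.β (s / T) * ((‖W.psi (o.comm x) q‖ ^ 2 : ℝ) : ℂ) =
        ⟪W.psi (o.comm x) q, (W.full T s (o.comm x) q -
            pwave W.β ((q.1 + s) / T) • W.psi (o.comm x) q) +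
          (pwave W.β ((q.1 + s) / T) - pwave W.β (s / T)) • W.psi (o.comm x) q⟫_ℂ := by
      rw [sub_smul, sub_add_sub_cancel, inner_sub_right, inner_smul_right,
        inner_self_eq_norm_sq_to_K]
      push_cast
      rfl
    rw [e]
    refine (norm_inner_le_norm _ _).trans (mul_le_mul hΨ ?_ (norm_nonneg _) (by positivity))
    refine (norm_add_le _ _).trans ?_
    rw [hE, add_div (c₁ * B)]
    refine add_le_add ((hc₁ T s hT _ (o.continuous_comm x) _ (o.norm_comm_le x) q).trans ?_) ?_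
    · rw [mul_assoc]
      refine mul_le_of_le_one_right (by positivity) ?_
      exact mul_le_one₀ (inv_le_one_of_one_le₀ (one_le_wgt _)) (inv_nonneg.2 (wgt_pos _).le)
        (inv_le_one_of_one_le₀ (one_le_wgt _))
    · have hq1 : |q.1| ≤ R := abs_le.2 ⟨hq.1.1, hq.1.2⟩
      have hd : ‖pwave W.β ((q.1 + s) / T) - pwave W.β (s / T)‖ ≤ c₃ * wgt R * (R / T) := by
        refine (hc₃ _ _).trans ?_
        rw [show (q.1 + s) / T - s / T = q.1 / T by ring, abs_div, abs_of_pos hT0]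
        have hw : wgt (q.1 / T) ≤ wgt R := by
          simp only [wgt]
          have h1 : |q.1 / T| ≤ |q.1| := by
            rw [abs_div, abs_of_pos hT0]; exact div_le_self (abs_nonneg _) hT
          nlinarith [sq_abs (q.1 / T), abs_nonneg (q.1 / T)]
        have := wgt_pos (s / T)
        have := wgt_pos (q.1 / T)
        have := wgt_pos R
        calc c₃ * (wgt (s / T))⁻¹ * wgt (q.1 / T) * (|q.1| / T)
            ≤ c₃ * 1 * wgt R * (R / T) := by
              gcongr
              exact inv_le_one_of_one_le₀ (one_le_wgt _)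
          _ = _ := by ring
      rw [norm_smul]
      have := wgt_pos R
      exact (mul_le_mul hd hΨ (norm_nonneg _) (by positivity)).trans_eq (by ring)
  have hself : ⟪(A - A') η, lift2 x P⟫_ℂ = ⟪η, (A - A') (lift2 x P)⟫_ℂ := hsa.isSymmetric η _
  rw [hself, hsplit, inner_add_right, add_sub_right_comm]
  refine (norm_add_le _ _).trans ?_
  rw [add_div]
  refine add_le_add (hfirst.trans ?_) ?_
  · rw [show c₂ * B * (E / T) * volume.real (box2 R) = c₂ * B * E * volume.real (box2 R) / T by ring]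
    refine div_le_div_of_nonneg_left (by positivity) (Real.sqrt_pos.2 hT0) ?_
    rw [Real.sqrt_le_left hT0.le]
    nlinarith
  · rw [mul_div_assoc, mul_div_assoc]
    refine (norm_inner_le_norm _ _).trans (mul_le_mul_of_nonneg_left ?_ (norm_nonneg _))
    refine (norm_lift2_apply_le x _).trans (mul_le_mul_of_nonneg_left ?_ (norm_nonneg _))
    rw [← Real.sqrt_div hc₄0]
    exact Real.le_sqrt_of_sq_le (hc₄ T s hT p hp)

end Orbit

end P132.Core
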