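import Vale.Agent.P132.Core.Fourier

/-!
# P132 core: plane wave transforms of bumps, extended to the plane

For a smooth compactly supported `f` the transform `pext f` is entire and decays like every power of
`1 + x ^ 2` on horizontal strips. Its convolution rule and the shift of horizontal lines are recorded.
-/

noncomputable section

namespace P132.Core

open MeasureTheory FourierTransform Complex Filter Topology

/-- The weight `1 + x ^ 2`. -/
def wgt (x : ℝ) : ℝ := 1 + x ^ 2

lemma one_le_wgt (x : ℝ) : 1 ≤ wgt x := le_add_of_nonneg_right (sq_nonneg x)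

lemma wgt_pos (x : ℝ) : 0 < wgt x := zero_lt_one.trans_le (one_le_wgt x)

lemma wgt_neg (x : ℝ) : wgt (-x) = wgt x := by simp [wgt]

lemma continuous_wgt : Continuous wgt := by unfold wgt; fun_prop

lemma wgt_add_le (x y : ℝ) : wgt (x + y) ≤ 2 * (wgt x * wgt y) := by
  simp only [wgt]
  nlinarith [sq_nonneg (x - y), sq_nonneg (x * y), sq_nonneg x, sq_nonneg y]

lemma inv_wgt_le (x y : ℝ) : (wgt x)⁻¹ * (wgt y)⁻¹ ≤ 2 * (wgt (x + y))⁻¹ := by
  rw [← mul_inv, inv_eq_one_div, ← div_eq_mul_inv, div_le_div_iff₀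
    (mul_pos (wgt_pos x) (wgt_pos y)) (wgt_pos _), one_mul]
  exact wgt_add_le x y

lemma integrable_inv_wgt_pow {N : ℕ} (hN : 1 ≤ N) : Integrable fun x : ℝ => ((wgt x) ^ N)⁻¹ := by
  refine integrable_inv_one_add_sq.mono'
    ((continuous_wgt.pow N).inv₀ fun x => (pow_pos (wgt_pos x) N).ne').aestronglyMeasurable
    (Eventually.of_forall fun x => ?_)
  rw [Real.norm_of_nonneg (inv_nonneg.2 (pow_pos (wgt_pos x) N).le)]
  exact inv_anti₀ (wgt_pos x) (le_self_pow₀ (one_le_wgt x) (by omega))

/-- A smooth compactly supported function. -/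
structure Bump (f : ℝ → ℂ) : Prop where
  smooth : ∀ n : ℕ, ContDiff ℝ n f
  support : HasCompactSupport f

namespace Bump

variable {f g : ℝ → ℂ}

lemma continuous (hf : Bump f) : Continuous f := (hf.smooth 0).continuous

lemma hasDerivAt (hf : Bump f) (x : ℝ) : HasDerivAt f (deriv f x) x :=
  ((hf.smooth 1).differentiable (by norm_num) x).hasDerivAt

lemma of_deriv (hf : Bump f) : Bump (deriv f) where
  smooth n := (hf.smooth (n + 1)).deriv'
  support := hf.support.deriv

lemma integrable (hf : Bump f) : Integrable f :=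
  hf.continuous.integrable_of_hasCompactSupport hf.support

lemma mul (hf : Bump f) (hg : ∀ n : ℕ, ContDiff ℝ n g) : Bump fun x => f x * g x where
  smooth n := (hf.smooth n).mul (hg n)
  support := hf.support.mul_right

lemma exists_radius (hf : Bump f) : ∃ W : ℝ, 0 ≤ W ∧ ∀ x, f x ≠ 0 → |x| ≤ W := by
  obtain ⟨W, hW⟩ := hf.support.isBounded.exists_norm_le
  refine ⟨max W 0, le_max_right _ _, fun x hx => ?_⟩
  exact (Real.norm_eq_abs x ▸ hW x (subset_tsupport f hx)).trans (le_max_left _ _)

lemma exists_lip (hf : Bump f) : ∃ L : ℝ, 0 ≤ L ∧ ∀ a b, ‖f a - f b‖ ≤ L * |a - b| := by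
  obtain ⟨L, hL⟩ := hf.of_deriv.support.exists_bound_of_continuous hf.of_deriv.continuous
  refine ⟨max L 0, le_max_right _ _, fun a b => ?_⟩
  have h := Convex.norm_image_sub_le_of_norm_hasDerivWithin_le (s := Set.univ)
    (fun x _ => (hf.hasDerivAt x).hasDerivWithinAt) (fun x _ => (hL x).trans (le_max_left L 0))
    convex_univ (Set.mem_univ b) (Set.mem_univ a)
  rwa [Real.norm_eq_abs] at h

end Bump

/-- The plane wave transform at a complex point. -/
def pext (f : ℝ → ℂ) (z : ℂ) : ℂ := ∫ ν, f ν * cexp ((2 * Real.pi * ν : ℝ) * z * I)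

lemma pext_ofReal (f : ℝ → ℂ) (x : ℝ) : pext f x = pwave f x := by
  unfold pext pwave wave
  congr 1
  ext ν
  rw [mul_comm]
  congr 2
  push_cast
  ring

lemma norm_cexp_pext (ν : ℝ) (z : ℂ) :
    ‖cexp ((2 * Real.pi * ν : ℝ) * z * I)‖ = Real.exp (-(2 * Real.pi * ν * z.im)) := by
  rw [Complex.norm_exp]
  congr 1
  simp [Complex.mul_re, Complex.mul_im]

lemma continuous_pext_kernel {f : ℝ → ℂ} (hf : Continuous f) (z : ℂ) :
    Continuous fun ν : ℝ => f ν * cexp ((2 * Real.pi * ν : ℝ) * z * I) := by fun_prop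

lemma integrable_pext {f : ℝ → ℂ} (hf : Bump f) (z : ℂ) :
    Integrable fun ν : ℝ => f ν * cexp ((2 * Real.pi * ν : ℝ) * z * I) :=
  (continuous_pext_kernel hf.continuous z).integrable_of_hasCompactSupport hf.support.mul_right

lemma differentiable_pext {f : ℝ → ℂ} (hf : Bump f) : Differentiable ℂ (pext f) := by
  intro z
  obtain ⟨W, hW0, hW⟩ := hf.exists_radius
  set F' : ℂ → ℝ → ℂ := fun w ν =>
    f ν * (cexp ((2 * Real.pi * ν : ℝ) * w * I) * (((2 * Real.pi * ν : ℝ) : ℂ) * I))
  refine (hasDerivAt_integral_of_dominated_loc_of_deriv_le (μ := (volume : Measure ℝ)) (F' := F')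
    (bound := fun ν => (2 * Real.pi * W * Real.exp (2 * Real.pi * W * (|z.im| + 1))) * ‖f ν‖)
    (Metric.closedBall_mem_nhds z one_pos)
    (Eventually.of_forall fun w => (continuous_pext_kernel hf.continuous w).aestronglyMeasurable)
    (integrable_pext hf z) ?_ (Eventually.of_forall fun ν w hw => ?_)
    (hf.integrable.norm.const_mul _) (Eventually.of_forall fun ν w _ => ?_)).2.differentiableAt
  · exact (hf.continuous.mul (by fun_prop)).aestronglyMeasurable
  · by_cases h0 : f ν = 0
    · simp [F', h0]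
    have hν := hW ν h0
    simp only [F', norm_mul, norm_cexp_pext, Complex.norm_real, Complex.norm_I, mul_one,
      Real.norm_eq_abs, abs_two, abs_of_pos Real.pi_pos]
    rw [mul_comm (2 * Real.pi * W * _) ‖f ν‖]
    refine mul_le_mul_of_nonneg_left ?_ (norm_nonneg _)
    rw [mul_comm (Real.exp _)]
    refine mul_le_mul (by gcongr) (Real.exp_le_exp.2 ?_) (Real.exp_pos _).le (by positivity)
    have him : |w.im| ≤ |z.im| + 1 := by
      have h1 := (Complex.abs_im_le_norm (w - z)).trans (mem_closedBall_iff_norm.1 hw)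
      rw [Complex.sub_im] at h1
      linarith [abs_sub_abs_le_abs_sub w.im z.im]
    calc -(2 * Real.pi * ν * w.im) ≤ |2 * Real.pi * ν * w.im| := neg_le_abs _
      _ = 2 * Real.pi * (|ν| * |w.im|) := by
          rw [abs_mul, abs_mul, abs_mul, abs_two, abs_of_pos Real.pi_pos]; ring
      _ ≤ 2 * Real.pi * (W * (|z.im| + 1)) := by gcongr
      _ = _ := by ring
  · have h := ((hasDerivAt_id w).const_mul (((2 * Real.pi * ν : ℝ) : ℂ))).mul_const I
    exact (h.cexp.const_mul (f ν)).congr_deriv (by simp [F'])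

lemma pext_deriv {f : ℝ → ℂ} (hf : Bump f) (z : ℂ) :
    pext (deriv f) z = -(((2 * Real.pi : ℝ) : ℂ) * z * I * pext f z) := by
  set v : ℝ → ℂ := fun ν => cexp ((2 * Real.pi * ν : ℝ) * z * I) with hv
  have hd : ∀ ν, HasDerivAt v (v ν * (((2 * Real.pi : ℝ) : ℂ) * z * I)) ν := fun ν => by
    have h : HasDerivAt (fun w : ℂ => ((2 * Real.pi : ℝ) : ℂ) * z * I * w)
        (((2 * Real.pi : ℝ) : ℂ) * z * I) (ν : ℂ) := by
      simpa using (hasDerivAt_id (ν : ℂ)).const_mul (((2 * Real.pi : ℝ) : ℂ) * z * I)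
    refine (h.cexp.comp_ofReal.congr_deriv ?_).congr_of_eventuallyEq
      (Eventually.of_forall fun x => ?_)
    · simp only [hv]; push_cast; ring_nf
    · simp only [hv]; push_cast; ring_nf
  have h := integral_mul_deriv_eq_deriv_mul_of_integrable (u := f) (v := v) (u' := deriv f)
    (v' := fun ν => v ν * (((2 * Real.pi : ℝ) : ℂ) * z * I))
    (fun x _ => hf.hasDerivAt x) (fun x _ => hd x)
    (((integrable_pext hf z).mul_const (((2 * Real.pi : ℝ) : ℂ) * z * I)).congr (Eventually.of_forall fun x => by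
      simp only [Pi.mul_apply, hv]; ring))
    (integrable_pext hf.of_deriv z) (integrable_pext hf z)
  rw [eq_neg_iff_add_eq_zero, add_comm, ← eq_neg_iff_add_eq_zero]
  refine (Eq.trans ?_ h)
  unfold pext
  rw [← integral_const_mul]
  congr 1
  ext x
  simp only [hv]
  ring

lemma exists_decay {f : ℝ → ℂ} (hf : Bump f) (Y : ℝ) (N : ℕ) :
    ∃ C : ℝ, 0 ≤ C ∧ ∀ z : ℂ, |z.im| ≤ Y → ‖pext f z‖ ≤ C * ((wgt z.re) ^ N)⁻¹ := by
  induction N generalizing f with
  | zero =>
    obtain ⟨W, hW0, hW⟩ := hf.exists_radius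
    refine ⟨Real.exp (2 * Real.pi * W * Y) * ∫ ν, ‖f ν‖,
      mul_nonneg (Real.exp_pos _).le (integral_nonneg fun _ => norm_nonneg _), fun z hz => ?_⟩
    rw [pow_zero, inv_one, mul_one, ← integral_const_mul]
    refine norm_integral_le_of_norm_le (hf.integrable.norm.const_mul _)
      (Eventually.of_forall fun ν => ?_)
    rw [norm_mul, norm_cexp_pext, mul_comm]
    by_cases h0 : f ν = 0
    · simp [h0]
    refine mul_le_mul_of_nonneg_right (Real.exp_le_exp.2 ?_) (norm_nonneg _)
    calc -(2 * Real.pi * ν * z.im) ≤ |2 * Real.pi * ν * z.im| := neg_le_abs _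
      _ = 2 * Real.pi * (|ν| * |z.im|) := by
          rw [abs_mul, abs_mul, abs_mul, abs_two, abs_of_pos Real.pi_pos]; ring
      _ ≤ 2 * Real.pi * (W * Y) := by
          have := hW ν h0
          gcongr
      _ = _ := by ring
  | succ N ih =>
    obtain ⟨C, hC0, hC⟩ := ih hf
    obtain ⟨C', hC0', hC'⟩ := ih hf.of_deriv.of_deriv
    refine ⟨C + C', by positivity, fun z hz => ?_⟩
    have h := congrArg norm (pext_deriv hf.of_deriv z)
    simp only [pext_deriv hf, norm_neg, norm_mul, Complex.norm_real, Complex.norm_I,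
      Real.norm_eq_abs, abs_two, abs_of_pos Real.pi_pos, mul_one] at h
    have h1 := hC z hz
    have h2 := hC' z hz
    have hre : z.re ^ 2 ≤ (2 * Real.pi * ‖z‖) * (2 * Real.pi * ‖z‖) := by
      have h3 : |z.re| ≤ 2 * Real.pi * ‖z‖ := by
        nlinarith [Complex.abs_re_le_norm z, Real.pi_gt_three, norm_nonneg z]
      nlinarith [abs_nonneg z.re, sq_abs z.re]
    have hmain : wgt z.re * ‖pext f z‖ ≤ (C + C') * ((wgt z.re) ^ N)⁻¹ := by
      rw [wgt, add_mul, one_mul, add_mul]
      refine add_le_add h1 ((mul_le_mul_of_nonneg_right hre (norm_nonneg _)).trans ?_)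
      rw [mul_assoc, ← h]
      exact h2
    rw [pow_succ, mul_inv, ← mul_assoc, ← div_eq_mul_inv, le_div_iff₀' (wgt_pos _)]
    exact hmain

lemma exists_decay_pwave {f : ℝ → ℂ} (hf : Bump f) (N : ℕ) :
    ∃ C : ℝ, 0 ≤ C ∧ ∀ x : ℝ, ‖pwave f x‖ ≤ C * ((wgt x) ^ N)⁻¹ := by
  obtain ⟨C, hC0, hC⟩ := exists_decay hf 0 N
  exact ⟨C, hC0, fun x => by simpa [pext_ofReal] using hC x (by simp)⟩

lemma integrable_pwave {f : ℝ → ℂ} (hf : Bump f) : Integrable (pwave f) := by
  obtain ⟨C, -, hC⟩ := exists_decay_pwave hf 1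
  exact ((integrable_inv_wgt_pow le_rfl).const_mul C).mono'
    (continuous_pwave hf.integrable).aestronglyMeasurable (Eventually.of_forall hC)

lemma integral_pwave_wave {f : ℝ → ℂ} (hf : Bump f) (ν : ℝ) :
    ∫ x, pwave f x * wave ν (-x) = f ν := by
  have e : ∀ g : ℝ → ℂ, 𝓕 g = fun w => ∫ x, g x * wave w (-x) := fun g => by
    ext w
    rw [Real.fourier_eq']
    congr 1
    ext x
    simp only [smul_eq_mul, RCLike.inner_apply, conj_trivial, wave]
    rw [mul_comm]
    congr 2
    push_cast
    ring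
  have hi : Integrable (𝓕 f) := by
    refine (integrable_pwave hf).comp_neg.congr (Eventually.of_forall fun x => ?_)
    simp only [e, pwave]
    congr 1
    ext u
    simp only [wave]
    rw [mul_comm]
    congr 2
    push_cast
    ring
  have h := congrFun (hf.continuous.fourier_fourierInv_eq hf.integrable hi) ν
  rwa [e, fourierInv_eq_pwave] at h

lemma pwave_conv {f h : ℝ → ℂ} (hf : Bump f) (hh : Bump h) (u w : ℝ) :
    ∫ v, pwave f (u - v) * pwave h (v - w) = pwave (fun ν => f ν * h ν) (u - w) := by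
  have hcw : Continuous fun p : ℝ × ℝ => wave p.1 p.2 := continuous_wave
  calc ∫ v, pwave f (u - v) * pwave h (v - w)
      = ∫ v, ∫ ν, pwave f (u - v) * (wave ν (v - w) * h ν) := by
        congr 1; ext v; rw [integral_const_mul]; rfl
    _ = ∫ ν, ∫ v, pwave f (u - v) * (wave ν (v - w) * h ν) := by
        refine integral_integral_swap ?_
        refine Integrable.mono' (((integrable_pwave hf).comp_sub_left u).norm.mul_prod hh.integrable.norm)
          ?_ (Eventually.of_forall fun p => ?_)
        · have hc : Continuous fun p : ℝ × ℝ => pwave f (u - p.1) * (wave p.2 (p.1 - w) * h p.2) :=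
            ((continuous_pwave hf.integrable).comp (continuous_const.sub continuous_fst)).mul
              ((hcw.comp (continuous_snd.prodMk (continuous_fst.sub continuous_const))).mul
                (hh.continuous.comp continuous_snd))
          exact hc.aestronglyMeasurable
        · simp only [Function.uncurry, norm_mul, norm_wave, one_mul, le_refl]
    _ = ∫ ν, wave ν (u - w) * (f ν * h ν) := by
        congr 1; ext ν
        rw [← integral_pwave_wave hf ν, ← integral_sub_left_eq_self (fun x => pwave f x * wave ν (-x)) volume u]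
        rw [← integral_mul_const, ← integral_const_mul]
        congr 1; ext v
        rw [show v - w = (u - w) + -(u - v) by ring, wave_add_right]
        ring

variable {E : Type*} [NormedAddCommGroup E] [NormedSpace ℂ E]

/-- Horizontal lines may be shifted. -/
lemma integral_shift_line {F : ℂ → E} (hF : Differentiable ℂ F) {a b C : ℝ}
    (hb : ∀ x : ℝ, ∀ y ∈ Set.uIcc a b, ‖F (x + y * I)‖ ≤ C * (wgt x)⁻¹) :
    ∫ x : ℝ, F (x + a * I) = ∫ x : ℝ, F (x + b * I) := by
  have hint : ∀ y ∈ Set.uIcc a b, Integrable fun x : ℝ => F (x + y * I) := fun y hy =>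
    (((integrable_inv_wgt_pow le_rfl).const_mul C)).mono'
      (hF.continuous.comp (by fun_prop)).aestronglyMeasurable
      (Eventually.of_forall fun x => by simpa using hb x y hy)
  have hl : Tendsto (fun R : ℕ => (∫ x in (-R : ℝ)..R, F (x + a * I)) -
      ∫ x in (-R : ℝ)..R, F (x + b * I)) atTop
      (𝓝 ((∫ x : ℝ, F (x + a * I)) - ∫ x : ℝ, F (x + b * I))) :=
    (intervalIntegral_tendsto_integral (hint a Set.left_mem_uIcc)
      (tendsto_neg_atTop_atBot.comp tendsto_natCast_atTop_atTop) tendsto_natCast_atTop_atTop).sub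
      (intervalIntegral_tendsto_integral (hint b Set.right_mem_uIcc)
      (tendsto_neg_atTop_atBot.comp tendsto_natCast_atTop_atTop) tendsto_natCast_atTop_atTop)
  refine sub_eq_zero.1 (tendsto_nhds_unique hl (squeeze_zero_norm (fun R => ?_)
    (?_ : Tendsto (fun R : ℕ => 2 * (C * (wgt R)⁻¹) * |b - a|) atTop (𝓝 0))))
  · have h := Complex.integral_boundary_rect_eq_zero_of_differentiableOn F
      ((-R : ℝ) + a * I) ((R : ℝ) + b * I) hF.differentiableOn
    simp only [Complex.add_re, Complex.ofReal_re, Complex.mul_re, Complex.I_re, mul_zero,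
      Complex.ofReal_im, Complex.I_im, mul_one, sub_self, add_zero, Complex.add_im, Complex.mul_im,
      zero_add] at h
    rw [add_sub_assoc, add_eq_zero_iff_eq_neg] at h
    rw [h, norm_neg]
    refine (norm_sub_le _ _).trans ?_
    rw [norm_smul, norm_smul, Complex.norm_I, one_mul, one_mul, mul_assoc, two_mul]
    have hw : wgt (-R : ℝ) = wgt R := wgt_neg R
    refine add_le_add (intervalIntegral.norm_integral_le_of_norm_le_const fun y hy => ?_)
      (intervalIntegral.norm_integral_le_of_norm_le_const fun y hy => ?_)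
    · exact hb R y (Set.uIoc_subset_uIcc hy)
    · have := hb (-R) y (Set.uIoc_subset_uIcc hy)
      rwa [hw] at this
  · have : Tendsto (fun R : ℕ => (wgt R)⁻¹) atTop (𝓝 0) := by
      refine (tendsto_atTop_mono (fun R => ?_) tendsto_natCast_atTop_atTop).inv_tendsto_atTop
      simp only [wgt]
      nlinarith [sq_nonneg ((R : ℝ) - 1)]
    simpa using ((this.const_mul C).const_mul 2).mul_const |b - a|

end P132.Core
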