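import Mathlib

/-!
# P132 core: scalar `L²` Fourier facts (pointwise formula, translation)
-/

noncomputable section

namespace P132.Core

open MeasureTheory FourierTransform SchwartzMap Complex
open scoped RealInnerProductSpace

/-- `L²(ℝ)`. -/
abbrev L2 := Lp (α := ℝ) ℂ 2 volume

/-- The plane wave `exp (2πi ν τ)`. -/
def wave (ν τ : ℝ) : ℂ := Complex.exp ((2 * Real.pi * ν * τ : ℝ) * I)

theorem norm_wave (ν τ : ℝ) : ‖wave ν τ‖ = 1 := by
  simp only [wave, Complex.norm_exp_ofReal_mul_I]

theorem continuous_wave : Continuous fun p : ℝ × ℝ => wave p.1 p.2 := by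
  unfold wave; fun_prop

theorem wave_add_right (ν τ τ' : ℝ) : wave ν (τ + τ') = wave ν τ * wave ν τ' := by
  simp only [wave, ← Complex.exp_add]; congr 1; push_cast; ring

theorem wave_add_left (ν ν' τ : ℝ) : wave (ν + ν') τ = wave ν τ * wave ν' τ := by
  simp only [wave, ← Complex.exp_add]; congr 1; push_cast; ring

/-- The integral plane wave transform. -/
def pwave (f : ℝ → ℂ) (τ : ℝ) : ℂ := ∫ ν, wave ν τ * f ν

theorem fourierInv_eq_pwave (f : ℝ → ℂ) : 𝓕⁻ f = pwave f := by
  ext τ
  rw [Real.fourierInv_eq']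
  unfold pwave wave
  congr 1; ext ν
  simp only [smul_eq_mul, RCLike.inner_apply, conj_trivial]
  congr 2
  push_cast
  ring

theorem pwave_le (f : ℝ → ℂ) (τ : ℝ) : ‖pwave f τ‖ ≤ ∫ ν, ‖f ν‖ := by
  refine (norm_integral_le_integral_norm _).trans ?_
  simp [norm_wave]

theorem continuous_pwave {f : ℝ → ℂ} (hf : Integrable f) : Continuous (pwave f) := by
  rw [← fourierInv_eq_pwave]
  exact VectorFourier.fourierIntegral_continuous Real.continuous_fourierChar
    (by simp only [LinearMap.neg_apply]; exact continuous_inner.neg) hf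

/-- For `f ∈ L¹ ∩ L²` the `L²` inverse transform is given by the integral. -/
theorem fourierInvL2_coeFn (f : L2) (hf : Integrable (f : ℝ → ℂ)) :
    ((𝓕⁻ f : L2) : ℝ → ℂ) =ᵐ[volume] pwave f := by
  refine ae_eq_of_integral_contDiff_smul_eq
    ((Lp.memLp _).locallyIntegrable (by norm_num)) (continuous_pwave hf).locallyIntegrable ?_
  intro g hg hgc
  set gc : ℝ → ℂ := fun x => (g x : ℂ) with hgc_def
  have hgcs : HasCompactSupport gc := hgc.comp_left Complex.ofReal_zero
  have hgd : ContDiff ℝ (⊤ : ℕ∞) gc := Complex.ofRealCLM.contDiff.comp hg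
  set φ : 𝓢(ℝ, ℂ) := hgcs.toSchwartzMap hgd
  have h1 := congrArg (fun T : TemperedDistribution ℝ ℂ => T φ)
    (Lp.fourierInv_toTemperedDistribution_eq (E := ℝ) (F := ℂ) f)
  simp only [TemperedDistribution.fourierInv_apply, Lp.toTemperedDistribution_apply] at h1
  calc ∫ x, g x • ((𝓕⁻ f : L2) : ℝ → ℂ) x
      = ∫ x, φ x • ((𝓕⁻ f : L2) : ℝ → ℂ) x := by
        congr 1
    _ = ∫ x, (𝓕⁻ φ : 𝓢(ℝ, ℂ)) x • (f : ℝ → ℂ) x := h1.symm
    _ = ∫ x, φ x • pwave f x := by
        rw [← fourierInv_eq_pwave]
        have h2 := VectorFourier.integral_fourierIntegral_smul_eq_flip (f := (φ : ℝ → ℂ))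
          (g := (f : ℝ → ℂ)) (L := -innerₗ ℝ) (μ := volume) (ν := volume)
          Real.continuous_fourierChar
          (by simp only [LinearMap.neg_apply]; exact continuous_inner.neg) φ.integrable hf
        have h3 : ∀ (F : ℝ → ℂ) (x : ℝ),
            VectorFourier.fourierIntegral Real.fourierChar volume (-innerₗ ℝ).flip F x
              = 𝓕⁻ F x := by
          intro F x
          rw [Real.fourierInv_eq]
          unfold VectorFourier.fourierIntegral
          congr 1; ext v
          simp [mul_comm]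
        simp only [h3] at h2
        rw [SchwartzMap.fourierInv_coe]
        exact h2
    _ = ∫ x, g x • pwave f x := by congr 1

/-- Translation on `L²`. -/
def trans (t : ℝ) : L2 →ₗᵢ[ℂ] L2 :=
  Lp.compMeasurePreservingₗᵢ ℂ (fun τ => τ - t) (measurePreserving_sub_right volume t)

/-- Modulation on `L²`. -/
def modulate (t : ℝ) (f : L2) : L2 :=
  (show MemLp (fun ν => wave ν (-t) * f ν) 2 volume from (Lp.memLp f).of_le_mul (c := 1)
    ((continuous_wave.comp (continuous_id.prodMk continuous_const)).aestronglyMeasurable.mul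
      (Lp.aestronglyMeasurable f))
    (by filter_upwards with ν; simp [norm_wave])).toLp _

theorem coeFn_modulate (t : ℝ) (f : L2) :
    (modulate t f : ℝ → ℂ) =ᵐ[volume] fun ν => wave ν (-t) * f ν :=
  MemLp.coeFn_toLp _

theorem modulate_isometry (t : ℝ) : Isometry (modulate t) := by
  refine Isometry.of_dist_eq fun f g => ?_
  rw [Lp.dist_def, Lp.dist_def]
  congr 1
  refine eLpNorm_congr_norm_ae ?_
  filter_upwards [coeFn_modulate t f, coeFn_modulate t g] with ν h1 h2
  simp [h1, h2, ← mul_sub, norm_wave]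

/-- Translation corresponds to modulation. -/
theorem trans_fourierInv (t : ℝ) (f : L2) : trans t (𝓕⁻ f) = 𝓕⁻ (modulate t f) := by
  refine DenseRange.induction_on
    (SchwartzMap.denseRange_toLpCLM (E := ℝ) (F := ℂ) (μ := volume) (p := 2) ENNReal.ofNat_ne_top) f
    (isClosed_eq ((trans t).continuous.comp continuous_fourierInv)
      (continuous_fourierInv.comp (modulate_isometry t).continuous)) ?_
  intro φ
  simp only [SchwartzMap.toLpCLM_apply]
  have hi : Integrable (modulate t (φ.toLp 2 volume) : ℝ → ℂ) := by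
    refine (φ.integrable.norm).mono' (Lp.aestronglyMeasurable _) ?_
    filter_upwards [coeFn_modulate t (φ.toLp 2 volume), φ.coeFn_toLp 2 volume] with ν h1 h2
    simp [h1, h2, norm_wave]
  apply Lp.ext
  have hφi : Integrable (φ.toLp 2 volume : ℝ → ℂ) :=
    φ.integrable.congr (φ.coeFn_toLp 2 volume).symm
  have e1 := Lp.coeFn_compMeasurePreserving (𝓕⁻ (φ.toLp 2 volume) : L2)
    (measurePreserving_sub_right volume t)
  have e2 := (measurePreserving_sub_right volume t).quasiMeasurePreserving.ae_eq_comp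
    (fourierInvL2_coeFn _ hφi)
  filter_upwards [e1, e2, fourierInvL2_coeFn _ hi] with τ h1 h2 h3
  refine h1.trans (h2.trans ?_)
  rw [h3]
  simp only [Function.comp, pwave]
  refine integral_congr_ae ?_
  filter_upwards [coeFn_modulate t (φ.toLp 2 volume)] with ν h4
  rw [h4, ← mul_assoc, sub_eq_add_neg, wave_add_right]

end P132.Core
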