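import Vale.Agent.P132.Core.Correlation
import Vale.Agent.P132.Core.Close

/-!
# P132 core: the coherent correlations vanish

Coherence, closeness of the packets under words, and almost orthogonality of the translates force
the kernel transform of `[σ_u a, x] Ω` to vanish for a flow-fixed isometry `x`.
-/

noncomputable section

set_option linter.unusedSectionVars false

namespace P132.Core

open MeasureTheory Filter Topology Complex Set
open scoped InnerProductSpace ComplexConjugate

variable {H : Type*} [NormedAddCommGroup H] [InnerProductSpace ℂ H] [CompleteSpace H]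
variable {S : Std H} {D : Modular S}

/-- Every real window has a packet. -/
theorem Window.exists_of {g : ℝ → ℂ} (hg : Bump g) (hr : ∀ ν, conj (g ν) = g ν) :
    ∃ W : Window, W.g = g ∧ pwave W.β 0 = 1 := by
  obtain ⟨R0, hR0, hsupp⟩ := hg.exists_radius
  let b : ContDiffBump (0 : ℝ) := ⟨1 / 2, 1, by norm_num, by norm_num⟩
  let G : ContDiffBump (0 : ℝ) := ⟨R0 + 1, R0 + 2, by linarith, by linarith⟩
  have hbump : ∀ {f : ℝ → ℝ}, (∀ n : ℕ, ContDiff ℝ n f) → HasCompactSupport f →
      Bump fun ν => (f ν : ℂ) := fun {f} h1 h2 =>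
    ⟨fun n => Complex.ofRealCLM.contDiff.comp (h1 n), h2.comp_left Complex.ofReal_zero⟩
  have hG : Bump fun ν => (G ν : ℂ) := hbump (fun n => G.contDiff) G.hasCompactSupport
  refine ⟨{
    β := fun ν => (b.normed volume ν : ℂ)
    kk := expHalf fun ν => (G ν : ℂ)
    W := R0 + 2
    hW := by linarith
    hβ := hbump (fun n => b.contDiff_normed) b.hasCompactSupport_normed
    hkk := hG.expHalf
    β_support := fun ν hν => by
      have h : ν ∈ Function.support (b.normed volume) := fun h => hν (by simp [h])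
      rw [b.support_normed_eq, Metric.mem_ball, Real.dist_eq, sub_zero] at h
      exact h.le
    kk_support := fun ν hν => by
      have h : ν ∈ Function.support G := fun h => hν (by simp [expHalf, h])
      rw [G.support_eq, Metric.mem_ball, Real.dist_eq, sub_zero] at h
      exact h.le
    kk_real := fun ν => by simp only [expHalf, map_mul, Complex.conj_ofReal]
    g := g
    hg := hg
    g_real := hr
    kk_g := fun ν => by
      by_cases h0 : g ν = 0
      · simp [expHalf, h0]
      · have h1 : G ν = 1 := G.one_of_mem_closedBall (by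
          rw [Metric.mem_closedBall, Real.dist_eq, sub_zero]
          exact (hsupp ν h0).trans (le_add_of_nonneg_right zero_le_one))
        simp [expHalf, h1, mul_comm]
    }, rfl, ?_⟩
  unfold pwave wave
  simp only [mul_zero, Complex.ofReal_zero, zero_mul, Complex.exp_zero, one_mul]
  rw [integral_complex_ofReal, b.integral_normed, Complex.ofReal_one]

namespace Orbit

variable (o : Orbit D) (x : H →L[ℂ] H) (W : Window)

/-- A real multiple. -/
def rescale (r : ℝ) : Orbit D where
  a := (r : ℂ) • o.a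
  mem := vN_smul_mem _ _ o.mem
  sa := (show IsSelfAdjoint (r : ℂ) from Complex.conj_ofReal r).smul o.sa
  F z := (r : ℂ) • o.F z
  F_diff := o.F_diff.const_smul (r : ℂ)
  F_mem z := vN_smul_mem _ _ (o.F_mem z)
  F_real t := by rw [o.F_real, D.σ_smul]
  B := |r| * o.B
  F_bound z hz := by
    rw [norm_smul, Complex.norm_real, Real.norm_eq_abs]
    exact mul_le_mul_of_nonneg_left (o.F_bound z hz) (abs_nonneg r)

lemma psi_comm_rescale (r : ℝ) (q : ℝ × ℝ) :
    W.psi ((o.rescale r).comm x) q = (r : ℂ) • W.psi (o.comm x) q := by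
  rw [Window.psi, Window.psi, ← integral_smul]
  refine integral_congr_ae (Eventually.of_forall fun u => ?_)
  simp only [comm, rescale, D.σ_smul, smul_apply, map_smul, ← smul_sub]
  rw [smul_comm]

variable {x} in
/-- The mass of every test vector vanishes. -/
theorem mass_eq_zero (hx : x ∈ S.M) (hfix : D.KeyFix x) (hiso : star x * x = 1)
    (hχ : pwave W.β 0 = 1) (hnorm : 2 * ‖o.a‖ * (∫ u, ‖W.k u‖) ^ 2 ≤ 1) {R : ℝ} (hR : 0 ≤ R) :
    o.mass x W R = 0 := by
  set η := o.test x W R with hη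
  have hm0 : 0 ≤ o.mass x W R :=
    setIntegral_nonneg (measurableSet_box2 R) fun q _ => sq_nonneg _
  obtain ⟨Cp, hCp0, hCp⟩ := W.toPacketData.exists_packet
  obtain ⟨Cm, hCm0, hCm⟩ := o.exists_move W
  obtain ⟨Cc, hCc0, hCc⟩ := o.exists_correlation x W hx hR
  obtain ⟨cψ, hcψ0, hcψ⟩ := W.exists_psi_bound (H := H)
  obtain ⟨Ks, hKs0, hKs⟩ := exists_sum_translates_le (H := H)
  obtain ⟨Kd, hKd0, hKd⟩ := exists_dec_gen D W o.a
  have hB := o.B_nonneg
  have hηdec : Dec η (cψ * (2 * (o.B * ‖x‖)) * (wgt R) ^ 2) :=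
    Dec.of_support (by positivity) (o.coeFn_test x W R) (hcψ _ _ (o.norm_comm_le x))
  have hηnn : 0 ≤ cψ * (2 * (o.B * ‖x‖)) * (wgt R) ^ 2 := by
    have := wgt_pos R
    positivity
  set Cs := Ks * (Kd * (cψ * (2 * (o.B * ‖x‖)) * (wgt R) ^ 2)) with hCs
  have hsum := hKs _ _ (mul_nonneg hKd0 hηnn) (hKd η _ hηnn hηdec)
  obtain ⟨c, hc0, hc⟩ : ∃ c : ℝ, 0 < c ∧ ∀ s : ℝ, |s| ≤ c → 1 / 2 ≤ (pwave W.β s).re := by
    have hcont : Continuous fun s => (pwave W.β s).re :=
      Complex.continuous_re.comp (continuous_pwave W.hβ.integrable)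
    obtain ⟨c, hc, hball⟩ := Metric.eventually_nhds_iff.1
      ((hcont.tendsto 0).eventually_const_le (show (1 / 2 : ℝ) < (pwave W.β 0).re by
        rw [hχ]; norm_num))
    refine ⟨c / 2, half_pos hc, fun s hs => hball ?_⟩
    rw [Real.dist_eq, sub_zero]
    linarith
  -- the inequality for one set of parameters
  have main : ∀ θ > 0, ∀ M > 0, ∀ᶠ T : ℝ in atTop, o.mass x W R / 2 ≤
      Cs * Real.sqrt (2 * θ / c + 4 * M * Cm / c / T) + 6 * ‖η‖ * Cp / Real.sqrt M +
        Cc / Real.sqrt T := by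
    intro θ hθ M hM
    filter_upwards [exists_close D W.toPacketData W.hki W.hk hx hfix hiso hθ,
      eventually_ge_atTop (4 : ℝ), eventually_ge_atTop (2 / c)] with T hclose hT4 hTc
    have hT0 : 0 < T := by linarith
    set W2 := 2 * (W.W + 1)
    have hW := W.hW
    set n := ⌈W2 * T⌉₊
    have hn : 0 < n := Nat.ceil_pos.2 (by positivity)
    obtain ⟨p, hp, hpn, -⟩ := hCp T hT4 n hn (by
      rw [PacketData.step, div_mul_eq_mul_div, div_le_one (by exact_mod_cast hn)]
      exact Nat.le_ceil _)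
    set N := ⌊c * T⌋₊
    have hcT : 2 ≤ c * T := by rwa [div_le_iff₀' hc0] at hTc
    have hN : c * T / 2 ≤ N := by linarith [Nat.lt_floor_add_one (c * T)]
    have hN' : (N : ℝ) ≤ c * T := Nat.floor_le (by linarith)
    have hN0 : (0 : ℝ) < N := by linarith
    set a : Fin N → H →L[ℂ] H := fun j => D.σ (-(j : ℝ)) o.a
    set P : K2 H := ten S.Ω p
    set Y : K2 H := lift2 x P
    set v : Fin N → ℝ × ℝ := fun j => ((j : ℝ), (j : ℝ))
    set ηs : Fin N → K2 H := fun j => tr (volume : Measure (ℝ × ℝ)) (v j) η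
    set G : K2 H := (AL D W.hki o.a - AR D W.hki o.a) η
    set pj : Fin N → L22 := fun j => tr (volume : Measure (ℝ × ℝ)) (-v j) p
    have hgen : ∀ (j : Fin N) (Z : K2 H), Dop D W.hki a j (tr (volume : Measure (ℝ × ℝ)) (v j) Z) =
        tr (volume : Measure (ℝ × ℝ)) (v j) ((AL D W.hki o.a - AR D W.hki o.a) Z) := by
      intro j Z
      simp only [Dop, sub_apply, map_sub, v, a, tr_AL, tr_AR]
    have hpj : ∀ j : Fin N, (pj j : ℝ × ℝ → ℂ) =ᵐ[volume] W.pfn T (j : ℝ) := by
      intro j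
      filter_upwards [coeFn_tr (-v j) p,
        (measurePreserving_sub_right volume (-v j)).quasiMeasurePreserving.ae hp] with q h1 h2
      rw [h1, h2]
      simp [PacketData.fn, Window.pfn, v]
    have hD1 : ∀ j, ‖Dop D W.hki a j‖ ≤ 1 := fun j =>
      (norm_Dop_le D W.hki a j).trans (by simpa only [a, D.norm_σ] using hnorm)
    have hsa : ∀ j, IsSelfAdjoint (a j) := fun j => isSelfAdjoint_σ D o.sa _
    have hmove : ∑ j, ‖Dop D W.hki a j P‖ ^ 2 ≤ N * (Cm / T) := by
      refine (Finset.sum_le_sum fun j _ => ?_).trans_eq (by simp : ∑ _j : Fin N, Cm / T = N * (Cm / T))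
      have e : P = tr (volume : Measure (ℝ × ℝ)) (v j) (ten S.Ω (pj j)) := by
        rw [← tr_ten, ← tr_add, add_neg_cancel, tr_zero]
      rw [e, hgen, LinearIsometry.norm_map]
      exact hCm T _ (by linarith) _ (hpj j)
    have hcoh := Coherence.coherence (Dop D W.hki a)
      (fun j => isSelfAdjoint_Dop D W.hki W.hk a hsa j) hD1
      (norm_lift2_of_isometry hiso P) hmove (hclose p hp N a (fun j => D.σ_mem' _ o.mem) hsa)
      ηs (norm_nonneg η) (fun j => (LinearIsometry.norm_map _ _).le) (mul_pos hM hT0)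
    -- the correlations
    have hterm : ∀ j : Fin N, o.mass x W R / 2 - Cc / Real.sqrt T ≤
        (⟪Dop D W.hki a j (ηs j), Y⟫_ℂ).re := by
      intro j
      have e : ⟪Dop D W.hki a j (ηs j), Y⟫_ℂ = ⟪G, lift2 x (ten S.Ω (pj j))⟫_ℂ := by
        simp only [ηs, hgen, inner_tr, Y, P, lift2_ten, tr_ten]
        rfl
      have h := (Complex.abs_re_le_norm _).trans (hCc T (j : ℝ) (by linarith) (pj j) (hpj j))
      rw [← e, Complex.sub_re, Complex.re_mul_ofReal, abs_le] at h
      have hj : |(j : ℝ) / T| ≤ c := by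
        rw [abs_div, abs_of_pos hT0, abs_of_nonneg (Nat.cast_nonneg _), div_le_iff₀ hT0]
        exact le_trans (Nat.cast_le.2 j.2.le) hN'
      nlinarith [hc _ hj, h.1]
    have hlow : N * (o.mass x W R / 2 - Cc / Real.sqrt T) ≤
        ‖∑ j, ⟪Dop D W.hki a j (ηs j), Y⟫_ℂ‖ := by
      refine le_trans ?_ (Complex.re_le_norm _)
      rw [Complex.re_sum]
      refine le_trans (le_of_eq (by simp [mul_sub])) (Finset.sum_le_sum fun j _ => hterm j)
    have hS : ‖∑ j, Dop D W.hki a j (ηs j)‖ ≤ Cs * Real.sqrt N := by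
      simp only [ηs, hgen, hCs]
      exact hsum N
    have hCs0 : 0 ≤ Cs := mul_nonneg hKs0 (mul_nonneg hKd0 hηnn)
    have hfirst : Real.sqrt N * Real.sqrt (θ * T + 2 * (M * T) * (Cm / T)) ≤
        N * Real.sqrt (2 * θ / c + 4 * M * Cm / c / T) := by
      have hinner : θ * T + 2 * (M * T) * (Cm / T) ≤ N * (2 * θ / c + 4 * M * Cm / c / T) := by
        have e : θ * T + 2 * (M * T) * (Cm / T) = c * T / 2 * (2 * θ / c + 4 * M * Cm / c / T) := by
          field_simp
          ring
        rw [e]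
        exact mul_le_mul_of_nonneg_right hN (by positivity)
      refine (mul_le_mul_of_nonneg_left (Real.sqrt_le_sqrt hinner) (Real.sqrt_nonneg _)).trans_eq ?_
      rw [Real.sqrt_mul hN0.le, ← mul_assoc, Real.mul_self_sqrt hN0.le]
    have hsecond : 6 * N * ‖η‖ * ‖P‖ / Real.sqrt (M * T) ≤
        N * (6 * ‖η‖ * Cp / Real.sqrt M) := by
      have hPn : ‖P‖ ≤ Cp * Real.sqrt T := by
        rw [norm_ten, S.norm_Ω, one_mul]
        exact hpn
      refine (div_le_div_of_nonneg_right (mul_le_mul_of_nonneg_left hPn (by positivity))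
        (Real.sqrt_nonneg _)).trans_eq ?_
      have : Real.sqrt M ≠ 0 := (Real.sqrt_pos.2 hM).ne'
      have : Real.sqrt T ≠ 0 := (Real.sqrt_pos.2 hT0).ne'
      rw [Real.sqrt_mul hM.le]
      field_simp
    have hfst : ‖∑ j, Dop D W.hki a j (ηs j)‖ * Real.sqrt (θ * T + 2 * (M * T) * (Cm / T)) ≤
        N * (Cs * Real.sqrt (2 * θ / c + 4 * M * Cm / c / T)) := by
      refine (mul_le_mul_of_nonneg_right hS (Real.sqrt_nonneg _)).trans ?_
      rw [mul_assoc, ← mul_assoc (N : ℝ), mul_comm (N : ℝ) Cs, mul_assoc Cs]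
      exact mul_le_mul_of_nonneg_left hfirst hCs0
    have hall := hlow.trans (hcoh.trans (add_le_add hfst hsecond))
    rw [← mul_add] at hall
    have := le_of_mul_le_mul_left hall hN0
    linarith
  -- limits
  have h1 : ∀ θ > 0, ∀ M > 0, o.mass x W R / 2 ≤
      Cs * Real.sqrt (2 * θ / c) + 6 * ‖η‖ * Cp / Real.sqrt M := by
    intro θ hθ M hM
    refine ge_of_tendsto ?_ (main θ hθ M hM)
    have e1 : Tendsto (fun T : ℝ => 2 * θ / c + 4 * M * Cm / c / T) atTop (𝓝 (2 * θ / c)) := by
      simpa using (tendsto_const_nhds (x := 2 * θ / c)).add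
        (tendsto_const_nhds.div_atTop (tendsto_id (α := ℝ)) : Tendsto (fun T : ℝ =>
          4 * M * Cm / c / T) atTop (𝓝 0))
    simpa using (((Real.continuous_sqrt.tendsto _).comp e1).const_mul Cs).add_const
      (6 * ‖η‖ * Cp / Real.sqrt M) |>.add
      ((tendsto_const_nhds (x := Cc)).div_atTop Real.tendsto_sqrt_atTop)
  have h2 : ∀ M > 0, o.mass x W R / 2 ≤ 6 * ‖η‖ * Cp / Real.sqrt M := by
    intro M hM
    refine ge_of_tendsto ?_
      ((eventually_nhdsWithin_of_forall fun θ hθ => h1 θ hθ M hM) :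
        ∀ᶠ θ in 𝓝[>] (0 : ℝ), _)
    have hc : Continuous fun θ : ℝ =>
        Cs * Real.sqrt (2 * θ / c) + 6 * ‖η‖ * Cp / Real.sqrt M := by fun_prop
    simpa using (hc.tendsto 0).mono_left nhdsWithin_le_nhds
  have h3 : o.mass x W R / 2 ≤ 0 :=
    ge_of_tendsto ((tendsto_const_nhds (x := 6 * ‖η‖ * Cp)).div_atTop Real.tendsto_sqrt_atTop)
      ((eventually_gt_atTop (0 : ℝ)).mono h2)
  linarith

variable {x} in
/-- The transform of the commutator vanishes. -/
theorem psi_comm_eq_zero (hx : x ∈ S.M) (hfix : D.KeyFix x)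
    (hiso : star x * x = 1) (hχ : pwave W.β 0 = 1) (q : ℝ × ℝ) : W.psi (o.comm x) q = 0 := by
  set J := (∫ u, ‖W.k u‖) ^ 2
  have hJ : 0 ≤ J := sq_nonneg _
  set r : ℝ := (1 + 2 * ‖o.a‖ * J)⁻¹ with hr
  have hr0 : 0 < r := by positivity
  have hnorm : 2 * ‖(o.rescale r).a‖ * J ≤ 1 := by
    change 2 * ‖(r : ℂ) • o.a‖ * J ≤ 1
    rw [norm_smul, Complex.norm_real, Real.norm_of_nonneg hr0.le, hr]
    rw [show 2 * ((1 + 2 * ‖o.a‖ * J)⁻¹ * ‖o.a‖) * J = 2 * ‖o.a‖ * J / (1 + 2 * ‖o.a‖ * J) by ring]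
    exact (div_le_one (by positivity)).2 (by linarith)
  set R := |q.1| + |q.2| + 1
  have hR : 0 ≤ R := by positivity
  have hm := (o.rescale r).mass_eq_zero W hx hfix hiso hχ hnorm hR
  have hc := W.continuous_psi ((o.rescale r).continuous_comm x) ((o.rescale r).norm_comm_le x)
  have hz := (setIntegral_eq_zero_iff_of_nonneg_ae (Eventually.of_forall fun _ => sq_nonneg _)
    ((hc.norm.pow 2).continuousOn.integrableOn_compact (isCompact_Icc.prod isCompact_Icc))).1 hm
  set U : Set (ℝ × ℝ) := Ioo (-R) R ×ˢ Ioo (-R) R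
  have hsub : U ⊆ box2 R := Set.prod_mono Ioo_subset_Icc_self Ioo_subset_Icc_self
  have hU : W.psi ((o.rescale r).comm x) =ᵐ[volume.restrict U] fun _ => (0 : H) :=
    (ae_restrict_of_ae_restrict_of_subset hsub hz).mono fun y hy => by
      simpa using hy
  have hq : q ∈ U := by
    have h1 := abs_nonneg q.1
    have h2 := abs_nonneg q.2
    exact ⟨⟨by linarith [neg_abs_le q.1], by linarith [le_abs_self q.1]⟩,
      by linarith [neg_abs_le q.2], by linarith [le_abs_self q.2]⟩
  have h0 := Measure.eqOn_open_of_ae_eq hU (isOpen_Ioo.prod isOpen_Ioo) hc.continuousOn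
    continuousOn_const hq
  rw [psi_comm_rescale] at h0
  exact (smul_eq_zero.1 h0).resolve_left (by exact_mod_cast hr0.ne')

end Orbit

end P132.Core
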