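import Mathlib

/-!
# P132 core: operators on vector valued `L²`

Multiplication by a strongly continuous bounded operator field, translations, smearing of a strongly
continuous bounded operator family, tensors.
-/

noncomputable section

set_option linter.unusedSectionVars false

namespace P132.Core

open MeasureTheory Filter Topology Complex
open scoped InnerProductSpace

variable {H : Type*} [NormedAddCommGroup H] [InnerProductSpace ℂ H] [CompleteSpace H]
variable {α : Type*} [TopologicalSpace α] [MeasurableSpace α] [OpensMeasurableSpace α]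
  [SecondCountableTopology α] [TopologicalSpace.PseudoMetrizableSpace α]

/-- A bounded, strongly continuous operator field. -/
structure OpField (α : Type*) [TopologicalSpace α] (H : Type*) [NormedAddCommGroup H]
    [InnerProductSpace ℂ H] where
  toFun : α → H →L[ℂ] H
  bound : ℝ
  norm_le : ∀ x, ‖toFun x‖ ≤ bound
  cont : ∀ v, Continuous fun x => toFun x v

namespace OpField

variable {H' : Type*} [NormedAddCommGroup H'] [InnerProductSpace ℂ H']

instance : CoeFun (OpField α H') fun _ => α → H' →L[ℂ] H' := ⟨OpField.toFun⟩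

theorem apply_norm_le (a : OpField α H') (x : α) (v : H') : ‖a x v‖ ≤ a.bound * ‖v‖ :=
  (a x).le_of_opNorm_le (a.norm_le x) v

theorem continuous_uncurry (a : OpField α H') : Continuous fun p : α × H' => a p.1 p.2 := by
  refine continuous_iff_continuousAt.2 fun ⟨x, v⟩ => ?_
  rw [ContinuousAt, tendsto_iff_norm_sub_tendsto_zero]
  have h1 : Tendsto (fun p : α × H' => a.bound * ‖p.2 - v‖ + ‖a p.1 v - a x v‖) (𝓝 (x, v))
      (𝓝 (a.bound * ‖v - v‖ + ‖a x v - a x v‖)) :=
    (Continuous.add (continuous_const.mul (continuous_snd.sub continuous_const).norm)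
      (((a.cont v).comp continuous_fst).sub continuous_const).norm).tendsto (x, v)
  simp only [sub_self, norm_zero, mul_zero, add_zero] at h1
  refine squeeze_zero (fun p => norm_nonneg _) (fun p => ?_) h1
  calc ‖a p.1 p.2 - a x v‖ = ‖a p.1 (p.2 - v) + (a p.1 v - a x v)‖ := by
        rw [map_sub]; congr 1; abel
    _ ≤ _ := (norm_add_le _ _).trans (add_le_add (a.apply_norm_le _ _) le_rfl)

variable {μ : Measure α}

theorem memLp_apply (a : OpField α H) (f : Lp H 2 μ) : MemLp (fun x => a x (f x)) 2 μ :=
  (Lp.memLp f).of_le_mul (c := a.bound)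
    (a.continuous_uncurry.comp_aestronglyMeasurable
      (aestronglyMeasurable_id.prodMk (Lp.aestronglyMeasurable f)))
    (Eventually.of_forall fun x => a.apply_norm_le x _)

/-- Pointwise multiplication. -/
def mulOp (a : OpField α H)
    (μ : Measure α) : Lp H 2 μ →L[ℂ] Lp H 2 μ :=
  LinearMap.mkContinuous
    { toFun := fun f => (a.memLp_apply f).toLp _
      map_add' := fun f g => by
        apply Lp.ext
        filter_upwards [(a.memLp_apply (f + g)).coeFn_toLp, (a.memLp_apply f).coeFn_toLp,
          (a.memLp_apply g).coeFn_toLp, Lp.coeFn_add f g,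
          Lp.coeFn_add ((a.memLp_apply f).toLp _) ((a.memLp_apply g).toLp _)] with x h1 h2 h3 h4 h5
        rw [h1, h5, Pi.add_apply, h2, h3, h4, Pi.add_apply, map_add]
      map_smul' := fun c f => by
        apply Lp.ext
        filter_upwards [(a.memLp_apply (c • f)).coeFn_toLp, (a.memLp_apply f).coeFn_toLp,
          Lp.coeFn_smul c f, Lp.coeFn_smul c ((a.memLp_apply f).toLp _)] with x h1 h2 h3 h4
        simp only [RingHom.id_apply]
        rw [h1, h4, Pi.smul_apply, h2, h3, Pi.smul_apply, map_smul] }
    a.bound fun f => by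
      refine Lp.norm_le_mul_norm_of_ae_le_mul ?_
      filter_upwards [(a.memLp_apply f).coeFn_toLp] with x h
      rw [LinearMap.coe_mk, AddHom.coe_mk, h]
      exact a.apply_norm_le x _

theorem coeFn_mulOp (a : OpField α H) (f : Lp H 2 μ) :
    (a.mulOp μ f : α → H) =ᵐ[μ] fun x => a x (f x) :=
  (a.memLp_apply f).coeFn_toLp

theorem norm_mulOp_le (a : OpField α H) (h : 0 ≤ a.bound) : ‖a.mulOp μ‖ ≤ a.bound :=
  LinearMap.mkContinuous_norm_le _ h _

theorem mulOp_commute (a b : OpField α H) (h : ∀ x v, a x (b x v) = b x (a x v)) :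
    (a.mulOp μ) * (b.mulOp μ) = (b.mulOp μ) * (a.mulOp μ) := by
  ext1 f
  apply Lp.ext
  simp only [ContinuousLinearMap.mul_def, ContinuousLinearMap.comp_apply]
  filter_upwards [a.coeFn_mulOp (b.mulOp μ f), b.coeFn_mulOp f, b.coeFn_mulOp (a.mulOp μ f),
    a.coeFn_mulOp f] with x h1 h2 h3 h4
  rw [h1, h2, h3, h4, h]

end OpField

section Tensor

/-- `φ ⊗ w`. -/
def ten {μ : Measure α} (w : H) (φ : Lp ℂ 2 μ) : Lp H 2 μ :=
  (ContinuousLinearMap.toSpanSingleton ℂ w).compLp φ

theorem coeFn_ten {μ : Measure α} (w : H) (φ : Lp ℂ 2 μ) :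
    (ten w φ : α → H) =ᵐ[μ] fun x => φ x • w := by
  filter_upwards [ContinuousLinearMap.coeFn_compLp (ContinuousLinearMap.toSpanSingleton ℂ w) φ]
    with x h
  rw [ten, h, ContinuousLinearMap.toSpanSingleton_apply]

theorem inner_ten {μ : Measure α} (v w : H) (φ ψ : Lp ℂ 2 μ) :
    ⟪ten v φ, ten w ψ⟫_ℂ = ⟪v, w⟫_ℂ * ⟪φ, ψ⟫_ℂ := by
  rw [L2.inner_def, L2.inner_def, ← integral_const_mul]
  refine integral_congr_ae ?_
  filter_upwards [coeFn_ten v φ, coeFn_ten w ψ] with x h1 h2
  rw [h1, h2, inner_smul_left, inner_smul_right, RCLike.inner_apply]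
  ring

theorem norm_ten {μ : Measure α} (v : H) (φ : Lp ℂ 2 μ) : ‖ten v φ‖ = ‖v‖ * ‖φ‖ := by
  have h := inner_ten v v φ φ
  rw [inner_self_eq_norm_sq_to_K, inner_self_eq_norm_sq_to_K, inner_self_eq_norm_sq_to_K] at h
  have h2 : ‖ten v φ‖ ^ 2 = (‖v‖ * ‖φ‖) ^ 2 := by
    rw [mul_pow]; exact_mod_cast h
  exact (pow_left_inj₀ (norm_nonneg _) (by positivity) two_ne_zero).1 h2

end Tensor

section Translation

variable {G : Type*} [AddGroup G] [TopologicalSpace G] [MeasurableSpace G] [BorelSpace G]
  [IsTopologicalAddGroup G] [SecondCountableTopology G] [TopologicalSpace.PseudoMetrizableSpace G]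
  [MeasurableAdd G] {μ : Measure G} [μ.IsAddRightInvariant]

/-- Translation by `v`. -/
def tr (μ : Measure G) [μ.IsAddRightInvariant] (v : G) : Lp H 2 μ →ₗᵢ[ℂ] Lp H 2 μ :=
  Lp.compMeasurePreservingₗᵢ ℂ (fun x => x - v) (measurePreserving_sub_right μ v)

theorem coeFn_tr (v : G) (f : Lp H 2 μ) : (tr μ v f : G → H) =ᵐ[μ] fun x => f (x - v) :=
  Lp.coeFn_compMeasurePreserving f (measurePreserving_sub_right μ v)

theorem tr_zero (f : Lp H 2 μ) : tr μ 0 f = f := by
  apply Lp.ext
  filter_upwards [coeFn_tr (0 : G) f] with x h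
  rw [h, sub_zero]

theorem tr_ten (v : G) (w : H) (φ : Lp ℂ 2 μ) : tr μ v (ten w φ) = ten w (tr μ v φ) := by
  apply Lp.ext
  filter_upwards [coeFn_tr v (ten w φ), coeFn_ten w (tr μ v φ), coeFn_tr v φ,
    (measurePreserving_sub_right μ v).quasiMeasurePreserving.ae_eq_comp (coeFn_ten w φ)]
    with x h1 h2 h3 h4
  simp only [Function.comp] at h4
  rw [h1, h2, h3, h4]

end Translation

section Translation2

variable {G : Type*} [AddCommGroup G] [TopologicalSpace G] [MeasurableSpace G] [BorelSpace G]
  [IsTopologicalAddGroup G] [SecondCountableTopology G] [TopologicalSpace.PseudoMetrizableSpace G]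
  [MeasurableAdd G] {μ : Measure G} [μ.IsAddRightInvariant]

theorem tr_add (v w : G) (f : Lp H 2 μ) : tr μ (v + w) f = tr μ v (tr μ w f) := by
  apply Lp.ext
  filter_upwards [coeFn_tr (v + w) f, coeFn_tr v (tr μ w f),
    (measurePreserving_sub_right μ v).quasiMeasurePreserving.ae_eq_comp (coeFn_tr w f)]
    with x h1 h2 h3
  simp only [Function.comp] at h3
  rw [h1, h2, h3]
  congr 1
  abel

/-- The translated field. -/
def OpField.shift (a : OpField G H) (v : G) : OpField G H where
  toFun x := a (x - v)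
  bound := a.bound
  norm_le _ := a.norm_le _
  cont w := (a.cont w).comp (continuous_id.sub continuous_const)

theorem tr_mulOp (a : OpField G H) (v : G) (f : Lp H 2 μ) :
    tr μ v (a.mulOp μ f) = (a.shift v).mulOp μ (tr μ v f) := by
  apply Lp.ext
  filter_upwards [coeFn_tr v (a.mulOp μ f), (a.shift v).coeFn_mulOp (tr μ v f), coeFn_tr v f,
    (measurePreserving_sub_right μ v).quasiMeasurePreserving.ae_eq_comp (a.coeFn_mulOp f)]
    with x h1 h2 h3 h4
  simp only [Function.comp] at h4
  rw [h1, h2, h4, h3]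
  rfl

theorem continuous_tr [R1Space G] [WeaklyLocallyCompactSpace G] [μ.InnerRegularCompactLTTop]
    [IsLocallyFiniteMeasure μ] (f : Lp H 2 μ) : Continuous fun v => tr μ v f := by
  have h : Continuous fun v : G => (⟨fun x => x - v, by fun_prop⟩ : C(G, G)) :=
    ContinuousMap.continuous_of_continuous_uncurry _ (continuous_snd.sub continuous_fst)
  exact (Lp.compMeasurePreserving_continuous μ μ H (p := 2) ENNReal.ofNat_ne_top).comp
    (continuous_const.prodMk (h.subtype_mk fun v => measurePreserving_sub_right μ v))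

end Translation2

section Smear

variable {E : Type*} [NormedAddCommGroup E] [InnerProductSpace ℂ E] [CompleteSpace E]

theorem integrable_smear {k : ℝ → ℂ} (hk : Integrable k) (T : OpField ℝ E) (x : E) :
    Integrable fun u => k u • T u x :=
  (hk.norm.mul_const (T.bound * ‖x‖)).mono'
    (hk.aestronglyMeasurable.smul (T.cont x).aestronglyMeasurable)
    (Eventually.of_forall fun u => by
      rw [norm_smul]; exact mul_le_mul_of_nonneg_left (T.apply_norm_le u x) (norm_nonneg _))

/-- `∫ k u • T u`, pointwise. -/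
def smear (k : ℝ → ℂ) (hk : Integrable k) (T : OpField ℝ E) : E →L[ℂ] E :=
  LinearMap.mkContinuous
    { toFun := fun x => ∫ u, k u • T u x
      map_add' := fun x y => by
        simp only [map_add, smul_add]
        exact integral_add (integrable_smear hk T x) (integrable_smear hk T y)
      map_smul' := fun c x => by
        simp only [map_smul, RingHom.id_apply, smul_comm (N := ℂ) (_ : ℂ) c]
        exact integral_smul c _ }
    ((∫ u, ‖k u‖) * T.bound) fun x => by
      rw [LinearMap.coe_mk, AddHom.coe_mk]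
      refine (norm_integral_le_of_norm_le (hk.norm.mul_const (T.bound * ‖x‖))
        (Eventually.of_forall fun u => ?_)).trans (le_of_eq ?_)
      · rw [norm_smul]; exact mul_le_mul_of_nonneg_left (T.apply_norm_le u x) (norm_nonneg _)
      · rw [integral_mul_const, mul_assoc]

theorem smear_apply (k : ℝ → ℂ) (hk : Integrable k) (T : OpField ℝ E) (x : E) :
    smear k hk T x = ∫ u, k u • T u x := rfl

theorem smear_commute (k : ℝ → ℂ) (hk : Integrable k) (T : OpField ℝ E) (A : E →L[ℂ] E)
    (h : ∀ u x, A (T u x) = T u (A x)) (x : E) : A (smear k hk T x) = smear k hk T (A x) := by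
  rw [smear_apply, smear_apply, ← A.integral_comp_comm (integrable_smear hk T x)]
  simp only [map_smul, h]

end Smear

end P132.Core
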