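import Vale.Agent.P132.Setup
import Vale.Agent.P132.Core.Ops
import Vale.Agent.P132.Core.Boxes

/-!
# P132 core: the model `L²(ℝ; H)`, `π(a)`, boxes, compression
-/

noncomputable section

set_option linter.unusedSectionVars false

namespace P132.Core

open MeasureTheory Filter Topology Complex
open scoped InnerProductSpace

variable {H : Type*} [NormedAddCommGroup H] [InnerProductSpace ℂ H] [CompleteSpace H]

/-- `L²(ℝ; H)`. -/
abbrev K1 (H : Type*) [NormedAddCommGroup H] [InnerProductSpace ℂ H] :=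
  Lp (α := ℝ) H 2 volume

/-- A constant field. -/
def constField {α : Type*} [TopologicalSpace α] (m : H →L[ℂ] H) : OpField α H where
  toFun _ := m
  bound := ‖m‖
  norm_le _ := le_rfl
  cont _ := continuous_const

/-- `1 ⊗ m`. -/
def lift (m : H →L[ℂ] H) : K1 H →L[ℂ] K1 H := (constField m).mulOp volume

theorem coeFn_lift (m : H →L[ℂ] H) (F : K1 H) :
    (lift m F : ℝ → H) =ᵐ[volume] fun τ => m (F τ) := (constField m).coeFn_mulOp F

theorem lift_mul (a b : H →L[ℂ] H) (F : K1 H) : lift (a * b) F = lift a (lift b F) := by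
  apply Lp.ext
  filter_upwards [coeFn_lift (a * b) F, coeFn_lift a (lift b F), coeFn_lift b F] with x h1 h2 h3
  rw [h1, h2, h3]; rfl

theorem lift_one (F : K1 H) : lift 1 F = F := by
  apply Lp.ext
  filter_upwards [coeFn_lift 1 F] with x h1
  rw [h1]; rfl

theorem inner_lift (m : H →L[ℂ] H) (F G : K1 H) :
    ⟪lift m F, G⟫_ℂ = ⟪F, lift (star m) G⟫_ℂ := by
  rw [L2.inner_def, L2.inner_def]
  refine integral_congr_ae ?_
  filter_upwards [coeFn_lift m F, coeFn_lift (star m) G] with x h1 h2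
  rw [h1, h2, ContinuousLinearMap.star_eq_adjoint, ContinuousLinearMap.adjoint_inner_right]

/-- `w ↦ φ ⊗ w`. -/
def tenL (φ : L2) : H →L[ℂ] K1 H :=
  LinearMap.mkContinuous
    { toFun := fun w => ten w φ
      map_add' := fun v w => by
        apply Lp.ext
        filter_upwards [coeFn_ten (v + w) φ, coeFn_ten v φ, coeFn_ten w φ,
          Lp.coeFn_add (ten v φ) (ten w φ)] with x h1 h2 h3 h4
        rw [h1, h4, Pi.add_apply, h2, h3, smul_add]
      map_smul' := fun c w => by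
        apply Lp.ext
        filter_upwards [coeFn_ten (c • w) φ, coeFn_ten w φ, Lp.coeFn_smul c (ten w φ)]
          with x h1 h2 h3
        rw [RingHom.id_apply, h1, h3, Pi.smul_apply, h2, smul_comm] }
    ‖φ‖ fun w => by rw [LinearMap.coe_mk, AddHom.coe_mk, norm_ten, mul_comm]

theorem tenL_apply (φ : L2) (w : H) : tenL φ w = ten w φ := rfl

theorem tenL_smul (c : ℂ) (φ : L2) (w : H) : tenL (c • φ) w = c • tenL φ w := by
  rw [tenL_apply, tenL_apply, ten, ten]
  apply Lp.ext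
  filter_upwards [coeFn_ten w (c • φ), coeFn_ten w φ, Lp.coeFn_smul c φ,
    Lp.coeFn_smul c (ten w φ)] with x h1 h2 h3 h4
  change (ten w (c • φ) : ℝ → H) x = (c • ten w φ : K1 H) x
  rw [h1, h4, Pi.smul_apply, h2, h3, Pi.smul_apply, smul_eq_mul, mul_smul]

theorem tenL_sub (φ ψ : L2) (w : H) : tenL (φ - ψ) w = tenL φ w - tenL ψ w := by
  apply Lp.ext
  filter_upwards [coeFn_ten w (φ - ψ), coeFn_ten w φ, coeFn_ten w ψ, Lp.coeFn_sub φ ψ,
    Lp.coeFn_sub (ten w φ) (ten w ψ)] with x h1 h2 h3 h4 h5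
  change (ten w (φ - ψ) : ℝ → H) x = (ten w φ - ten w ψ : K1 H) x
  rw [h1, h5, Pi.sub_apply, h2, h3, h4, Pi.sub_apply, sub_smul]

theorem lift_tenL (m : H →L[ℂ] H) (φ : L2) (w : H) : lift m (tenL φ w) = tenL φ (m w) := by
  apply Lp.ext
  filter_upwards [coeFn_lift m (ten w φ), coeFn_ten w φ, coeFn_ten (m w) φ] with x h1 h2 h3
  change (lift m (ten w φ) : ℝ → H) x = (ten (m w) φ : K1 H) x
  rw [h1, h2, h3, map_smul]

/-- The entry `⟨φ| c |ψ⟩ : H → H`. -/
def entry (c : K1 H →L[ℂ] K1 H) (φ ψ : L2) : H →L[ℂ] H :=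
  ((tenL φ).adjoint.comp c).comp (tenL ψ)

theorem inner_entry (c : K1 H →L[ℂ] K1 H) (φ ψ : L2) (v w : H) :
    ⟪v, entry c φ ψ w⟫_ℂ = ⟪ten v φ, c (ten w ψ)⟫_ℂ := by
  rw [entry, ContinuousLinearMap.comp_apply, ContinuousLinearMap.comp_apply,
    ContinuousLinearMap.adjoint_inner_right, tenL_apply, tenL_apply]

/-- An orthogonal family carries `Σ φ_k ⊗ ξ_k` with square norm `Σ ‖φ_k‖² ‖ξ_k‖²`. -/
theorem norm_sq_sum_ten {n : ℕ} (φ : Fin n → L2) (h : ∀ j k, j ≠ k → ⟪φ j, φ k⟫_ℂ = 0)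
    (ξ : Fin n → H) :
    ‖∑ k, tenL (φ k) (ξ k)‖ ^ 2 = ∑ k, ‖φ k‖ ^ 2 * ‖ξ k‖ ^ 2 := by
  have e : ⟪∑ k, tenL (φ k) (ξ k), ∑ k, tenL (φ k) (ξ k)⟫_ℂ
      = ((∑ k, ‖φ k‖ ^ 2 * ‖ξ k‖ ^ 2 : ℝ) : ℂ) := by
    rw [sum_inner, Complex.ofReal_sum]
    refine Finset.sum_congr rfl fun j _ => ?_
    rw [inner_sum, Finset.sum_eq_single j]
    · rw [tenL_apply, inner_ten, inner_self_eq_norm_sq_to_K, inner_self_eq_norm_sq_to_K]
      push_cast; exact mul_comm _ _
    · intro k _ hk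
      rw [tenL_apply, tenL_apply, inner_ten, h j k (Ne.symm hk), mul_zero]
    · simp
  rw [inner_self_eq_norm_sq_to_K] at e
  exact Complex.ofReal_injective ((Complex.ofReal_pow _ 2).trans e)

theorem norm_sum_ten_le {n : ℕ} (φ : Fin n → L2) (h : ∀ j k, j ≠ k → ⟪φ j, φ k⟫_ℂ = 0)
    {C : ℝ} (hC : 0 ≤ C) (hφ : ∀ k, ‖φ k‖ ≤ C) (ξ : Fin n → H) :
    ‖∑ k, tenL (φ k) (ξ k)‖ ≤ C * Real.sqrt (∑ k, ‖ξ k‖ ^ 2) := by
  rw [← pow_le_pow_iff_left₀ (norm_nonneg _) (by positivity) two_ne_zero, norm_sq_sum_ten φ h,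
    mul_pow, Real.sq_sqrt (by positivity), Finset.mul_sum]
  gcongr with k
  exact hφ k

/-- Bessel: the adjoint of an orthonormal family of `tenL`. -/
theorem sum_norm_adjoint_sq_le {n : ℕ} (φ : Fin n → L2) (h : Orthonormal ℂ φ) (F : K1 H) :
    ∑ k, ‖(tenL (φ k)).adjoint F‖ ^ 2 ≤ ‖F‖ ^ 2 := by
  set z : Fin n → H := fun k => (tenL (φ k)).adjoint F
  have h1 : ⟪∑ k, tenL (φ k) (z k), F⟫_ℂ = ((∑ k, ‖z k‖ ^ 2 : ℝ) : ℂ) := by
    rw [sum_inner, Complex.ofReal_sum]
    refine Finset.sum_congr rfl fun k _ => ?_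
    rw [← ContinuousLinearMap.adjoint_inner_right, inner_self_eq_norm_sq_to_K]
    push_cast; rfl
  have h2 := norm_sum_ten_le φ (fun j k => h.inner_eq_zero) zero_le_one
    (fun k => (h.norm_eq_one k).le) z
  have h3 := norm_inner_le_norm (𝕜 := ℂ) (∑ k, tenL (φ k) (z k)) F
  rw [h1, Complex.norm_real, Real.norm_eq_abs, abs_of_nonneg (by positivity)] at h3
  rw [one_mul] at h2
  have h4 : (∑ k, ‖z k‖ ^ 2) ≤ Real.sqrt (∑ k, ‖z k‖ ^ 2) * ‖F‖ :=
    h3.trans (mul_le_mul_of_nonneg_right h2 (norm_nonneg _))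
  have h5 := Real.sq_sqrt (show 0 ≤ ∑ k, ‖z k‖ ^ 2 by positivity)
  nlinarith [Real.sqrt_nonneg (∑ k, ‖z k‖ ^ 2), norm_nonneg F, sq_nonneg (Real.sqrt (∑ k, ‖z k‖ ^ 2) - ‖F‖)]

/-- The orthogonal projection onto `Σ φ_k ⊗ H` is the best approximation. -/
theorem norm_sub_proj_le {n : ℕ} (φ : Fin n → L2) (h : Orthonormal ℂ φ) (F : K1 H)
    (ξ : Fin n → H) :
    ‖F - ∑ k, tenL (φ k) ((tenL (φ k)).adjoint F)‖ ≤ ‖F - ∑ k, tenL (φ k) (ξ k)‖ := by
  set R := F - ∑ k, tenL (φ k) ((tenL (φ k)).adjoint F)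
  have horth : ∀ j w, ⟪tenL (φ j) w, R⟫_ℂ = 0 := by
    intro j w
    rw [inner_sub_right, inner_sum, Finset.sum_eq_single j, sub_eq_zero]
    · rw [tenL_apply (φ j) ((tenL (φ j)).adjoint F), tenL_apply, inner_ten,
        inner_self_eq_norm_sq_to_K, h.norm_eq_one, ← tenL_apply,
        ← ContinuousLinearMap.adjoint_inner_right]
      simp
    · intro k _ hk
      rw [tenL_apply, tenL_apply, inner_ten, h.inner_eq_zero (Ne.symm hk), mul_zero]
    · simp
  have e : F - ∑ k, tenL (φ k) (ξ k)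
      = R + ∑ k, tenL (φ k) ((tenL (φ k)).adjoint F - ξ k) := by
    simp only [R, map_sub, Finset.sum_sub_distrib]; abel
  have hz : ⟪R, ∑ k, tenL (φ k) ((tenL (φ k)).adjoint F - ξ k)⟫_ℂ = 0 := by
    rw [inner_sum]
    exact Finset.sum_eq_zero fun k _ => inner_eq_zero_symm.1 (horth k _)
  rw [e]
  have := norm_add_sq_eq_norm_sq_add_norm_sq_of_inner_eq_zero _ _ hz
  nlinarith [norm_nonneg R, norm_nonneg (R + ∑ k, tenL (φ k) ((tenL (φ k)).adjoint F - ξ k)),
    mul_self_nonneg ‖∑ k, tenL (φ k) ((tenL (φ k)).adjoint F - ξ k)‖]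

section WithModular

variable {S : Std H} (D : Modular S)

theorem norm_U (t : ℝ) (v : H) : ‖D.U t v‖ = ‖v‖ := by
  have h : ⟪D.U t v, D.U t v⟫_ℂ = ⟪v, (star (D.U t) * D.U t) v⟫_ℂ := by
    rw [ContinuousLinearMap.star_eq_adjoint]
    exact (ContinuousLinearMap.adjoint_inner_right (D.U t) v (D.U t v)).symm
  have h2 : (D.U 0) v = v := by rw [D.U_zero]; rfl
  rw [D.U_star, ← D.U_add, neg_add_cancel, h2, inner_self_eq_norm_sq_to_K,
    inner_self_eq_norm_sq_to_K] at h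
  exact (pow_left_inj₀ (norm_nonneg _) (norm_nonneg _) two_ne_zero).1 (by exact_mod_cast h)

/-- `τ ↦ σ_τ a`. -/
def piField (a : H →L[ℂ] H) : OpField ℝ H where
  toFun τ := D.σ τ a
  bound := ‖a‖
  norm_le τ := by
    refine ContinuousLinearMap.opNorm_le_bound _ (norm_nonneg _) fun v => ?_
    simp only [Modular.σ, ContinuousLinearMap.mul_def, ContinuousLinearMap.comp_apply]
    calc ‖D.U τ (a (D.U (-τ) v))‖ = ‖a (D.U (-τ) v)‖ := norm_U D _ _
      _ ≤ ‖a‖ * ‖D.U (-τ) v‖ := a.le_opNorm _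
      _ = ‖a‖ * ‖v‖ := by rw [norm_U D]
  cont v := by
    have h1 : ∀ t, ‖D.U t‖ ≤ 1 := fun t =>
      ContinuousLinearMap.opNorm_le_bound _ zero_le_one fun w => by rw [norm_U D, one_mul]
    have hU : Continuous fun p : ℝ × H => D.U p.1 p.2 :=
      OpField.continuous_uncurry ⟨D.U, 1, h1, D.U_cont⟩
    exact hU.comp (continuous_id.prodMk (a.continuous.comp ((D.U_cont v).comp continuous_neg)))

/-- `π(a)`: multiplication by `σ_τ a`. -/
def piA (a : H →L[ℂ] H) : K1 H →L[ℂ] K1 H := (piField D a).mulOp volume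

theorem coeFn_piA (a : H →L[ℂ] H) (F : K1 H) :
    (piA D a F : ℝ → H) =ᵐ[volume] fun τ => D.σ τ a (F τ) := (piField D a).coeFn_mulOp F

theorem norm_piA_le (a : H →L[ℂ] H) : ‖piA D a‖ ≤ ‖a‖ :=
  (piField D a).norm_mulOp_le (norm_nonneg _)

theorem U_U (s t : ℝ) (v : H) : D.U s (D.U t v) = D.U (s + t) v := by rw [D.U_add]; rfl

theorem U_neg (t : ℝ) (v : H) : D.U t (D.U (-t) v) = v := by
  rw [U_U, add_neg_cancel, D.U_zero]; rfl

/-- `(T_t F)(τ) = U_t F(τ - t)`. -/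
def Tt (t : ℝ) : K1 H →L[ℂ] K1 H :=
  (lift (D.U t)).comp (tr (volume : Measure ℝ) t).toContinuousLinearMap

theorem Tt_tenL (t : ℝ) (φ : L2) (w : H) : Tt D t (tenL φ w) = tenL (trans t φ) (D.U t w) := by
  simp only [Tt, ContinuousLinearMap.comp_apply, LinearIsometry.coe_toContinuousLinearMap,
    tenL_apply, tr_ten]
  exact lift_tenL _ _ _

/-- The translation invariance which makes compressions almost invariant. -/
def Invariant (c : K1 H →L[ℂ] K1 H) : Prop := ∀ t F, Tt D t (c F) = c (Tt D t F)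

/-- Commuting with `1 ⊗ m`, `m ∈ M'`. -/
def InAlg (c : K1 H →L[ℂ] K1 H) : Prop :=
  ∀ m ∈ S.M.commutant, ∀ F, lift m (c F) = c (lift m F)

theorem piA_invariant (a : H →L[ℂ] H) : Invariant D (piA D a) := by
  intro t F
  simp only [Tt, ContinuousLinearMap.comp_apply, LinearIsometry.coe_toContinuousLinearMap]
  rw [piA, tr_mulOp]
  apply Lp.ext
  filter_upwards [coeFn_lift (D.U t) (((piField D a).shift t).mulOp volume (tr volume t F)),
    ((piField D a).shift t).coeFn_mulOp (tr volume t F),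
    (piField D a).coeFn_mulOp (lift (D.U t) (tr volume t F)),
    coeFn_lift (D.U t) (tr volume t F)] with τ h1 h2 h3 h4
  rw [h1, h2, h3, h4]
  change D.U t (D.σ (τ - t) a _) = D.σ τ a (D.U t _)
  simp only [Modular.σ, ContinuousLinearMap.mul_def, ContinuousLinearMap.comp_apply, U_U]
  congr 2
  · ring
  · rw [neg_sub]; congr 1; congr 1; ring

theorem piA_inAlg {a : H →L[ℂ] H} (ha : a ∈ S.M) : InAlg (S := S) (piA D a) := by
  intro m hm F
  apply Lp.ext
  filter_upwards [coeFn_lift m (piA D a F), coeFn_piA D a F, coeFn_piA D a (lift m F),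
    coeFn_lift m F] with τ h1 h2 h3 h4
  rw [h1, h2, h3, h4]
  have := VonNeumannAlgebra.mem_commutant_iff.1 hm (D.σ τ a) (D.σ_mem τ a ha)
  exact (congrArg (fun T : H →L[ℂ] H => T (F τ)) this).symm

theorem entry_mem {c : K1 H →L[ℂ] K1 H} (hc : InAlg (S := S) c) (φ ψ : L2) :
    entry c φ ψ ∈ S.M := by
  rw [← VonNeumannAlgebra.commutant_commutant S.M, VonNeumannAlgebra.mem_commutant_iff]
  intro m hm
  ext1 w
  refine ext_inner_left ℂ fun v => ?_
  simp only [ContinuousLinearMap.mul_def, ContinuousLinearMap.comp_apply]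
  rw [← ContinuousLinearMap.adjoint_inner_left, inner_entry, inner_entry, ← tenL_apply,
    ← tenL_apply, ← lift_tenL, ← tenL_apply, ← tenL_apply, ← lift_tenL, ← hc m hm, inner_lift,
    ← ContinuousLinearMap.star_eq_adjoint, star_star]

theorem entry_piA_mem_B (hb : BFacts D) {a : H →L[ℂ] H} (ha : a ∈ S.B) (φ ψ : L2) :
    entry (piA D a) φ ψ ∈ S.B := by
  have haM : a ∈ S.M := hb.subset ha
  refine ⟨entry_mem (piA_inAlg D haM) φ ψ, fun w hw v => ?_⟩
  obtain ⟨C0, hC0⟩ := hw.2.1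
  set C := max C0 0 with hC
  have hwC : ∀ n, ‖w n‖ ≤ C := fun n => (hC0 n).trans (le_max_left _ _)
  set h : ℝ → ℂ := fun τ => (starRingEnd ℂ) ((φ : ℝ → ℂ) τ) * (ψ : ℝ → ℂ) τ with hh
  have hint : Integrable h := by
    refine ((L2.integrable_inner (𝕜 := ℂ) φ ψ)).congr (Eventually.of_forall fun τ => ?_)
    simp [hh, RCLike.inner_apply, mul_comm]
  have hI : ∀ x, Integrable fun τ => h τ • D.σ τ a x := fun x => integrable_smear hint (piField D a) x
  have he : ∀ x, entry (piA D a) φ ψ x = ∫ τ, h τ • D.σ τ a x := by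
    intro x
    refine ext_inner_left ℂ fun y => ?_
    rw [inner_entry, L2.inner_def, ← integral_inner (hI x)]
    refine integral_congr_ae ?_
    filter_upwards [coeFn_ten y φ, coeFn_piA D a (ten x ψ), coeFn_ten x ψ] with τ h1 h2 h3
    rw [h1, h2, h3, map_smul, inner_smul_left, inner_smul_right, inner_smul_right, hh]
    ring
  have hwi : ∀ n, Integrable fun τ => h τ • w n (D.σ τ a v) := fun n =>
    ((w n).integrable_comp (hI v)).congr (Eventually.of_forall fun τ => map_smul _ _ _)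
  have hexp : ∀ n, (entry (piA D a) φ ψ * w n - w n * entry (piA D a) φ ψ) v
      = ∫ τ, h τ • (D.σ τ a * w n - w n * D.σ τ a) v := by
    intro n
    simp only [sub_apply, ContinuousLinearMap.mul_def,
      ContinuousLinearMap.comp_apply, he]
    rw [← (w n).integral_comp_comm (hI v)]
    simp only [map_smul]
    rw [← integral_sub (hI (w n v)) (hwi n)]
    simp only [smul_sub]
  simp only [hexp]
  have hlim := tendsto_integral_of_dominated_convergence (μ := (volume : Measure ℝ))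
    (F := fun n τ => h τ • (D.σ τ a * w n - w n * D.σ τ a) v) (f := fun _ => (0 : H))
    (fun τ => ‖h τ‖ * (2 * ‖a‖ * C * ‖v‖)) (fun n => ?_) (hint.norm.mul_const _)
    (fun n => Eventually.of_forall fun τ => ?_) (Eventually.of_forall fun τ => ?_)
  · simpa using hlim
  · simp only [sub_apply, ContinuousLinearMap.mul_def, ContinuousLinearMap.comp_apply,
      smul_sub]
    exact (hI (w n v)).aestronglyMeasurable.sub (hwi n).aestronglyMeasurable
  · rw [norm_smul]
    refine mul_le_mul_of_nonneg_left ?_ (norm_nonneg _)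
    have hn := (piField D a).norm_le τ
    calc ‖(D.σ τ a * w n - w n * D.σ τ a) v‖
        ≤ ‖D.σ τ a (w n v)‖ + ‖w n (D.σ τ a v)‖ := norm_sub_le _ _
      _ ≤ ‖a‖ * (C * ‖v‖) + C * (‖a‖ * ‖v‖) :=
        add_le_add
          (((D.σ τ a).le_of_opNorm_le hn _).trans
            (mul_le_mul_of_nonneg_left ((w n).le_of_opNorm_le (hwC n) v) (norm_nonneg _)))
          (((w n).le_of_opNorm_le (hwC n) _).trans
            (mul_le_mul_of_nonneg_left ((D.σ τ a).le_of_opNorm_le hn v) (le_max_right _ _)))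
      _ = _ := by ring
  · simpa using ((hb.σ_mem τ a ha).2 w hw v).const_smul (h τ)

/-- The spectral weights of the boxes: `exp (logW k) ∝ exp (-2π ν_k)`. -/
def logW (c0 δ : ℝ) {n : ℕ} (shift : ℝ) (k : Fin n) : ℝ := -(2 * Real.pi * node c0 δ k) + shift

/-- Compressed matrix. -/
def compress (c0 δ : ℝ) {n : ℕ} (c : K1 H →L[ℂ] K1 H) (k l : Fin n) : H →L[ℂ] H :=
  entry c (bx c0 δ k) (bx c0 δ l)

/-- Matrix bound for the entries between an orthonormal and an orthogonal family. -/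
theorem matBound_entry {n : ℕ} (φ ψ : Fin n → L2) (hφ : Orthonormal ℂ φ)
    (hψ : ∀ j k, j ≠ k → ⟪ψ j, ψ k⟫_ℂ = 0) {A : ℝ} (hA : 0 ≤ A) (hψn : ∀ k, ‖ψ k‖ ≤ A)
    (c : K1 H →L[ℂ] K1 H) : MatBound (fun k l => entry c (φ k) (ψ l)) (‖c‖ * A) := by
  intro v
  have e : ∀ k, ∑ l, entry c (φ k) (ψ l) (v l)
      = (tenL (φ k)).adjoint (c (∑ l, tenL (ψ l) (v l))) := by
    intro k; simp only [map_sum]; rfl
  simp only [e]
  refine (sum_norm_adjoint_sq_le φ hφ _).trans ?_
  have h1 := (c.le_opNorm (∑ l, tenL (ψ l) (v l))).trans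
    (mul_le_mul_of_nonneg_left (norm_sum_ten_le ψ hψ hA hψn v) (norm_nonneg _))
  refine (pow_le_pow_left₀ (norm_nonneg _) h1 2).trans (le_of_eq ?_)
  rw [mul_pow, mul_pow, Real.sq_sqrt (by positivity), mul_pow, mul_assoc]

theorem entry_star (c : K1 H →L[ℂ] K1 H) (φ ψ : L2) (v w : H) :
    ⟪entry c φ ψ v, w⟫_ℂ = ⟪v, entry (star c) ψ φ w⟫_ℂ := by
  rw [inner_entry, ← inner_conj_symm, inner_entry, ContinuousLinearMap.star_eq_adjoint,
    ContinuousLinearMap.adjoint_inner_right, inner_conj_symm]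

theorem matBound_entry' {n : ℕ} (φ ψ : Fin n → L2) (hψ : Orthonormal ℂ ψ)
    (hφ : ∀ j k, j ≠ k → ⟪φ j, φ k⟫_ℂ = 0) {A : ℝ} (hA : 0 ≤ A) (hφn : ∀ k, ‖φ k‖ ≤ A)
    (c : K1 H →L[ℂ] K1 H) : MatBound (fun k l => entry c (φ k) (ψ l)) (‖c‖ * A) := by
  intro v
  set y : Fin n → H := fun k => ∑ l, entry c (φ k) (ψ l) (v l) with hy
  set z : Fin n → H := fun l => ∑ k, entry (star c) (ψ l) (φ k) (y k) with hz
  have h1 : ((∑ k, ‖y k‖ ^ 2 : ℝ) : ℂ) = ∑ l, ⟪v l, z l⟫_ℂ := by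
    rw [Complex.ofReal_sum]
    calc ∑ k, ((‖y k‖ ^ 2 : ℝ) : ℂ) = ∑ k, ⟪y k, y k⟫_ℂ := by
          refine Finset.sum_congr rfl fun k _ => ?_
          rw [inner_self_eq_norm_sq_to_K]; push_cast; rfl
      _ = ∑ k, ∑ l, ⟪v l, entry (star c) (ψ l) (φ k) (y k)⟫_ℂ := by
          refine Finset.sum_congr rfl fun k _ => ?_
          conv_lhs => arg 2; rw [hy]
          rw [sum_inner]
          simp only [entry_star]
      _ = _ := by
          rw [Finset.sum_comm]; simp only [hz, inner_sum]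
  have h2 := matBound_entry ψ φ hψ hφ hA hφn (star c) y
  rw [ContinuousLinearMap.star_eq_adjoint, LinearIsometryEquiv.norm_map] at h2
  have h3 : (∑ k, ‖y k‖ ^ 2) ≤ Real.sqrt (∑ l, ‖v l‖ ^ 2) * Real.sqrt (∑ l, ‖z l‖ ^ 2) := by
    calc (∑ k, ‖y k‖ ^ 2) = ‖∑ l, ⟪v l, z l⟫_ℂ‖ := by
          rw [← h1, Complex.norm_real, Real.norm_eq_abs, abs_of_nonneg (by positivity)]
      _ ≤ ∑ l, ‖v l‖ * ‖z l‖ :=
          (norm_sum_le _ _).trans (Finset.sum_le_sum fun l _ => norm_inner_le_norm _ _)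
      _ ≤ _ := Real.sum_mul_le_sqrt_mul_sqrt _ _ _
  set Y := ∑ k, ‖y k‖ ^ 2
  set V := ∑ l, ‖v l‖ ^ 2
  have hY : 0 ≤ Y := by positivity
  have hV : 0 ≤ V := by positivity
  have h4 : Real.sqrt (∑ l, ‖z l‖ ^ 2) ≤ ‖c‖ * A * Real.sqrt Y := by
    refine (Real.sqrt_le_sqrt h2).trans (le_of_eq ?_)
    rw [Real.sqrt_mul (sq_nonneg _), Real.sqrt_sq (by positivity)]
  have h5 : Y ≤ ‖c‖ * A * Real.sqrt V * Real.sqrt Y :=
    h3.trans (by nlinarith [mul_le_mul_of_nonneg_left h4 (Real.sqrt_nonneg V)])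
  nlinarith [Real.sq_sqrt hY, Real.sq_sqrt hV, Real.sqrt_nonneg Y,
    sq_nonneg (Real.sqrt Y - ‖c‖ * A * Real.sqrt V)]

theorem entry_Tt {c : K1 H →L[ℂ] K1 H} (hc : Invariant D c) (t : ℝ) (φ ψ : L2) :
    entry c (trans t φ) (trans t ψ) = D.σ t (entry c φ ψ) := by
  ext1 w
  refine ext_inner_left ℂ fun v => ?_
  simp only [Modular.σ, ContinuousLinearMap.mul_def, ContinuousLinearMap.comp_apply]
  rw [← ContinuousLinearMap.adjoint_inner_left (D.U t) _ v, ← ContinuousLinearMap.star_eq_adjoint,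
    D.U_star, inner_entry, inner_entry]
  have hv : ten v (trans t φ) = Tt D t (ten (D.U (-t) v) φ) := by
    rw [← tenL_apply, ← tenL_apply, Tt_tenL, U_neg]
  have hw : ten w (trans t ψ) = Tt D t (ten (D.U (-t) w) ψ) := by
    rw [← tenL_apply, ← tenL_apply, Tt_tenL, U_neg]
  rw [hv, hw, ← hc t]
  simp only [Tt, ContinuousLinearMap.comp_apply, LinearIsometry.coe_toContinuousLinearMap]
  rw [inner_lift, D.U_star, ← lift_mul, ← D.U_add, neg_add_cancel, D.U_zero, lift_one,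
    LinearIsometry.inner_map_map]

theorem MatBound.add {n : ℕ} {e f : Fin n → Fin n → H →L[ℂ] H} {a b : ℝ} (ha : 0 ≤ a) (hb : 0 ≤ b)
    (he : MatBound e a) (hf : MatBound f b) : MatBound (fun k l => e k l + f k l) (a + b) := by
  intro v
  have h1 := he v
  have h2 := hf v
  set E : Fin n → H := fun k => ∑ l, e k l (v l)
  set F : Fin n → H := fun k => ∑ l, f k l (v l)
  have hsum : ∀ k, ∑ l, (e k l + f k l) (v l) = E k + F k := fun k => by
    simp [E, F, Finset.sum_add_distrib]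
  simp only [hsum]
  set V := ∑ l, ‖v l‖ ^ 2
  have hV : 0 ≤ V := by positivity
  have hm : ∑ k, ‖E k‖ * ‖F k‖ ≤ a * b * V := by
    refine (Real.sum_mul_le_sqrt_mul_sqrt _ _ _).trans ?_
    calc Real.sqrt (∑ k, ‖E k‖ ^ 2) * Real.sqrt (∑ k, ‖F k‖ ^ 2)
        ≤ Real.sqrt (a ^ 2 * V) * Real.sqrt (b ^ 2 * V) := by gcongr
      _ = a * b * V := by
          rw [Real.sqrt_mul (sq_nonneg _), Real.sqrt_mul (sq_nonneg _), Real.sqrt_sq ha,
            Real.sqrt_sq hb]
          calc a * Real.sqrt V * (b * Real.sqrt V) = a * b * Real.sqrt V ^ 2 := by ring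
            _ = a * b * V := by rw [Real.sq_sqrt hV]
  calc ∑ k, ‖E k + F k‖ ^ 2 ≤ ∑ k, (‖E k‖ ^ 2 + 2 * (‖E k‖ * ‖F k‖) + ‖F k‖ ^ 2) := by
        gcongr with k
        nlinarith [norm_add_le (E k) (F k), norm_nonneg (E k + F k)]
    _ ≤ _ := by
        rw [Finset.sum_add_distrib, Finset.sum_add_distrib, ← Finset.mul_sum]
        nlinarith

/-- Compressions of invariant operators are almost invariant. -/
theorem matLip_compress {c0 δ : ℝ} (hδ : 0 < δ) (n : ℕ) (shift : ℝ) {c : K1 H →L[ℂ] K1 H}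
    (hc : Invariant D c) :
    MatLip D (logW (n := n) c0 δ shift) (compress (n := n) c0 δ c) (4 * Real.pi * δ * ‖c‖) := by
  intro t
  set b : Fin n → L2 := fun k => bx c0 δ k
  set w : Fin n → ℂ := fun k => wave (node c0 δ k) (-t)
  set b' : Fin n → L2 := fun k => (starRingEnd ℂ) (w k) • trans t (b k)
  set d : Fin n → L2 := fun k => b' k - b k
  have hb : Orthonormal ℂ b := (orthonormal_bx hδ).comp _ Fin.val_injective
  have hww : ∀ k, (starRingEnd ℂ) (w k) * w k = 1 := fun k => by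
    rw [Complex.conj_mul', norm_wave]; simp
  have hd : ∀ k, d k = (starRingEnd ℂ) (w k) • bxErr c0 δ t k := by
    intro k
    simp only [d, b', bxErr, smul_sub, smul_smul, w, b] at hww ⊢
    rw [hww k, one_smul]
  have hb' : Orthonormal ℂ b' := by
    rw [orthonormal_iff_ite]
    intro j k
    simp only [b', inner_smul_left, inner_smul_right, LinearIsometry.inner_map_map,
      (orthonormal_iff_ite.1 hb) j k, Complex.conj_conj]
    split_ifs with h
    · subst h; rw [mul_one]; exact (mul_comm _ _).trans (by simpa [mul_comm] using hww j)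
    · simp
  have hdorth : ∀ j k, j ≠ k → ⟪d j, d k⟫_ℂ = 0 := fun j k h => by
    rw [hd, hd, inner_smul_left, inner_smul_right, inner_bxErr hδ t (fun e => h (Fin.ext e))]
    simp
  have hdn : ∀ k, ‖d k‖ ≤ 2 * Real.pi * δ * |t| := fun k => by
    rw [hd, norm_smul, RCLike.norm_conj, norm_wave, one_mul]; exact norm_bxErr hδ t k
  have hA : 0 ≤ 2 * Real.pi * δ * |t| := by positivity
  have key : ∀ k l, ampσ D (logW (n := n) c0 δ shift) t (compress c0 δ c) k l - compress c0 δ c k l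
      = entry c (b' k) (d l) + entry c (d k) (b l) := by
    intro k l
    have hph : Complex.exp (I * (((logW (n := n) c0 δ shift k - logW c0 δ shift l) * t : ℝ) : ℂ))
        = w k * (starRingEnd ℂ) (w l) := by
      simp only [w, wave, ← Complex.exp_conj, ← Complex.exp_add, map_mul, Complex.conj_ofReal,
        Complex.conj_I, logW]
      congr 1
      push_cast
      ring
    ext1 x
    refine ext_inner_left ℂ fun v => ?_
    simp only [ampσ, compress, sub_apply, add_apply, smul_apply, inner_sub_right,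
      inner_add_right, inner_smul_right, hph, ← entry_Tt D hc, inner_entry, ← tenL_apply, d,
      tenL_sub, map_sub, inner_sub_left]
    simp only [b', b, tenL_smul, map_smul, inner_smul_left, inner_smul_right, Complex.conj_conj]
    ring
  have hsum := MatBound.add (mul_nonneg (norm_nonneg c) hA) (mul_nonneg (norm_nonneg c) hA)
    (matBound_entry b' d hb' hdorth hA hdn c) (matBound_entry' d b hb hdorth hA hdn c)
  intro v
  simp only [key]
  refine (hsum v).trans (le_of_eq ?_)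
  ring

end WithModular

end P132.Core
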