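import Vale.Agent.P132.Core.Model
import Vale.Agent.P132.Core.FiniteKey
import Vale.Agent.P132.Core.Coherence

/-!
# P132 core: the two variable model `L²(ℝ × ℝ; H)`

Operators of the first variable act by left multiplication, operators of the second by `J`-twisted
left multiplication. Their products, compressed to boxes, are the maps `LR D e` of `FiniteKey`.
-/

noncomputable section

set_option linter.unusedSectionVars false

namespace P132.Core

open MeasureTheory Filter Topology Complex NormedSpace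
open scoped InnerProductSpace ComplexConjugate

variable {H : Type*} [NormedAddCommGroup H] [InnerProductSpace ℂ H] [CompleteSpace H]

/-- `L²(ℝ × ℝ; H)`. -/
abbrev K2 (H : Type*) [NormedAddCommGroup H] [InnerProductSpace ℂ H] :=
  Lp (α := ℝ × ℝ) H 2 volume

/-- Pointwise conjugate. -/
def conjL (h : L2) : L2 := Complex.conjCLE.toContinuousLinearMap.compLp h

theorem coeFn_conjL (h : L2) : (conjL h : ℝ → ℂ) =ᵐ[volume] fun x => conj (h x) := by
  filter_upwards [Complex.conjCLE.toContinuousLinearMap.coeFn_compLp h] with x hx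
  rw [conjL, hx]; rfl

theorem ae_fst {β : Type*} {f g : ℝ → β} (h : f =ᵐ[volume] g) :
    (fun p : ℝ × ℝ => f p.1) =ᵐ[volume] fun p => g p.1 :=
  Measure.quasiMeasurePreserving_fst.ae_eq_comp h

theorem ae_snd {β : Type*} {f g : ℝ → β} (h : f =ᵐ[volume] g) :
    (fun p : ℝ × ℝ => f p.2) =ᵐ[volume] fun p => g p.2 :=
  Measure.quasiMeasurePreserving_snd.ae_eq_comp h

theorem memLp_out {h : ℝ → ℂ} (hh : MemLp h 2 volume) {F : ℝ → H} (hF : MemLp F 2 volume) :
    MemLp (fun p : ℝ × ℝ => h p.2 • F p.1) 2 volume := by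
  refine (memLp_two_iff_integrable_sq_norm
    (hh.1.comp_snd.smul hF.1.comp_fst)).2 ?_
  refine (((memLp_two_iff_integrable_sq_norm hF.1).1 hF).mul_prod
    ((memLp_two_iff_integrable_sq_norm hh.1).1 hh)).congr ?_
  filter_upwards with p
  rw [Pi.smul_apply', norm_smul, mul_pow, mul_comm]

theorem memLp_out' {h : ℝ → ℂ} (hh : MemLp h 2 volume) {F : ℝ → H} (hF : MemLp F 2 volume) :
    MemLp (fun p : ℝ × ℝ => h p.1 • F p.2) 2 volume := by
  refine (memLp_two_iff_integrable_sq_norm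
    (hh.1.comp_fst.smul hF.1.comp_snd)).2 ?_
  refine (((memLp_two_iff_integrable_sq_norm hh.1).1 hh).mul_prod
    ((memLp_two_iff_integrable_sq_norm hF.1).1 hF)).congr ?_
  filter_upwards with p
  rw [Pi.smul_apply', norm_smul, mul_pow]

theorem norm_sq_out (G : K2 H) (u v : ℝ → ℝ)
    (h : ∀ᵐ p : ℝ × ℝ, ‖G p‖ ^ 2 = u p.1 * v p.2) : ‖G‖ ^ 2 = (∫ x, u x) * ∫ y, v y := by
  have e : ((‖G‖ ^ 2 : ℝ) : ℂ) = ((∫ x, u x) * ∫ y, v y : ℝ) := by
    rw [Complex.ofReal_pow]
    refine (inner_self_eq_norm_sq_to_K (𝕜 := ℂ) G).symm.trans ?_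
    rw [L2.inner_def, ← integral_prod_mul, ← integral_complex_ofReal]
    refine integral_congr_ae ?_
    filter_upwards [h] with p hp
    rw [inner_self_eq_norm_sq_to_K, ← hp]
    push_cast
    rfl
  exact_mod_cast e

theorem norm_sq_eq (F : K1 H) : ‖F‖ ^ 2 = ∫ x, ‖F x‖ ^ 2 := by
  have e : ((‖F‖ ^ 2 : ℝ) : ℂ) = ((∫ x, ‖F x‖ ^ 2 : ℝ) : ℂ) := by
    rw [Complex.ofReal_pow]
    refine (inner_self_eq_norm_sq_to_K (𝕜 := ℂ) F).symm.trans ?_
    rw [L2.inner_def, ← integral_complex_ofReal]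
    refine integral_congr_ae (Eventually.of_forall fun p => ?_)
    simp only [inner_self_eq_norm_sq_to_K]
    push_cast
    rfl
  exact_mod_cast e

/-- `F ↦ h(τ') • F(τ)`. -/
def inL (h : L2) : K1 H →L[ℂ] K2 H :=
  LinearMap.mkContinuous
    { toFun := fun F => (memLp_out (Lp.memLp h) (Lp.memLp F)).toLp _
      map_add' := fun F G => by
        apply Lp.ext
        filter_upwards [(memLp_out (Lp.memLp h) (Lp.memLp (F + G))).coeFn_toLp,
          (memLp_out (Lp.memLp h) (Lp.memLp F)).coeFn_toLp,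
          (memLp_out (Lp.memLp h) (Lp.memLp G)).coeFn_toLp, ae_fst (Lp.coeFn_add F G),
          Lp.coeFn_add ((memLp_out (Lp.memLp h) (Lp.memLp F)).toLp _)
            ((memLp_out (Lp.memLp h) (Lp.memLp G)).toLp _)] with p h1 h2 h3 h4 h5
        rw [h1, h5, Pi.add_apply, h2, h3, h4, Pi.add_apply, smul_add]
      map_smul' := fun c F => by
        apply Lp.ext
        filter_upwards [(memLp_out (Lp.memLp h) (Lp.memLp (c • F))).coeFn_toLp,
          (memLp_out (Lp.memLp h) (Lp.memLp F)).coeFn_toLp, ae_fst (Lp.coeFn_smul c F),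
          Lp.coeFn_smul c ((memLp_out (Lp.memLp h) (Lp.memLp F)).toLp _)] with p h1 h2 h4 h5
        rw [RingHom.id_apply, h1, h5, Pi.smul_apply, h2, h4, Pi.smul_apply, smul_comm] }
    (Real.sqrt (∫ x, ‖h x‖ ^ 2)) fun F => by
      rw [LinearMap.coe_mk, AddHom.coe_mk,
        ← pow_le_pow_iff_left₀ (norm_nonneg _) (by positivity) two_ne_zero, mul_pow,
        Real.sq_sqrt (integral_nonneg fun x => sq_nonneg _),
        norm_sq_out _ (fun x => ‖F x‖ ^ 2) (fun y => ‖h y‖ ^ 2), ← norm_sq_eq F, mul_comm]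
      filter_upwards [(memLp_out (Lp.memLp h) (Lp.memLp F)).coeFn_toLp] with p hp
      rw [hp, norm_smul, mul_pow, mul_comm]

theorem coeFn_inL (h : L2) (F : K1 H) :
    (inL h F : ℝ × ℝ → H) =ᵐ[volume] fun p => h p.2 • F p.1 :=
  (memLp_out (Lp.memLp h) (Lp.memLp F)).coeFn_toLp

theorem inner_inL (h h' : L2) (F F' : K1 H) :
    ⟪inL h F, inL h' F'⟫_ℂ = ⟪h, h'⟫_ℂ * ⟪F, F'⟫_ℂ := by
  rw [L2.inner_def, L2.inner_def, L2.inner_def,
    mul_comm (∫ a, ⟪(h : ℝ → ℂ) a, (h' : ℝ → ℂ) a⟫_ℂ), ← integral_prod_mul]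
  refine integral_congr_ae ?_
  filter_upwards [coeFn_inL h F, coeFn_inL h' F'] with p h1 h2
  rw [h1, h2, inner_smul_left, inner_smul_right, RCLike.inner_apply]
  ring

section WithModular

variable {S : Std H} (D : Modular S)

theorem inner_J (v w : H) : ⟪D.J v, D.J w⟫_ℂ = ⟪w, v⟫_ℂ := by
  rw [inner_eq_sum_norm_sq_div_four, inner_eq_sum_norm_sq_div_four]
  have h1 : ‖D.J v + D.J w‖ = ‖w + v‖ := by rw [← map_add, LinearIsometryEquiv.norm_map, add_comm]
  have h2 : ‖D.J v - D.J w‖ = ‖w - v‖ := by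
    rw [← map_sub, LinearIsometryEquiv.norm_map, norm_sub_rev]
  have h3 : ‖D.J v - I • D.J w‖ = ‖w - I • v‖ := by
    rw [show D.J v - I • D.J w = D.J (v + I • w) by
      rw [map_add, LinearIsometryEquiv.map_smulₛₗ, Complex.conj_I, neg_smul, sub_eq_add_neg],
      LinearIsometryEquiv.norm_map,
      show w - I • v = (-I) • (v + I • w) by
        rw [smul_add, smul_smul, neg_mul, Complex.I_mul_I, neg_neg, one_smul, neg_smul]; abel,
      norm_smul, norm_neg, Complex.norm_I, one_mul]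
  have h4 : ‖D.J v + I • D.J w‖ = ‖w + I • v‖ := by
    rw [show D.J v + I • D.J w = D.J (v - I • w) by
      rw [map_sub, LinearIsometryEquiv.map_smulₛₗ, Complex.conj_I, neg_smul, sub_neg_eq_add],
      LinearIsometryEquiv.norm_map,
      show w + I • v = I • (v - I • w) by
        rw [smul_sub, smul_smul, Complex.I_mul_I, neg_smul, one_smul]; abel,
      norm_smul, Complex.norm_I, one_mul]
  simp only [h1, h2, RCLike.I_to_complex, h3, h4]

theorem memLp_J (F : K1 H) : MemLp (fun τ => D.J (F τ)) 2 volume :=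
  (Lp.memLp F).of_le (D.J.continuous.comp_aestronglyMeasurable (Lp.aestronglyMeasurable F))
    (Eventually.of_forall fun τ => (D.J.norm_map _).le)

/-- `F ↦ h(τ) • J (F τ')`. -/
def inR (h : L2) : K1 H →L[ℝ] K2 H :=
  LinearMap.mkContinuous
    { toFun := fun F => (memLp_out' (Lp.memLp h) (memLp_J D F)).toLp _
      map_add' := fun F G => by
        apply Lp.ext
        filter_upwards [(memLp_out' (Lp.memLp h) (memLp_J D (F + G))).coeFn_toLp,
          (memLp_out' (Lp.memLp h) (memLp_J D F)).coeFn_toLp,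
          (memLp_out' (Lp.memLp h) (memLp_J D G)).coeFn_toLp, ae_snd (Lp.coeFn_add F G),
          Lp.coeFn_add ((memLp_out' (Lp.memLp h) (memLp_J D F)).toLp _)
            ((memLp_out' (Lp.memLp h) (memLp_J D G)).toLp _)] with p h1 h2 h3 h4 h5
        rw [h1, h5, Pi.add_apply, h2, h3, h4, Pi.add_apply, map_add, smul_add]
      map_smul' := fun c F => by
        apply Lp.ext
        filter_upwards [(memLp_out' (Lp.memLp h) (memLp_J D (c • F))).coeFn_toLp,
          (memLp_out' (Lp.memLp h) (memLp_J D F)).coeFn_toLp, ae_snd (Lp.coeFn_smul c F),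
          Lp.coeFn_smul c ((memLp_out' (Lp.memLp h) (memLp_J D F)).toLp _)] with p h1 h2 h4 h5
        rw [RingHom.id_apply, h1, h5, Pi.smul_apply, h2, h4, Pi.smul_apply,
          ← Complex.coe_smul c ((F : ℝ → H) p.2), LinearIsometryEquiv.map_smulₛₗ,
          Complex.conj_ofReal, Complex.coe_smul, smul_comm] }
    (Real.sqrt (∫ x, ‖h x‖ ^ 2)) fun F => by
      rw [LinearMap.coe_mk, AddHom.coe_mk,
        ← pow_le_pow_iff_left₀ (norm_nonneg _) (by positivity) two_ne_zero, mul_pow,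
        Real.sq_sqrt (integral_nonneg fun x => sq_nonneg _),
        norm_sq_out _ (fun x => ‖h x‖ ^ 2) (fun y => ‖F y‖ ^ 2), ← norm_sq_eq F]
      filter_upwards [(memLp_out' (Lp.memLp h) (memLp_J D F)).coeFn_toLp] with p hp
      rw [hp, norm_smul, LinearIsometryEquiv.norm_map, mul_pow]

theorem coeFn_inR (h : L2) (F : K1 H) :
    (inR D h F : ℝ × ℝ → H) =ᵐ[volume] fun p => h p.1 • D.J (F p.2) :=
  (memLp_out' (Lp.memLp h) (memLp_J D F)).coeFn_toLp

theorem inR_smul (h : L2) (c : ℂ) (F : K1 H) : inR D h (c • F) = conj c • inR D h F := by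
  apply Lp.ext
  filter_upwards [coeFn_inR D h (c • F), coeFn_inR D h F, ae_snd (Lp.coeFn_smul c F),
    Lp.coeFn_smul (conj c) (inR D h F)] with p h1 h2 h3 h4
  rw [h1, h4, Pi.smul_apply, h2, h3, Pi.smul_apply, LinearIsometryEquiv.map_smulₛₗ, smul_comm]

theorem inL_conjL_tenL (φ ψ : L2) (v : H) :
    inL (conjL φ) (tenL ψ v) = inR D ψ (tenL φ (D.J v)) := by
  apply Lp.ext
  filter_upwards [coeFn_inL (conjL φ) (ten v ψ), coeFn_inR D ψ (ten (D.J v) φ),
    ae_fst (coeFn_ten v ψ), ae_snd (coeFn_conjL φ), ae_snd (coeFn_ten (D.J v) φ)]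
    with p h1 h2 h3 h4 h5
  rw [tenL_apply, tenL_apply, h1, h2, h3, h4, h5, LinearIsometryEquiv.map_smulₛₗ, D.J_J, smul_comm]

theorem inner_inL_inR (φ ψ : L2) (F G : K1 H) :
    ⟪inL (conjL φ) F, inR D ψ G⟫_ℂ
      = ⟪(tenL ψ).adjoint F, D.J ((tenL φ).adjoint G)⟫_ℂ := by
  set X := (tenL ψ).adjoint F with hX
  have hint := L2.integrable_inner (𝕜 := ℂ) (inL (conjL φ) F) (inR D ψ G)
  have hint' : Integrable (fun p : ℝ × ℝ =>
      φ p.2 * (ψ p.1 * ⟪F p.1, D.J (G p.2)⟫_ℂ)) (volume.prod volume) := by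
    refine hint.congr ?_
    filter_upwards [coeFn_inL (conjL φ) F, coeFn_inR D ψ G, ae_snd (coeFn_conjL φ)] with p h1 h2 h3
    rw [h1, h2, h3, inner_smul_left, inner_smul_right, Complex.conj_conj]
  have e : ⟪inL (conjL φ) F, inR D ψ G⟫_ℂ
      = ∫ p : ℝ × ℝ, φ p.2 * (ψ p.1 * ⟪F p.1, D.J (G p.2)⟫_ℂ) ∂(volume.prod volume) := by
    rw [L2.inner_def]
    refine integral_congr_ae ?_
    filter_upwards [coeFn_inL (conjL φ) F, coeFn_inR D ψ G, ae_snd (coeFn_conjL φ)] with p h1 h2 h3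
    rw [h1, h2, h3, inner_smul_left, inner_smul_right, Complex.conj_conj]
  have inner1 : ∀ w : H, (∫ τ, ψ τ * ⟪F τ, w⟫_ℂ) = ⟪X, w⟫_ℂ := fun w => by
    rw [hX, ContinuousLinearMap.adjoint_inner_left, tenL_apply, L2.inner_def]
    refine integral_congr_ae ?_
    filter_upwards [coeFn_ten w ψ] with τ h1
    rw [h1, inner_smul_right]
  rw [e, integral_prod_symm _ hint']
  simp only [integral_const_mul, inner1]
  conv_rhs => rw [← D.J_J X]
  rw [inner_J, ContinuousLinearMap.adjoint_inner_left, tenL_apply, L2.inner_def]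
  refine integral_congr_ae ?_
  filter_upwards [coeFn_ten (D.J X) φ] with τ h1
  rw [h1, inner_smul_right]
  conv_lhs => rw [← D.J_J X]
  rw [inner_J]

/-- `J T J`. -/
def conjJ (T : H →L[ℂ] H) : H →L[ℂ] H :=
  LinearMap.mkContinuous
    { toFun := fun v => D.J (T (D.J v))
      map_add' := fun u v => by simp only [map_add]
      map_smul' := fun c v => by
        simp only [LinearIsometryEquiv.map_smulₛₗ, map_smul, Complex.conj_conj, RingHom.id_apply] }
    ‖T‖ fun v => by
      rw [LinearMap.coe_mk, AddHom.coe_mk, LinearIsometryEquiv.norm_map]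
      exact (T.le_opNorm _).trans_eq (by rw [LinearIsometryEquiv.norm_map])

theorem conjJ_apply (T : H →L[ℂ] H) (v : H) : conjJ D T v = D.J (T (D.J v)) := rfl

theorem conjJ_comm {x y : H →L[ℂ] H} (hx : x ∈ S.M) (hy : y ∈ S.M) (v : H) :
    x (conjJ D y v) = conjJ D y (x v) := D.J_commutant x hx y hy v

/-- `σ_τ a` in the first variable. -/
def fieldL (a : H →L[ℂ] H) : OpField (ℝ × ℝ) H where
  toFun p := D.σ p.1 a
  bound := ‖a‖
  norm_le p := (piField D a).norm_le p.1
  cont v := ((piField D a).cont v).comp continuous_fst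

/-- `J σ_τ' a J` in the second variable. -/
def fieldR (a : H →L[ℂ] H) : OpField (ℝ × ℝ) H where
  toFun p := conjJ D (D.σ p.2 a)
  bound := ‖a‖
  norm_le p := ContinuousLinearMap.opNorm_le_bound _ (norm_nonneg _) fun v => by
    rw [conjJ_apply, LinearIsometryEquiv.norm_map]
    exact ((piField D a).apply_norm_le p.2 _).trans_eq (by rw [LinearIsometryEquiv.norm_map]; rfl)
  cont v := D.J.continuous.comp (((piField D a).cont (D.J v)).comp continuous_snd)

/-- `π(a)` in the first variable. -/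
def mulL (a : H →L[ℂ] H) : K2 H →L[ℂ] K2 H := (fieldL D a).mulOp volume

/-- `π(a)` in the second variable, twisted by `J`. -/
def mulR (a : H →L[ℂ] H) : K2 H →L[ℂ] K2 H := (fieldR D a).mulOp volume

/-- Translations of `ℝ` on `K1`. -/
def trField : OpField ℝ (K1 H) where
  toFun u := (tr (volume : Measure ℝ) u).toContinuousLinearMap
  bound := 1
  norm_le u := LinearIsometry.norm_toContinuousLinearMap_le _
  cont F := continuous_tr F

/-- Translations in the first variable. -/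
def trFieldL : OpField ℝ (K2 H) where
  toFun u := (tr (volume : Measure (ℝ × ℝ)) (u, 0)).toContinuousLinearMap
  bound := 1
  norm_le u := LinearIsometry.norm_toContinuousLinearMap_le _
  cont F := (continuous_tr F).comp (continuous_id.prodMk continuous_const)

/-- Translations in the second variable. -/
def trFieldR : OpField ℝ (K2 H) where
  toFun u := (tr (volume : Measure (ℝ × ℝ)) (0, u)).toContinuousLinearMap
  bound := 1
  norm_le u := LinearIsometry.norm_toContinuousLinearMap_le _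
  cont F := (continuous_tr F).comp (continuous_const.prodMk continuous_id)

theorem tr_inL (u : ℝ) (h : L2) (F : K1 H) :
    tr (volume : Measure (ℝ × ℝ)) (u, 0) (inL h F) = inL h (tr (volume : Measure ℝ) u F) := by
  apply Lp.ext
  filter_upwards [coeFn_tr ((u, 0) : ℝ × ℝ) (inL h F), coeFn_inL h (tr volume u F),
    ae_fst (coeFn_tr u F),
    (measurePreserving_sub_right volume ((u, 0) : ℝ × ℝ)).quasiMeasurePreserving.ae_eq_comp
      (coeFn_inL h F)] with p h1 h2 h3 h4
  simp only [Function.comp] at h4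
  rw [h1, h2, h3, h4]
  simp

theorem tr_inR (u : ℝ) (h : L2) (F : K1 H) :
    tr (volume : Measure (ℝ × ℝ)) (0, u) (inR D h F) = inR D h (tr (volume : Measure ℝ) u F) := by
  apply Lp.ext
  filter_upwards [coeFn_tr ((0, u) : ℝ × ℝ) (inR D h F), coeFn_inR D h (tr volume u F),
    ae_snd (coeFn_tr u F),
    (measurePreserving_sub_right volume ((0, u) : ℝ × ℝ)).quasiMeasurePreserving.ae_eq_comp
      (coeFn_inR D h F)] with p h1 h2 h3 h4
  simp only [Function.comp] at h4
  rw [h1, h2, h3, h4]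
  simp

theorem mulL_inL (a : H →L[ℂ] H) (h : L2) (F : K1 H) :
    mulL D a (inL h F) = inL h (piA D a F) := by
  apply Lp.ext
  filter_upwards [(fieldL D a).coeFn_mulOp (inL h F), coeFn_inL h F, coeFn_inL h (piA D a F),
    ae_fst (coeFn_piA D a F)] with p h1 h2 h3 h4
  rw [mulL, h1, h2, h3, h4, map_smul]
  rfl

theorem mulR_inR (a : H →L[ℂ] H) (h : L2) (F : K1 H) :
    mulR D a (inR D h F) = inR D h (piA D a F) := by
  apply Lp.ext
  filter_upwards [(fieldR D a).coeFn_mulOp (inR D h F), coeFn_inR D h F,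
    coeFn_inR D h (piA D a F), ae_snd (coeFn_piA D a F)] with p h1 h2 h3 h4
  rw [mulR, h1, h2, h3, h4, map_smul]
  change _ • D.J (D.σ p.2 a (D.J (D.J (F p.2)))) = _
  rw [D.J_J]

variable {k : ℝ → ℂ} (hki : Integrable k)

theorem integrable_conjk (hki : Integrable k) : Integrable fun u => conj (k u) :=
  Complex.conjCLE.toContinuousLinearMap.integrable_comp hki

/-- Smearing on `K1`. -/
def cg : K1 H →L[ℂ] K1 H := smear k hki trField

/-- Smearing in the first variable. -/
def cgL : K2 H →L[ℂ] K2 H := smear k hki trFieldL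

/-- Conjugate smearing in the second variable. -/
def cgR : K2 H →L[ℂ] K2 H := smear (fun u => conj (k u)) (integrable_conjk hki) trFieldR

/-- `C_g π(a) C_g`. -/
def Aop (a : H →L[ℂ] H) : K1 H →L[ℂ] K1 H := cg hki * piA D a * cg hki

/-- `C_g π(a) C_g` acting on the left. -/
def AL (a : H →L[ℂ] H) : K2 H →L[ℂ] K2 H := cgL hki * mulL D a * cgL hki

/-- `C_g π(a) C_g` acting on the right. -/
def AR (a : H →L[ℂ] H) : K2 H →L[ℂ] K2 H := cgR hki * mulR D a * cgR hki

theorem cgL_inL (h : L2) (F : K1 H) : cgL hki (inL h F) = inL h (cg hki F) := by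
  rw [cg, cgL, smear_apply, smear_apply]
  refine Eq.trans ?_ ((inL h).integral_comp_comm (integrable_smear hki trField F))
  refine integral_congr_ae (Eventually.of_forall fun u => ?_)
  change k u • tr _ _ _ = inL h (k u • _)
  rw [map_smul, tr_inL]
  rfl

theorem cgR_inR (h : L2) (F : K1 H) : cgR hki (inR D h F) = inR D h (cg hki F) := by
  rw [cg, cgR, smear_apply, smear_apply]
  refine Eq.trans ?_ ((inR D h).integral_comp_comm (integrable_smear hki trField F))
  refine integral_congr_ae (Eventually.of_forall fun u => ?_)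
  change conj (k u) • tr _ _ _ = inR D h (k u • _)
  rw [inR_smul, tr_inR]
  rfl

theorem AL_inL (a : H →L[ℂ] H) (h : L2) (F : K1 H) :
    AL D hki a (inL h F) = inL h (Aop D hki a F) := by
  simp only [AL, Aop, mul_apply_eq_comp, cgL_inL, mulL_inL]

theorem AR_inR (a : H →L[ℂ] H) (h : L2) (F : K1 H) :
    AR D hki a (inR D h F) = inR D h (Aop D hki a F) := by
  simp only [AR, Aop, mul_apply_eq_comp, cgR_inR, mulR_inR]

/-! ### Self-adjointness -/

theorem inner_tr {G : Type*} [AddCommGroup G] [TopologicalSpace G] [MeasurableSpace G]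
    [BorelSpace G] [IsTopologicalAddGroup G] [SecondCountableTopology G]
    [TopologicalSpace.PseudoMetrizableSpace G] [MeasurableAdd G] {μ : Measure G}
    [μ.IsAddRightInvariant] (v : G) (f g : Lp H 2 μ) :
    ⟪tr μ v f, g⟫_ℂ = ⟪f, tr μ (-v) g⟫_ℂ := by
  conv_lhs => rw [← tr_zero (μ := μ) g, ← add_neg_cancel v, tr_add]
  rw [LinearIsometry.inner_map_map]

theorem isSelfAdjoint_smear {E : Type*} [NormedAddCommGroup E] [InnerProductSpace ℂ E]
    [CompleteSpace E] {k : ℝ → ℂ} (hki : Integrable k) (hk : ∀ u, k (-u) = conj (k u))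
    (T : OpField ℝ E) (hT : ∀ u x y, ⟪T u x, y⟫_ℂ = ⟪x, T (-u) y⟫_ℂ) :
    IsSelfAdjoint (smear k hki T) := by
  rw [ContinuousLinearMap.isSelfAdjoint_iff_isSymmetric]
  intro x y
  change ⟪smear k hki T x, y⟫_ℂ = ⟪x, smear k hki T y⟫_ℂ
  rw [smear_apply, smear_apply, ← inner_conj_symm, ← integral_inner (integrable_smear hki T x),
    ← integral_conj, ← integral_inner (integrable_smear hki T y),
    ← integral_neg_eq_self (fun u => ⟪x, k u • T u y⟫_ℂ)]
  refine integral_congr_ae (Eventually.of_forall fun u => ?_)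
  simp only [inner_smul_right, map_mul, inner_conj_symm, hT, hk]

theorem isSelfAdjoint_mulOp {α : Type*} [TopologicalSpace α] [MeasurableSpace α]
    [OpensMeasurableSpace α] [SecondCountableTopology α]
    [TopologicalSpace.PseudoMetrizableSpace α] {μ : Measure α} (f : OpField α H)
    (hf : ∀ x, IsSelfAdjoint (f x)) : IsSelfAdjoint (f.mulOp μ) := by
  rw [ContinuousLinearMap.isSelfAdjoint_iff_isSymmetric]
  intro F G
  change ⟪f.mulOp μ F, G⟫_ℂ = ⟪F, f.mulOp μ G⟫_ℂ
  rw [L2.inner_def, L2.inner_def]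
  refine integral_congr_ae ?_
  filter_upwards [f.coeFn_mulOp F, f.coeFn_mulOp G] with x h1 h2
  rw [h1, h2]
  exact ContinuousLinearMap.isSelfAdjoint_iff_isSymmetric.1 (hf x) _ _

theorem isSelfAdjoint_σ {a : H →L[ℂ] H} (ha : IsSelfAdjoint a) (t : ℝ) :
    IsSelfAdjoint (D.σ t a) := by
  rw [IsSelfAdjoint, Modular.σ, star_mul, star_mul, ha.star_eq, D.U_star, D.U_star, neg_neg,
    mul_assoc]

theorem isSelfAdjoint_conjJ {T : H →L[ℂ] H} (hT : IsSelfAdjoint T) :
    IsSelfAdjoint (conjJ D T) := by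
  rw [ContinuousLinearMap.isSelfAdjoint_iff_isSymmetric]
  intro v w
  change ⟪D.J (T (D.J v)), w⟫_ℂ = ⟪v, D.J (T (D.J w))⟫_ℂ
  conv_lhs => rw [← D.J_J w]
  conv_rhs => rw [← D.J_J v]
  rw [inner_J, inner_J]
  exact (ContinuousLinearMap.isSelfAdjoint_iff_isSymmetric.1 hT _ _).symm

theorem isSelfAdjoint_sandwich {E : Type*} [NormedAddCommGroup E] [InnerProductSpace ℂ E]
    [CompleteSpace E] {c m : E →L[ℂ] E} (hc : IsSelfAdjoint c) (hm : IsSelfAdjoint m) :
    IsSelfAdjoint (c * m * c) := by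
  rw [IsSelfAdjoint, star_mul, star_mul, hc.star_eq, hm.star_eq, mul_assoc]

variable (hk : ∀ u, k (-u) = conj (k u))
include hk

theorem isSelfAdjoint_Aop {a : H →L[ℂ] H} (ha : IsSelfAdjoint a) :
    IsSelfAdjoint (Aop D hki a) :=
  isSelfAdjoint_sandwich (isSelfAdjoint_smear hki hk _ fun u x y => inner_tr u x y)
    (isSelfAdjoint_mulOp _ fun τ => isSelfAdjoint_σ D ha τ)

theorem isSelfAdjoint_AL {a : H →L[ℂ] H} (ha : IsSelfAdjoint a) :
    IsSelfAdjoint (AL D hki a) :=
  isSelfAdjoint_sandwich (isSelfAdjoint_smear hki hk _ fun u x y => by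
      change ⟪tr _ _ x, y⟫_ℂ = ⟪x, tr _ _ y⟫_ℂ
      rw [inner_tr]; simp)
    (isSelfAdjoint_mulOp _ fun p => isSelfAdjoint_σ D ha p.1)

theorem isSelfAdjoint_AR {a : H →L[ℂ] H} (ha : IsSelfAdjoint a) :
    IsSelfAdjoint (AR D hki a) :=
  isSelfAdjoint_sandwich
    (isSelfAdjoint_smear (integrable_conjk hki) (fun u => by rw [hk]) _ fun u x y => by
      change ⟪tr _ _ x, y⟫_ℂ = ⟪x, tr _ _ y⟫_ℂ
      rw [inner_tr]; simp)
    (isSelfAdjoint_mulOp _ fun p => isSelfAdjoint_conjJ D (isSelfAdjoint_σ D ha p.2))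

omit hk

/-! ### Commutation -/

/-- `1 ⊗ x` on `K2`. -/
def lift2 (x : H →L[ℂ] H) : K2 H →L[ℂ] K2 H := (constField x).mulOp volume

theorem commute_tr_mulOp {v : ℝ × ℝ} (f : OpField (ℝ × ℝ) H) (hf : ∀ p, f (p - v) = f p)
    (F : K2 H) : tr (volume : Measure (ℝ × ℝ)) v (f.mulOp volume F) = f.mulOp volume (tr _ v F) := by
  rw [tr_mulOp]
  congr 2
  cases f
  simp only [OpField.shift]
  congr 1
  exact funext hf

theorem commute_mulL_mulR {a b : H →L[ℂ] H} (ha : a ∈ S.M) (hb : b ∈ S.M) :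
    Commute (mulL D a) (mulR D b) :=
  OpField.mulOp_commute _ _ fun p v => conjJ_comm D (D.σ_mem p.1 a ha) (D.σ_mem p.2 b hb) v

theorem commute_mulL_cgR (a : H →L[ℂ] H) : Commute (mulL D a) (cgR hki) := by
  ext1 F
  simp only [mul_apply_eq_comp]
  refine smear_commute _ _ trFieldR _ (fun u x => ?_) F
  exact (commute_tr_mulOp (fieldL D a) (fun p => by simp [fieldL]) x).symm

theorem commute_cgL_mulR (b : H →L[ℂ] H) : Commute (cgL hki) (mulR D b) := by
  ext1 F
  simp only [mul_apply_eq_comp]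
  refine (smear_commute k hki trFieldL (mulR D b) (fun u x => ?_) F).symm
  exact (commute_tr_mulOp (fieldR D b) (fun p => by simp [fieldR]) x).symm

theorem commute_cgL_cgR : Commute (cgL (H := H) hki) (cgR hki) := by
  ext1 F
  simp only [mul_apply_eq_comp]
  refine (smear_commute k hki trFieldL (cgR hki) (fun u x => ?_) F).symm
  refine (smear_commute (fun u => conj (k u)) (integrable_conjk hki) trFieldR (trFieldL u)
    (fun v y => ?_) x).symm
  change tr (volume : Measure (ℝ × ℝ)) (u, 0) (tr _ (0, v) y) = tr _ (0, v) (tr _ (u, 0) y)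
  rw [← tr_add, ← tr_add, add_comm]

theorem commute_AL_AR {a b : H →L[ℂ] H} (ha : a ∈ S.M) (hb : b ∈ S.M) :
    Commute (AL D hki a) (AR D hki b) := by
  have h1 := commute_cgL_cgR (H := H) hki
  have h2 := commute_cgL_mulR D hki b
  have h3 := commute_mulL_cgR D hki a
  have h4 := commute_mulL_mulR D ha hb
  exact Commute.mul_left (Commute.mul_left ((h1.mul_right h2).mul_right h1)
    ((h3.mul_right h4).mul_right h3)) ((h1.mul_right h2).mul_right h1)

theorem commute_lift2_AR {x b : H →L[ℂ] H} (hx : x ∈ S.M) (hb : b ∈ S.M) :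
    Commute (lift2 x) (AR D hki b) := by
  have h1 : Commute (lift2 x) (cgR (H := H) hki) := by
    ext1 F
    simp only [mul_apply_eq_comp]
    refine smear_commute _ _ trFieldR _ (fun u y => ?_) F
    exact (commute_tr_mulOp (constField x) (fun p => rfl) y).symm
  have h2 : Commute (lift2 x) (mulR D b) :=
    OpField.mulOp_commute _ _ fun p v => conjJ_comm D hx (D.σ_mem p.2 b hb) v
  exact (h1.mul_right h2).mul_right h1

theorem norm_smear_le {E : Type*} [NormedAddCommGroup E] [InnerProductSpace ℂ E]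
    [CompleteSpace E] {k : ℝ → ℂ} (hki : Integrable k) (T : OpField ℝ E) (hT : T.bound = 1) :
    ‖smear k hki T‖ ≤ ∫ u, ‖k u‖ := by
  refine (ContinuousLinearMap.opNorm_le_bound _ (integral_nonneg fun u => norm_nonneg _) fun x => ?_)
  rw [smear_apply]
  refine (norm_integral_le_of_norm_le (hki.norm.mul_const ‖x‖)
    (Eventually.of_forall fun u => ?_)).trans_eq (integral_mul_const _ _)
  rw [norm_smul]
  exact mul_le_mul_of_nonneg_left ((T.apply_norm_le u x).trans_eq (by rw [hT, one_mul]))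
    (norm_nonneg _)

theorem norm_sandwich_le {E : Type*} [NormedAddCommGroup E] [InnerProductSpace ℂ E]
    {c m : E →L[ℂ] E} {I A : ℝ} (hc : ‖c‖ ≤ I) (hm : ‖m‖ ≤ A) : ‖c * m * c‖ ≤ A * I ^ 2 := by
  have hI := (norm_nonneg c).trans hc
  have hA := (norm_nonneg m).trans hm
  calc ‖c * m * c‖ ≤ ‖c‖ * ‖m‖ * ‖c‖ :=
        (norm_mul_le _ _).trans (mul_le_mul_of_nonneg_right (norm_mul_le _ _) (norm_nonneg _))
    _ ≤ I * A * I := by gcongr
    _ = A * I ^ 2 := by ring

theorem norm_AL_le (a : H →L[ℂ] H) : ‖AL D hki a‖ ≤ ‖a‖ * (∫ u, ‖k u‖) ^ 2 :=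
  norm_sandwich_le (norm_smear_le hki _ rfl) ((fieldL D a).norm_mulOp_le (norm_nonneg _))

theorem norm_AR_le (a : H →L[ℂ] H) : ‖AR D hki a‖ ≤ ‖a‖ * (∫ u, ‖k u‖) ^ 2 := by
  refine norm_sandwich_le ((norm_smear_le (integrable_conjk hki) _ rfl).trans_eq ?_)
    ((fieldR D a).norm_mulOp_le (norm_nonneg _))
  simp only [RCLike.norm_conj]

theorem norm_Aop_le (a : H →L[ℂ] H) : ‖Aop D hki a‖ ≤ ‖a‖ * (∫ u, ‖k u‖) ^ 2 :=
  norm_sandwich_le (norm_smear_le hki _ rfl) (norm_piA_le D a)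

theorem commute_lift_cg (m : H →L[ℂ] H) : Commute (lift m) (cg (H := H) hki) := by
  ext1 F
  simp only [mul_apply_eq_comp]
  refine smear_commute _ _ trField _ (fun u y => ?_) F
  change lift m (tr _ u y) = tr _ u (lift m y)
  rw [lift, tr_mulOp]
  rfl

theorem Aop_inAlg {a : H →L[ℂ] H} (ha : a ∈ S.M) : InAlg (S := S) (Aop D hki a) := by
  intro m hm F
  have h2 : Commute (lift m) (piA D a) := ContinuousLinearMap.ext fun G => piA_inAlg D ha m hm G
  have h1 := commute_lift_cg hki m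
  exact congrArg (fun T : K1 H →L[ℂ] K1 H => T F) ((h1.mul_right h2).mul_right h1).eq

theorem Aop_invariant (a : H →L[ℂ] H) : Invariant D (Aop D hki a) := by
  intro t F
  have h2 : Commute (Tt D t) (piA D a) := ContinuousLinearMap.ext fun G => piA_invariant D a t G
  have h1 : Commute (Tt D t) (cg (H := H) hki) := by
    ext1 G
    simp only [mul_apply_eq_comp]
    refine smear_commute _ _ trField _ (fun u y => ?_) G
    change lift (D.U t) (tr _ t (tr _ u y)) = tr _ u (lift (D.U t) (tr _ t y))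
    rw [← tr_add, add_comm, tr_add, lift, tr_mulOp]
    rfl
  exact congrArg (fun T : K1 H →L[ℂ] K1 H => T F) ((h1.mul_right h2).mul_right h1).eq

/-! ### Relations -/

/-- `cL` is `c` in the first variable. -/
def RelL (c : K1 H →L[ℂ] K1 H) (cL : K2 H →L[ℂ] K2 H) : Prop :=
  ∀ h F, cL (inL h F) = inL h (c F)

/-- `cR` is `c` in the second variable. -/
def RelR (c : K1 H →L[ℂ] K1 H) (cR : K2 H →L[ℂ] K2 H) : Prop :=
  ∀ h F, cR (inR D h F) = inR D h (c F)

theorem RelL.mul {c d : K1 H →L[ℂ] K1 H} {cL dL : K2 H →L[ℂ] K2 H} (hc : RelL c cL)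
    (hd : RelL d dL) : RelL (c * d) (cL * dL) := fun h F => by
  rw [mul_apply_eq_comp, mul_apply_eq_comp, hd h F, hc h]

theorem RelR.mul {c d : K1 H →L[ℂ] K1 H} {cR dR : K2 H →L[ℂ] K2 H} (hc : RelR D c cR)
    (hd : RelR D d dR) : RelR D (c * d) (cR * dR) := fun h F => by
  rw [mul_apply_eq_comp, mul_apply_eq_comp, hd h F, hc h]

theorem RelL.smul {c : K1 H →L[ℂ] K1 H} {cL : K2 H →L[ℂ] K2 H} (hc : RelL c cL) (z : ℂ) :
    RelL (z • c) (z • cL) := fun h F => by
  rw [smul_apply, smul_apply, hc h F, map_smul]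

theorem RelR.smul {c : K1 H →L[ℂ] K1 H} {cR : K2 H →L[ℂ] K2 H} (hc : RelR D c cR) (z : ℂ) :
    RelR D (z • c) (conj z • cR) := fun h F => by
  rw [smul_apply, smul_apply, hc h F, inR_smul]

theorem RelL.pow {c : K1 H →L[ℂ] K1 H} {cL : K2 H →L[ℂ] K2 H} (hc : RelL c cL) :
    ∀ j : ℕ, RelL (c ^ j) (cL ^ j)
  | 0 => fun _ _ => rfl
  | j + 1 => by rw [pow_succ, pow_succ]; exact (RelL.pow hc j).mul hc

theorem RelR.pow {c : K1 H →L[ℂ] K1 H} {cR : K2 H →L[ℂ] K2 H} (hc : RelR D c cR) :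
    ∀ j : ℕ, RelR D (c ^ j) (cR ^ j)
  | 0 => fun _ _ => rfl
  | j + 1 => by rw [pow_succ, pow_succ]; exact (RelR.pow hc j).mul D hc

theorem RelL.exp {c : K1 H →L[ℂ] K1 H} {cL : K2 H →L[ℂ] K2 H} (hc : RelL c cL) :
    RelL (NormedSpace.exp c) (NormedSpace.exp cL) := fun h F => by
  have h1 := ((exp_series_hasSum_exp' (𝕂 := ℂ) c).mapL (ContinuousLinearMap.apply ℂ _ F)).mapL
    (inL h)
  have h2 := (exp_series_hasSum_exp' (𝕂 := ℂ) cL).mapL (ContinuousLinearMap.apply ℂ _ (inL h F))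
  simp only [ContinuousLinearMap.apply_apply, smul_apply, map_smul] at h1 h2
  simp only [hc.pow _ h F] at h2
  exact h2.unique h1

theorem RelR.exp {c : K1 H →L[ℂ] K1 H} {cR : K2 H →L[ℂ] K2 H} (hc : RelR D c cR) :
    RelR D (NormedSpace.exp c) (NormedSpace.exp cR) := fun h F => by
  have h1 := ((exp_series_hasSum_exp' (𝕂 := ℂ) c).mapL (ContinuousLinearMap.apply ℂ _ F)).mapL
    (inR D h)
  have h2 := (exp_series_hasSum_exp' (𝕂 := ℂ) cR).mapL (ContinuousLinearMap.apply ℂ _ (inR D h F))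
  simp only [ContinuousLinearMap.apply_apply, smul_apply, inR_smul] at h1 h2
  simp only [RelR.pow D hc _ h F] at h2
  simp only [map_inv₀, map_natCast] at h1
  exact h2.unique h1

/-! ### Boxes -/

/-- `Σ bx_k(τ) conj (bx_l(τ')) ξ_kl`. -/
def iota (c0 δ : ℝ) {n : ℕ} (ξ : Fin n → Fin n → H) : K2 H :=
  ∑ l : Fin n, inL (conjL (bx c0 δ l)) (∑ k : Fin n, tenL (bx c0 δ k) (ξ k l))

theorem iota_eq_inR (c0 δ : ℝ) {n : ℕ} (ξ : Fin n → Fin n → H) :
    iota c0 δ ξ = ∑ p : Fin n, inR D (bx c0 δ p) (∑ m : Fin n, tenL (bx c0 δ m) (D.J (ξ p m))) := by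
  simp only [iota, map_sum, inL_conjL_tenL D]
  exact Finset.sum_comm

theorem inner_conjL (φ ψ : L2) : ⟪conjL φ, conjL ψ⟫_ℂ = ⟪ψ, φ⟫_ℂ := by
  rw [L2.inner_def, L2.inner_def]
  refine integral_congr_ae ?_
  filter_upwards [coeFn_conjL φ, coeFn_conjL ψ] with x h1 h2
  rw [h1, h2, RCLike.inner_apply, RCLike.inner_apply, Complex.conj_conj, mul_comm]

theorem inner_iota {c0 δ : ℝ} (hδ : 0 < δ) {n : ℕ} (ξ ξ' : Fin n → Fin n → H) :
    ⟪iota c0 δ ξ, iota c0 δ ξ'⟫_ℂ = ∑ k, ∑ l, ⟪ξ k l, ξ' k l⟫_ℂ := by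
  have hb : Orthonormal ℂ fun k : Fin n => bx c0 δ k :=
    (orthonormal_bx hδ).comp _ Fin.val_injective
  simp only [iota, sum_inner, inner_sum, inner_inL, inner_conjL, tenL_apply, inner_ten,
    orthonormal_iff_ite.1 hb, mul_ite, mul_one, mul_zero, ite_mul, one_mul, zero_mul,
    Finset.sum_ite_eq, Finset.sum_ite_eq', Finset.mem_univ, if_true]
  exact Finset.sum_comm

theorem lift2_iota (x : H →L[ℂ] H) (c0 δ : ℝ) {n : ℕ} (ξ : Fin n → Fin n → H) :
    lift2 x (iota c0 δ ξ) = iota c0 δ (fun k l => x (ξ k l)) := by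
  have h : ∀ (φ : L2) (F : K1 H), lift2 x (inL φ F) = inL φ (lift x F) := fun φ F => by
    apply Lp.ext
    filter_upwards [(constField x).coeFn_mulOp (inL φ F), coeFn_inL φ F, coeFn_inL φ (lift x F),
      ae_fst (coeFn_lift x F)] with p h1 h2 h3 h4
    rw [lift2, h1, h2, h3, h4]
    exact map_smul x _ _
  simp only [iota, map_sum, h, lift_tenL]

theorem inner_iota_apply (c0 δ : ℝ) {n : ℕ} {c : K1 H →L[ℂ] K1 H}
    {cL cR : K2 H →L[ℂ] K2 H} (hLs : RelL (star c) (star cL)) (hR : RelR D c cR)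
    (ξ ξ' : Fin n → Fin n → H) :
    ⟪iota c0 δ ξ, (cL * cR) (iota c0 δ ξ')⟫_ℂ
      = ∑ k, ∑ l, ⟪ξ k l, LR D (compress c0 δ c) ξ' k l⟫_ℂ := by
  have e : ∀ (j i : Fin n) (T : K1 H →L[ℂ] K1 H) (w : H),
      (tenL (bx c0 δ j)).adjoint (T (tenL (bx c0 δ i) w)) = entry T (bx c0 δ j) (bx c0 δ i) w :=
    fun j i T w => rfl
  have eL : star cL (iota c0 δ ξ)
      = ∑ l : Fin n, inL (conjL (bx c0 δ l)) (∑ k : Fin n, star c (tenL (bx c0 δ k) (ξ k l))) := by
    rw [iota, map_sum]
    exact Finset.sum_congr rfl fun l _ => by rw [hLs, map_sum]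
  have eR : cR (iota c0 δ ξ')
      = ∑ p : Fin n, inR D (bx c0 δ p) (∑ m : Fin n, c (tenL (bx c0 δ m) (D.J (ξ' p m)))) := by
    rw [iota_eq_inR D, map_sum]
    exact Finset.sum_congr rfl fun l _ => by rw [hR, map_sum]
  rw [mul_apply_eq_comp, ← ContinuousLinearMap.adjoint_inner_left,
    ← ContinuousLinearMap.star_eq_adjoint, eL, eR]
  simp only [sum_inner, inner_sum, inner_inL_inR, map_sum, e, entry_star, star_star, LR, compress]
  exact (Finset.sum_congr rfl fun p _ => Finset.sum_comm).trans (Finset.sum_comm.trans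
    ((Finset.sum_congr rfl fun l _ => (Finset.sum_congr rfl fun p _ => Finset.sum_comm).trans
      Finset.sum_comm).trans Finset.sum_comm))

/-! ### Words -/

variable {N : ℕ} (a : Fin N → H →L[ℂ] H)

/-- The generators of the words. -/
def Dop (j : Fin N) : K2 H →L[ℂ] K2 H := AL D hki (a j) - AR D hki (a j)

/-- A word splits as a left times a right copy of one unitary on `K1`. -/
structure Split (U : K2 H →L[ℂ] K2 H) where
  c : K1 H →L[ℂ] K1 H
  cL : K2 H →L[ℂ] K2 H
  cR : K2 H →L[ℂ] K2 H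
  eq : U = cL * cR
  relLs : RelL (star c) (star cL)
  relR : RelR D c cR
  commR : ∀ j, Commute cL (AR D hki (a j))
  inAlg : InAlg (S := S) c
  invariant : Invariant D c
  star_mul : star c * c = 1
  mul_star : c * star c = 1

include hk

theorem exists_split (ha : ∀ j, a j ∈ S.M) (hsa : ∀ j, IsSelfAdjoint (a j))
    {U : K2 H →L[ℂ] K2 H} (hU : U ∈ Coherence.words (Dop D hki a)) :
    Nonempty (Split D hki a U) := by
  have gen : ∀ (j : Fin N) (z : ℂ), conj z = -z → ∀ {V : K2 H →L[ℂ] K2 H},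
      Split D hki a V → Nonempty (Split D hki a (NormedSpace.exp (z • Dop D hki a j) * V)) :=
    fun j z hz V t => by
    have hcomm : Commute (z • AL D hki (a j)) (-(z • AR D hki (a j))) :=
      (((commute_AL_AR D hki (ha j) (ha j)).smul_left z).smul_right z).neg_right
    have hA := isSelfAdjoint_Aop D hki hk (hsa j)
    have hAL := isSelfAdjoint_AL D hki hk (hsa j)
    have hun : NormedSpace.exp (z • Aop D hki (a j)) ∈ unitary (K1 H →L[ℂ] K1 H) := by
      let : NormedAlgebra ℚ (K1 H →L[ℂ] K1 H) := NormedAlgebra.restrictScalars ℚ ℂ _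
      refine exp_mem_unitary_of_mem_skewAdjoint ?_
      rw [skewAdjoint.mem_iff, star_smul, hA.star_eq, Complex.star_def, hz, neg_smul]
    set e := NormedSpace.exp (z • Aop D hki (a j)) with he
    set eL := NormedSpace.exp (z • AL D hki (a j)) with heL
    set eR := NormedSpace.exp (-(z • AR D hki (a j))) with heR
    have hsplit : NormedSpace.exp (z • Dop D hki a j) = eL * eR := by
      let : NormedAlgebra ℚ (K2 H →L[ℂ] K2 H) := NormedAlgebra.restrictScalars ℚ ℂ _
      rw [heL, heR, ← NormedSpace.exp_add_of_commute hcomm, Dop, smul_sub, sub_eq_add_neg]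
    have hRs : Commute eR t.cL := (((t.commR j).symm.smul_left z).neg_left).exp_left
    refine ⟨⟨e * t.c, eL * t.cL, eR * t.cR, ?_, ?_, ?_, ?_, ?_, ?_, ?_, ?_⟩⟩
    · rw [hsplit]
      refine (congrArg (eL * eR * ·) t.eq).trans ?_
      rw [mul_assoc eL, ← mul_assoc eR, hRs.eq, mul_assoc t.cL, ← mul_assoc eL]
    · rw [star_mul, star_mul]
      refine RelL.mul t.relLs ?_
      rw [he, heL, star_exp, star_exp, star_smul, star_smul, hA.star_eq, hAL.star_eq]
      have h : RelL (Aop D hki (a j)) (AL D hki (a j)) := AL_inL D hki (a j)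
      exact (h.smul _).exp
    · refine RelR.mul D ?_ t.relR
      have h0 : RelR D (Aop D hki (a j)) (AR D hki (a j)) := AR_inR D hki (a j)
      have h := h0.smul D z
      rw [hz, neg_smul] at h
      exact h.exp D
    · exact fun i => ((((commute_AL_AR D hki (ha j) (ha i)).smul_left z).exp_left).mul_left
        (t.commR i))
    · intro m hm F
      have h : Commute (lift m) (Aop D hki (a j)) :=
        ContinuousLinearMap.ext fun G => Aop_inAlg D hki (ha j) m hm G
      have h2 : Commute (lift m) t.c := ContinuousLinearMap.ext fun G => t.inAlg m hm G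
      exact congrArg (fun T : K1 H →L[ℂ] K1 H => T F) ((h.smul_right z).exp_right.mul_right h2).eq
    · intro s F
      have h : Commute (Tt D s) (Aop D hki (a j)) :=
        ContinuousLinearMap.ext fun G => Aop_invariant D hki (a j) s G
      have h2 : Commute (Tt D s) t.c := ContinuousLinearMap.ext fun G => t.invariant s G
      exact congrArg (fun T : K1 H →L[ℂ] K1 H => T F) ((h.smul_right z).exp_right.mul_right h2).eq
    · rw [star_mul, mul_assoc, ← mul_assoc (star e), (Unitary.mem_iff.1 hun).1, one_mul, t.star_mul]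
    · rw [star_mul, mul_assoc, ← mul_assoc t.c, t.mul_star, one_mul, (Unitary.mem_iff.1 hun).2]
  unfold Coherence.words at hU
  induction hU using Submonoid.closure_induction_left with
  | one =>
    exact ⟨⟨1, 1, 1, (mul_one 1).symm, by simp only [star_one]; exact fun _ _ => rfl,
      fun _ _ => rfl, fun j => Commute.one_left _, fun _ _ _ => rfl, fun _ _ => rfl,
      by simp, by simp⟩⟩
  | mul_left U hU V _ iV =>
    obtain ⟨t⟩ := iV
    rcases hU with ⟨j, rfl⟩ | ⟨j, rfl⟩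
    · exact gen j I Complex.conj_I t
    · dsimp only
      rw [← neg_smul]
      exact gen j (-I) (by simp) t

/-- The compressed expectation of a word is that of `LR D e` for `e` the compression of a unitary. -/
theorem word_compress (ha : ∀ j, a j ∈ S.M) (hsa : ∀ j, IsSelfAdjoint (a j))
    {U : K2 H →L[ℂ] K2 H} (hU : U ∈ Coherence.words (Dop D hki a)) :
    ∃ c : K1 H →L[ℂ] K1 H, star c * c = 1 ∧ c * star c = 1 ∧ Invariant D c ∧
      InAlg (S := S) c ∧ ∀ (c0 δ : ℝ) {n : ℕ} (ξ ξ' : Fin n → Fin n → H),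
        ⟪iota c0 δ ξ, U (iota c0 δ ξ')⟫_ℂ = ∑ k, ∑ l, ⟪ξ k l, LR D (compress c0 δ c) ξ' k l⟫_ℂ := by
  obtain ⟨s⟩ := exists_split D hki hk a ha hsa hU
  exact ⟨s.c, s.star_mul, s.mul_star, s.invariant, s.inAlg, fun c0 δ n ξ ξ' => by
    exact (congrArg (fun T : K2 H →L[ℂ] K2 H => ⟪iota c0 δ ξ, T (iota c0 δ ξ')⟫_ℂ) s.eq).trans
      (inner_iota_apply D c0 δ s.relLs s.relR ξ ξ')⟩

theorem isSelfAdjoint_Dop (hsa : ∀ j, IsSelfAdjoint (a j)) (j : Fin N) :
    IsSelfAdjoint (Dop D hki a j) :=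
  (isSelfAdjoint_AL D hki hk (hsa j)).sub (isSelfAdjoint_AR D hki hk (hsa j))

omit hk

theorem norm_Dop_le (j : Fin N) : ‖Dop D hki a j‖ ≤ 2 * ‖a j‖ * (∫ u, ‖k u‖) ^ 2 := by
  refine (norm_sub_le _ _).trans ?_
  linarith [norm_AL_le D hki (a j), norm_AR_le D hki (a j)]

theorem norm_eq_one_of_unitary [Nontrivial (K1 H)] {c : K1 H →L[ℂ] K1 H} (h : star c * c = 1) :
    ‖c‖ = 1 := by
  have := CStarRing.norm_star_mul_self (x := c)
  rw [h, norm_one] at this
  nlinarith [norm_nonneg c]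

theorem norm_le_one_of_unitary {c : K1 H →L[ℂ] K1 H} (h : star c * c = 1) : ‖c‖ ≤ 1 := by
  refine c.opNorm_le_bound zero_le_one fun F => ?_
  rw [one_mul, ← pow_le_pow_iff_left₀ (norm_nonneg _) (norm_nonneg _) two_ne_zero]
  refine le_of_eq ?_
  have e : ⟪c F, c F⟫_ℂ = ⟪F, F⟫_ℂ := by
    rw [← ContinuousLinearMap.adjoint_inner_right, ← ContinuousLinearMap.star_eq_adjoint,
      ← mul_apply_eq_comp, h, one_apply_eq_self]
  rw [inner_self_eq_norm_sq_to_K, inner_self_eq_norm_sq_to_K] at e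
  exact_mod_cast e

end WithModular

end P132.Core
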