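import Vale.Agent.P132.Core.Ops

/-!
# P132 core: smeared translations act by convolution almost everywhere
-/

noncomputable section

set_option linter.unusedSectionVars false

namespace P132.Core

open MeasureTheory Filter Topology Complex Set
open scoped InnerProductSpace

variable {H : Type*} [NormedAddCommGroup H] [InnerProductSpace ℂ H] [CompleteSpace H]
variable {G : Type*} [AddCommGroup G] [TopologicalSpace G] [MeasurableSpace G] [BorelSpace G]
  [IsTopologicalAddGroup G] [SecondCountableTopology G] [TopologicalSpace.PseudoMetrizableSpace G]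
  [MeasurableAdd G] {μ : Measure G} [μ.IsAddRightInvariant] [SigmaFinite μ]

lemma aestronglyMeasurable_sub (L : ℝ → G) (hL : Continuous L) (f : Lp H 2 μ) :
    AEStronglyMeasurable (fun p : ℝ × G => (f : G → H) (p.2 - L p.1)) (volume.prod μ) := by
  have hm : Measurable (Function.uncurry fun (u : ℝ) (x : G) => x - L u) :=
    (continuous_snd.sub (hL.comp continuous_fst)).measurable
  have h := (MeasurePreserving.id (volume : Measure ℝ)).skew_product (g := fun u x => x - L u) hm
    (Eventually.of_forall fun u => (measurePreserving_sub_right μ (L u)).map_eq)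
  exact ((Lp.aestronglyMeasurable f).comp_snd).comp_measurePreserving h

/-- A smeared translation group acts by convolution. -/
theorem coeFn_smear_tr (k : ℝ → ℂ) (hk : Integrable k) (L : ℝ → G) (hL : Continuous L)
    (T : OpField ℝ (Lp H 2 μ)) (hT : ∀ u g, T u g = tr μ (L u) g) (f : Lp H 2 μ) :
    (smear k hk T f : G → H) =ᵐ[μ] fun x => ∫ u, k u • (f : G → H) (x - L u) := by
  have hmeas : AEStronglyMeasurable (fun p : ℝ × G => k p.1 • (f : G → H) (p.2 - L p.1))
      (volume.prod μ) :=
    hk.aestronglyMeasurable.comp_fst.smul (aestronglyMeasurable_sub L hL f)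
  have hsq : Integrable (fun x => ‖(f : G → H) x‖ ^ 2) μ := (Lp.memLp f).integrable_norm_pow (by norm_num)
  have hint : ∀ s : Set G, MeasurableSet s → μ s < ⊤ →
      Integrable (fun p : ℝ × G => k p.1 • (f : G → H) (p.2 - L p.1))
        (volume.prod (μ.restrict s)) := by
    intro s hs hμs
    have : IsFiniteMeasure (μ.restrict s) := isFiniteMeasure_restrict.2 hμs.ne
    have hm' : AEStronglyMeasurable (fun p : ℝ × G => k p.1 • (f : G → H) (p.2 - L p.1))
        (volume.prod (μ.restrict s)) :=
      hmeas.mono_ac (Measure.AbsolutelyContinuous.prod Measure.AbsolutelyContinuous.rfl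
        Measure.restrict_le_self.absolutelyContinuous)
    have hone : ∀ u, Integrable (fun x => (1 : ℝ) + ‖(f : G → H) (x - L u)‖ ^ 2) (μ.restrict s) :=
      fun u => (integrable_const _).add
        ((hsq.comp_sub_right (L u)).mono_measure Measure.restrict_le_self)
    have hone' : ∀ u, ∫ x in s, (1 : ℝ) + ‖(f : G → H) (x - L u)‖ ^ 2 ∂μ ≤
        μ.real s + ∫ x, ‖(f : G → H) x‖ ^ 2 ∂μ := by
      intro u
      rw [integral_add (integrable_const _)
        ((hsq.comp_sub_right (L u)).mono_measure Measure.restrict_le_self), integral_const,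
        measureReal_restrict_apply_univ, smul_eq_mul, mul_one]
      refine add_le_add le_rfl ((setIntegral_le_integral (hsq.comp_sub_right (L u))
        (Eventually.of_forall fun x => sq_nonneg _)).trans_eq ?_)
      exact integral_sub_right_eq_self (fun x => ‖(f : G → H) x‖ ^ 2) (L u)
    have hbd : ∀ u x, ‖k u • (f : G → H) (x - L u)‖ ≤
        ‖k u‖ * ((1 : ℝ) + ‖(f : G → H) (x - L u)‖ ^ 2) := fun u x => by
      rw [norm_smul]
      refine mul_le_mul_of_nonneg_left ?_ (norm_nonneg _)
      nlinarith [sq_nonneg (‖(f : G → H) (x - L u)‖ - 1), norm_nonneg ((f : G → H) (x - L u))]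
    refine (integrable_prod_iff hm').2 ⟨?_, ?_⟩
    · filter_upwards [hm'.prodMk_left] with u hu
      exact ((hone u).const_mul ‖k u‖).mono' hu (Eventually.of_forall fun x => hbd u x)
    · refine (hk.norm.mul_const (μ.real s + ∫ x, ‖(f : G → H) x‖ ^ 2 ∂μ)).mono'
        hm'.norm.integral_prod_right' (Eventually.of_forall fun u => ?_)
      rw [Real.norm_of_nonneg (integral_nonneg fun x => norm_nonneg _)]
      refine (integral_mono_of_nonneg (Eventually.of_forall fun x => norm_nonneg _)
        ((hone u).const_mul ‖k u‖) (Eventually.of_forall fun x => hbd u x)).trans ?_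
      rw [integral_const_mul]
      exact mul_le_mul_of_nonneg_left (hone' u) (norm_nonneg _)
  refine ae_eq_of_forall_setIntegral_eq_of_sigmaFinite
    (fun s hs hμs => ?_) (fun s hs hμs => (hint s hs hμs).integral_prod_right) fun s hs hμs => ?_
  · have : Fact (μ s < ⊤) := ⟨hμs⟩
    exact ((Lp.memLp (smear k hk T f)).restrict s).integrable (by norm_num)
  refine ext_inner_left ℂ fun v => ?_
  rw [← L2.inner_indicatorConstLp_eq_inner_setIntegral (𝕜 := ℂ) hs hμs.ne, smear_apply]
  refine (integral_inner (𝕜 := ℂ) (integrable_smear hk T f) _).symm.trans ?_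
  rw [← integral_integral_swap (f := fun u x => k u • (f : G → H) (x - L u)) (hint s hs hμs),
    ← integral_inner (hint s hs hμs).integral_prod_left]
  refine integral_congr_ae ?_
  filter_upwards [(hint s hs hμs).prod_right_ae] with u hu
  rw [hT, L2.inner_indicatorConstLp_eq_setIntegral_inner, ← integral_inner hu]
  refine setIntegral_congr_ae hs ?_
  filter_upwards [Lp.coeFn_smul (k u) (tr μ (L u) f), coeFn_tr (L u) f] with x h1 h2 _
  rw [h1, Pi.smul_apply, h2]

end P132.Core
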