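import Vale.Agent.P132.Core.Packet
import Vale.Agent.P132.Core.Model2
import Vale.Agent.P132.Core.SmearAE
import Vale.Agent.P132.Sigma

/-!
# P132 core: the generators of the words almost annihilate the packets

`A = C π(a) C` acting on the left and on the right of a packet `χ ((τ + s) / T) K (τ - τ') Ω` give
the same function up to `O (1 / T)`; the identity behind this is a shift of the line of integration
by `i / 2`.
-/

noncomputable section

set_option linter.unusedSectionVars false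

namespace P132.Core

open MeasureTheory Filter Topology Complex Set
open scoped InnerProductSpace ComplexConjugate

/-! ### Transforms -/

/-- `f ν e^{-π ν}`. -/
def expHalf (f : ℝ → ℂ) (ν : ℝ) : ℂ := f ν * ((Real.exp (-(Real.pi * ν)) : ℝ) : ℂ)

lemma contDiff_expHalf_factor (n : ℕ) :
    ContDiff ℝ n fun ν : ℝ => ((Real.exp (-(Real.pi * ν)) : ℝ) : ℂ) :=
  Complex.ofRealCLM.contDiff.comp (Real.contDiff_exp.comp ((contDiff_const.mul contDiff_id).neg))

lemma Bump.expHalf {f : ℝ → ℂ} (hf : Bump f) : Bump (expHalf f) :=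
  hf.mul contDiff_expHalf_factor

lemma pext_add_half (f : ℝ → ℂ) (x : ℝ) : pext f (x + I / 2) = pwave (expHalf f) x := by
  unfold pext pwave wave expHalf
  congr 1
  ext ν
  push_cast
  rw [mul_comm (cexp _), mul_assoc (f ν), ← Complex.exp_add]
  congr 2
  ring_nf
  rw [Complex.I_sq]
  ring

lemma pext_expHalf_sub_half (f : ℝ → ℂ) (x : ℝ) :
    pext (expHalf f) (x - I / 2) = pwave f x := by
  unfold pext pwave wave expHalf
  congr 1
  ext ν
  push_cast
  rw [mul_comm (cexp _), mul_assoc (f ν), ← Complex.exp_add]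
  congr 2
  ring_nf
  rw [Complex.I_sq]
  ring

lemma conj_wave (ν τ : ℝ) : conj (wave ν τ) = wave ν (-τ) := by
  rw [wave, wave, ← Complex.exp_conj]
  congr 1
  simp only [map_mul, Complex.conj_ofReal, Complex.conj_I]
  push_cast
  ring

lemma pwave_neg {f : ℝ → ℂ} (hf : ∀ ν, conj (f ν) = f ν) (u : ℝ) :
    pwave f (-u) = conj (pwave f u) := by
  unfold pwave
  rw [← integral_conj]
  simp only [map_mul, conj_wave, hf]

/-- The derivative of the transform of a bump decays. -/
lemma exists_pwave_diff {f : ℝ → ℂ} (hf : Bump f) :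
    ∃ C : ℝ, 0 ≤ C ∧ ∀ x y : ℝ,
      ‖pwave f x - pwave f y‖ ≤ C * (wgt y)⁻¹ * wgt (x - y) * |x - y| := by
  obtain ⟨C, hC0, hC⟩ := exists_decay hf 1 1
  have hd : ∀ s : ℝ, ‖deriv (pext f) s‖ ≤ 4 * C * (wgt s)⁻¹ := by
    intro s
    have h : ∀ z ∈ Metric.sphere (s : ℂ) 1, ‖pext f z‖ ≤ 4 * C * (wgt s)⁻¹ := by
      intro z hz
      rw [mem_sphere_iff_norm] at hz
      have him : |z.im| ≤ 1 := by
        simpa [hz] using Complex.abs_im_le_norm (z - s)
      have hre : |z.re - s| ≤ 1 := by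
        simpa [hz] using Complex.abs_re_le_norm (z - s)
      refine (hC z him).trans ?_
      rw [pow_one]
      have h1 : wgt s ≤ 4 * wgt z.re := by
        have := wgt_add_le z.re (s - z.re)
        rw [add_sub_cancel] at this
        have h2 : wgt (s - z.re) ≤ 2 := by
          simp only [wgt]
          nlinarith [sq_abs (z.re - s), abs_nonneg (z.re - s)]
        nlinarith [one_le_wgt z.re]
      rw [mul_comm 4 C, mul_assoc]
      refine mul_le_mul_of_nonneg_left ?_ hC0
      rw [← div_eq_mul_inv, inv_eq_one_div, div_le_div_iff₀ (wgt_pos _) (wgt_pos _), one_mul]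
      linarith
    simpa using Complex.norm_deriv_le_of_forall_mem_sphere_norm_le one_pos
      ((differentiable_pext hf).diffContOnCl) h
  refine ⟨8 * C, by positivity, fun x y => ?_⟩
  have hder : ∀ s : ℝ, HasDerivAt (fun t : ℝ => pwave f t) (deriv (pext f) s) s := fun s => by
    have h := ((differentiable_pext hf) (s : ℂ)).hasDerivAt.comp_ofReal
    simpa only [pext_ofReal] using h
  refine Convex.norm_image_sub_le_of_norm_hasDerivWithin_le (s := Set.uIcc y x)
    (C := 8 * C * (wgt y)⁻¹ * wgt (x - y)) (fun s _ => (hder s).hasDerivWithinAt) (fun s hs => ?_)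
    (convex_uIcc y x) Set.left_mem_uIcc Set.right_mem_uIcc |>.trans_eq (by rw [Real.norm_eq_abs])
  refine (hd s).trans ?_
  have hsy := Set.abs_sub_left_of_mem_uIcc hs
  have h1 : wgt (y - s) ≤ wgt (x - y) := by
    simp only [wgt]
    nlinarith [sq_abs (y - s), sq_abs (x - y), abs_sub_comm y s, abs_nonneg (y - s)]
  have h2 : wgt y ≤ 2 * (wgt s * wgt (y - s)) := by
    have := wgt_add_le s (y - s)
    rwa [add_sub_cancel] at this
  have h3 : wgt y ≤ 2 * (wgt s * wgt (x - y)) :=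
    h2.trans (by have := (wgt_pos s).le; gcongr)
  rw [show 8 * C * (wgt y)⁻¹ * wgt (x - y) = 4 * C * (2 * wgt (x - y) / wgt y) by ring]
  refine mul_le_mul_of_nonneg_left ?_ (by positivity)
  rw [inv_eq_one_div, div_le_div_iff₀ (wgt_pos _) (wgt_pos _), one_mul]
  linarith

/-- Two decaying factors convolve to a decaying factor. -/
lemma norm_integral_le_conv {E : Type*} [NormedAddCommGroup E] [NormedSpace ℝ E] {f : ℝ → E}
    {C a b : ℝ} (hC : 0 ≤ C) (h : ∀ w, ‖f w‖ ≤ C * ((wgt (a - w)) ^ 2)⁻¹ * (wgt (w - b))⁻¹) :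
    ‖∫ w, f w‖ ≤ 2 * Real.pi * C * (wgt (a - b))⁻¹ := by
  have hb : ∀ w, ‖f w‖ ≤ 2 * C * (wgt (a - b))⁻¹ * (wgt (a - w))⁻¹ := fun w => by
    refine (h w).trans ?_
    rw [pow_two, mul_inv, mul_assoc, mul_assoc (wgt (a - w))⁻¹]
    have := inv_wgt_le (a - w) (w - b)
    rw [sub_add_sub_cancel] at this
    refine (mul_le_mul_of_nonneg_left (mul_le_mul_of_nonneg_left this
      (inv_nonneg.2 (wgt_pos _).le)) hC).trans_eq ?_
    ring
  refine (norm_integral_le_of_norm_le
    (((integrable_inv_one_add_sq).comp_sub_left a).const_mul _)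
    (Eventually.of_forall hb)).trans_eq ?_
  rw [integral_const_mul, integral_sub_left_eq_self (fun y => (1 + y ^ 2)⁻¹) volume a,
    integral_univ_inv_one_add_sq]
  ring

/-- The square of the `L²` norm. -/
lemma lp_norm_sq {α E : Type*} [MeasurableSpace α] {μ : Measure α} [NormedAddCommGroup E]
    [InnerProductSpace ℂ E] (G : Lp E 2 μ) : ‖G‖ ^ 2 = ∫ x, ‖G x‖ ^ 2 ∂μ := by
  have h : ((‖G‖ ^ 2 : ℝ) : ℂ) = ((∫ x, ‖G x‖ ^ 2 ∂μ : ℝ) : ℂ) := by
    rw [Complex.ofReal_pow, ← integral_complex_ofReal]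
    refine (inner_self_eq_norm_sq_to_K (𝕜 := ℂ) G).symm.trans ?_
    rw [L2.inner_def]
    refine integral_congr_ae (Eventually.of_forall fun x => ?_)
    simp only [inner_self_eq_norm_sq_to_K]
    push_cast
    rfl
  exact_mod_cast h

/-! ### Almost everywhere formulas -/

section AE

variable {H : Type*} [NormedAddCommGroup H] [InnerProductSpace ℂ H] [CompleteSpace H]
variable {G : Type*} [AddCommGroup G] [TopologicalSpace G] [MeasurableSpace G] [BorelSpace G]
  [IsTopologicalAddGroup G] [SecondCountableTopology G] [TopologicalSpace.PseudoMetrizableSpace G]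
  [MeasurableAdd G] {μ : Measure G} [μ.IsAddRightInvariant] [SigmaFinite μ]

/-- Convolution of a representative. -/
theorem ae_smear_tr (k : ℝ → ℂ) (hk : Integrable k) (L : ℝ → G) (hL : Continuous L)
    (T : OpField ℝ (Lp H 2 μ)) (hT : ∀ u g, T u g = tr μ (L u) g) {f : Lp H 2 μ} {g : G → H}
    (hfg : (f : G → H) =ᵐ[μ] g) :
    (smear k hk T f : G → H) =ᵐ[μ] fun x => ∫ u, k u • g (x - L u) := by
  have hm : Measurable (Function.uncurry fun (u : ℝ) (x : G) => x - L u) :=
    (continuous_snd.sub (hL.comp continuous_fst)).measurable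
  have hmp := (MeasurePreserving.id (volume : Measure ℝ)).skew_product (g := fun u x => x - L u) hm
    (Eventually.of_forall fun u => (measurePreserving_sub_right μ (L u)).map_eq)
  have h1 : ∀ᵐ p : ℝ × G ∂((volume : Measure ℝ).prod μ),
      (f : G → H) (p.2 - L p.1) = g (p.2 - L p.1) :=
    hmp.quasiMeasurePreserving.ae ((Measure.quasiMeasurePreserving_snd).ae hfg)
  have h2 : ∀ᵐ x ∂μ, ∀ᵐ u : ℝ, (f : G → H) (x - L u) = g (x - L u) :=
    Measure.ae_ae_of_ae_prod (p := fun q : G × ℝ => (f : G → H) (q.1 - L q.2) = g (q.1 - L q.2))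
      ((Measure.measurePreserving_swap).quasiMeasurePreserving.ae h1)
  filter_upwards [coeFn_smear_tr k hk L hL T hT f, h2] with x hx hx2
  rw [hx]
  exact integral_congr_ae (hx2.mono fun u hu => by simp only [hu])

variable {S : Std H} (D : Modular S) {k : ℝ → ℂ} (hki : Integrable k)

theorem ae_cgL {F : K2 H} {f : ℝ × ℝ → H} (h : (F : ℝ × ℝ → H) =ᵐ[volume] f) :
    (cgL hki F : ℝ × ℝ → H) =ᵐ[volume] fun q => ∫ u, k (q.1 - u) • f (u, q.2) := by
  refine (ae_smear_tr k hki (fun u => ((u, 0) : ℝ × ℝ)) (by fun_prop) trFieldL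
    (fun u g => rfl) h).trans (Eventually.of_forall fun q => ?_)
  dsimp only
  rw [← integral_sub_left_eq_self (fun u => k (q.1 - u) • f (u, q.2)) volume q.1]
  simp [Prod.sub_def]

theorem ae_cgR (hk : ∀ u, k (-u) = conj (k u)) {F : K2 H} {f : ℝ × ℝ → H}
    (h : (F : ℝ × ℝ → H) =ᵐ[volume] f) :
    (cgR hki F : ℝ × ℝ → H) =ᵐ[volume] fun q => ∫ u, k (u - q.2) • f (q.1, u) := by
  refine (ae_smear_tr _ (integrable_conjk hki) (fun u => ((0, u) : ℝ × ℝ)) (by fun_prop) trFieldR
    (fun u g => rfl) h).trans (Eventually.of_forall fun q => ?_)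
  dsimp only
  rw [← integral_sub_left_eq_self (fun u => k (u - q.2) • f (q.1, u)) volume q.2]
  simp [hk, Prod.sub_def]

theorem ae_mulL (a : H →L[ℂ] H) {F : K2 H} {f : ℝ × ℝ → H}
    (h : (F : ℝ × ℝ → H) =ᵐ[volume] f) :
    (mulL D a F : ℝ × ℝ → H) =ᵐ[volume] fun q => D.σ q.1 a (f q) := by
  filter_upwards [(fieldL D a).coeFn_mulOp F, h] with q h1 h2
  rw [mulL, h1, h2]
  rfl

theorem ae_mulR (a : H →L[ℂ] H) {F : K2 H} {f : ℝ × ℝ → H}
    (h : (F : ℝ × ℝ → H) =ᵐ[volume] f) :
    (mulR D a F : ℝ × ℝ → H) =ᵐ[volume] fun q => conjJ D (D.σ q.2 a) (f q) := by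
  filter_upwards [(fieldR D a).coeFn_mulOp F, h] with q h1 h2
  rw [mulR, h1, h2]
  rfl

theorem ae_AL (a : H →L[ℂ] H) {F : K2 H} {f : ℝ × ℝ → H}
    (h : (F : ℝ × ℝ → H) =ᵐ[volume] f) :
    (AL D hki a F : ℝ × ℝ → H) =ᵐ[volume] fun q =>
      ∫ u, k (q.1 - u) • D.σ u a (∫ w, k (u - w) • f (w, q.2)) := by
  exact ae_cgL hki (ae_mulL D a (ae_cgL hki h))

theorem ae_AR (hk : ∀ u, k (-u) = conj (k u)) (a : H →L[ℂ] H) {F : K2 H} {f : ℝ × ℝ → H}
    (h : (F : ℝ × ℝ → H) =ᵐ[volume] f) :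
    (AR D hki a F : ℝ × ℝ → H) =ᵐ[volume] fun q =>
      ∫ u, k (u - q.2) • conjJ D (D.σ u a) (∫ w, k (w - u) • f (q.1, w)) := by
  exact ae_cgR hki hk (ae_mulR D a (ae_cgR hki hk h))

theorem ae_lift2 (x : H →L[ℂ] H) {F : K2 H} {f : ℝ × ℝ → H}
    (h : (F : ℝ × ℝ → H) =ᵐ[volume] f) :
    (lift2 x F : ℝ × ℝ → H) =ᵐ[volume] fun q => x (f q) := by
  filter_upwards [(constField x).coeFn_mulOp F, h] with q h1 h2
  rw [lift2, h1, h2]
  rfl

end AE

/-! ### The identity and the estimate -/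

variable {H : Type*} [NormedAddCommGroup H] [InnerProductSpace ℂ H] [CompleteSpace H]

/-- The bumps of one run: a packet, a real window `g`, and the compatibility between them. -/
structure Window extends PacketData where
  g : ℝ → ℂ
  hg : Bump g
  g_real : ∀ ν, conj (g ν) = g ν
  kk_g : ∀ ν, kk ν * g ν = expHalf g ν

/-- An element with entire orbit, bounded on a strip. -/
structure Orbit {S : Std H} (D : Modular S) where
  a : H →L[ℂ] H
  mem : a ∈ S.M
  sa : IsSelfAdjoint a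
  F : ℂ → H →L[ℂ] H
  F_diff : Differentiable ℂ F
  F_mem : ∀ z, F z ∈ S.M
  F_real : ∀ t : ℝ, F t = D.σ t a
  B : ℝ
  F_bound : ∀ z : ℂ, |z.im| ≤ 1 → ‖F z‖ ≤ B

namespace Window

variable (W : Window)

/-- The smearing kernel. -/
def k : ℝ → ℂ := pwave W.g

lemma hki : Integrable W.k := integrable_pwave W.hg

lemma hk (u : ℝ) : W.k (-u) = conj (W.k u) := pwave_neg W.g_real u

/-- The kernel of the product. -/
def Ke : ℝ → ℂ := pwave (expHalf W.g)

lemma continuous_k : Continuous W.k := continuous_pwave W.hg.integrable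

lemma continuous_Ke : Continuous W.Ke := continuous_pwave W.hg.expHalf.integrable

lemma exists_Ke_bound : ∃ C : ℝ, ∀ x, ‖W.Ke x‖ ≤ C := ⟨_, pwave_le _⟩

/-- The packet seen from `(s, s)`. -/
def pfn (T s : ℝ) (q : ℝ × ℝ) : ℂ := pwave W.β ((q.1 + s) / T) * pwave W.kk (q.1 - q.2)

/-- The first smearing of a packet. -/
def cT (T s u t' : ℝ) : ℂ := ∫ w, W.k (u - w) * W.pfn T s (w, t')

/-- Smearing against `Φ`. -/
def full (T s : ℝ) (Φ : ℝ → H) (q : ℝ × ℝ) : H :=
  ∫ u, (W.k (q.1 - u) * W.cT T s u q.2) • Φ u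

/-- The main term. -/
def psi (Φ : ℝ → H) (q : ℝ × ℝ) : H := ∫ u, (W.k (q.1 - u) * W.Ke (u - q.2)) • Φ u

lemma psi_eq (Φ : ℝ → H) (q : ℝ × ℝ) :
    W.psi Φ q = ∫ v, (W.k v * W.Ke (q.1 - v - q.2)) • Φ (q.1 - v) := by
  rw [psi, ← integral_sub_left_eq_self _ volume q.1]
  simp

lemma continuous_psi {Φ : ℝ → H} (hΦ : Continuous Φ) {B : ℝ} (hB : ∀ u, ‖Φ u‖ ≤ B) :
    Continuous (W.psi Φ) := by
  obtain ⟨C, hC⟩ := W.exists_Ke_bound
  rw [funext (W.psi_eq Φ)]
  refine continuous_of_dominated (bound := fun v => ‖W.k v‖ * C * B) (fun q => ?_)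
    (fun q => Eventually.of_forall fun v => ?_) ((W.hki.norm.mul_const C).mul_const B)
    (Eventually.of_forall fun v => ?_)
  · exact ((W.continuous_k.mul (W.continuous_Ke.comp (by fun_prop))).smul
      (hΦ.comp (by fun_prop))).aestronglyMeasurable
  · rw [norm_smul, norm_mul]
    have := (norm_nonneg _).trans (hC 0)
    exact mul_le_mul (mul_le_mul_of_nonneg_left (hC _) (norm_nonneg _)) (hB _) (norm_nonneg _)
      (by positivity)
  · exact (continuous_const.mul (W.continuous_Ke.comp (by fun_prop))).smul (hΦ.comp (by fun_prop))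

lemma exists_psi_bound : ∃ C : ℝ, 0 ≤ C ∧ ∀ (Φ : ℝ → H) (B : ℝ), (∀ u, ‖Φ u‖ ≤ B) →
    ∀ q, ‖W.psi Φ q‖ ≤ C * B := by
  obtain ⟨C, hC⟩ := W.exists_Ke_bound
  have hC0 := (norm_nonneg _).trans (hC 0)
  refine ⟨(∫ v, ‖W.k v‖) * C, mul_nonneg (integral_nonneg fun _ => norm_nonneg _) hC0,
    fun Φ B hB q => ?_⟩
  rw [psi_eq, ← integral_mul_const, ← integral_mul_const]
  refine norm_integral_le_of_norm_le ((W.hki.norm.mul_const C).mul_const B)
    (Eventually.of_forall fun v => ?_)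
  rw [norm_smul, norm_mul]
  exact mul_le_mul (mul_le_mul_of_nonneg_left (hC _) (norm_nonneg _)) (hB _) (norm_nonneg _)
    (by positivity)

lemma conv_k_kk (u t' : ℝ) :
    ∫ w, W.k (u - w) * pwave W.kk (w - t') = W.Ke (u - t') := by
  rw [k, pwave_conv W.hg W.hkk, Ke]
  simp only [mul_comm (W.g _), W.kk_g]

lemma conv_kk_k (t u : ℝ) :
    ∫ w, W.k (w - u) * pwave W.kk (t - w) = W.Ke (t - u) := by
  rw [show (fun w => W.k (w - u) * pwave W.kk (t - w)) =
    fun w => pwave W.kk (t - w) * pwave W.g (w - u) from funext fun w => mul_comm _ _,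
    pwave_conv W.hkk W.hg, Ke]
  simp only [W.kk_g]

lemma continuous_cT (T s t' : ℝ) : Continuous fun u => W.cT T s u t' := by
  have e : ∀ u, W.cT T s u t' = ∫ v, W.k v * W.pfn T s (u - v, t') := fun u => by
    rw [cT, ← integral_sub_left_eq_self _ volume u]
    simp
  rw [funext e]
  refine continuous_of_dominated
    (bound := fun v => ‖W.k v‖ * ((∫ ν, ‖W.β ν‖) * ∫ ν, ‖W.kk ν‖)) (fun q => ?_)
    (fun q => Eventually.of_forall fun v => ?_) (W.hki.norm.mul_const _)
    (Eventually.of_forall fun v => ?_)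
  · exact (W.continuous_k.mul (((continuous_pwave W.hβ.integrable).comp (by fun_prop)).mul
      ((continuous_pwave W.hkk.integrable).comp (by fun_prop)))).aestronglyMeasurable
  · rw [norm_mul, pfn, norm_mul]
    exact mul_le_mul_of_nonneg_left (mul_le_mul (pwave_le _ _) (pwave_le _ _) (norm_nonneg _)
      (integral_nonneg fun _ => norm_nonneg _)) (norm_nonneg _)
  · exact continuous_const.mul (((continuous_pwave W.hβ.integrable).comp (by fun_prop)).mul
      ((continuous_pwave W.hkk.integrable).comp (by fun_prop)))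

lemma norm_cT_le (T s u t' : ℝ) :
    ‖W.cT T s u t'‖ ≤ (∫ v, ‖W.k v‖) * ((∫ ν, ‖W.β ν‖) * ∫ ν, ‖W.kk ν‖) := by
  rw [cT, ← integral_sub_left_eq_self (fun v => ‖W.k v‖) volume u, ← integral_mul_const]
  refine norm_integral_le_of_norm_le ((W.hki.comp_sub_left u).norm.mul_const _)
    (Eventually.of_forall fun w => ?_)
  rw [norm_mul, pfn, norm_mul]
  exact mul_le_mul_of_nonneg_left (mul_le_mul (pwave_le _ _) (pwave_le _ _) (norm_nonneg _)
    (integral_nonneg fun _ => norm_nonneg _)) (norm_nonneg _)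

lemma integrable_full {Φ : ℝ → H} (hΦ : Continuous Φ) {B : ℝ} (hB : ∀ u, ‖Φ u‖ ≤ B) (T s : ℝ)
    (q : ℝ × ℝ) : Integrable fun u => (W.k (q.1 - u) * W.cT T s u q.2) • Φ u :=
  ((W.hki.comp_sub_left q.1).mul_bdd (W.continuous_cT T s q.2).aestronglyMeasurable
    (Eventually.of_forall fun u => W.norm_cT_le T s u q.2)).smul_bdd B hΦ.aestronglyMeasurable
      (Eventually.of_forall hB)

/-- The smeared packet is the main term up to `O (1 / T)`. -/
theorem exists_full_bound : ∃ C : ℝ, 0 ≤ C ∧ ∀ (T s : ℝ), 1 ≤ T → ∀ (Φ : ℝ → H), Continuous Φ →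
    ∀ B : ℝ, (∀ u, ‖Φ u‖ ≤ B) → ∀ q : ℝ × ℝ,
      ‖W.full T s Φ q - pwave W.β ((q.1 + s) / T) • W.psi Φ q‖ ≤
        C * B / T * (wgt ((q.1 + s) / T))⁻¹ * (wgt (q.1 - q.2))⁻¹ := by
  obtain ⟨c₁, hc₁0, hc₁⟩ := exists_pwave_diff W.hβ
  obtain ⟨c₂, hc₂0, hc₂⟩ := exists_decay_pwave W.hg 4
  obtain ⟨c₃, hc₃0, hc₃⟩ := exists_decay_pwave W.hkk 1
  obtain ⟨Ck, hCk⟩ := W.exists_Ke_bound
  refine ⟨2 * Real.pi * (c₂ * (2 * Real.pi * (4 * c₁ * c₂ * c₃))) * 4, by positivity,
    fun T s hT Φ hΦ B hB q => ?_⟩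
  have hT0 : 0 < T := zero_lt_one.trans_le hT
  have hB0 : 0 ≤ B := (norm_nonneg _).trans (hB 0)
  obtain ⟨t, t'⟩ := q
  set χ := pwave W.β ((t + s) / T) with hχ
  set V := (wgt ((t + s) / T))⁻¹
  have hV : 0 ≤ V := inv_nonneg.2 (wgt_pos _).le
  -- inner integral
  have hin : ∀ u, ‖W.cT T s u t' - χ * W.Ke (u - t')‖ ≤
      2 * Real.pi * (4 * c₁ * c₂ * c₃) / T * V * (wgt (t - u)) ^ 2 * (wgt (u - t'))⁻¹ := by
    intro u
    have hkK : Integrable fun w => W.k (u - w) * pwave W.kk (w - t') := by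
      refine ((W.hki.comp_sub_left u).mul_bdd (c := ∫ ν, ‖W.kk ν‖)
        ((continuous_pwave W.hkk.integrable).comp (by fun_prop)).aestronglyMeasurable
        (Eventually.of_forall fun w => pwave_le _ _))
    have hp : Integrable fun w => W.k (u - w) * W.pfn T s (w, t') := by
      refine ((hkK.mul_bdd (c := ∫ ν, ‖W.β ν‖) (g := fun w => pwave W.β ((w + s) / T))
        ((continuous_pwave W.hβ.integrable).comp (by fun_prop)).aestronglyMeasurable
        (Eventually.of_forall fun w => pwave_le _ _))).congr (Eventually.of_forall fun w => ?_)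
      simp only [pfn]; ring
    rw [cT, ← W.conv_k_kk, ← integral_const_mul, ← integral_sub hp (hkK.const_mul χ)]
    refine (norm_integral_le_conv (C := 4 * c₁ * c₂ * c₃ / T * V * (wgt (t - u)) ^ 2)
      (a := u) (b := t') (by have := wgt_pos (t - u); positivity) fun w => ?_).trans_eq (by ring)
    have hfac : W.k (u - w) * W.pfn T s (w, t') - χ * (W.k (u - w) * pwave W.kk (w - t')) =
        W.k (u - w) * (pwave W.β ((w + s) / T) - χ) * pwave W.kk (w - t') := by
      simp only [pfn]; ring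
    rw [hfac, norm_mul, norm_mul]
    have h1 : ‖pwave W.β ((w + s) / T) - χ‖ ≤ c₁ / T * V * (wgt (t - w)) ^ 2 := by
      refine (hc₁ _ _).trans ?_
      have e : (w + s) / T - (t + s) / T = (w - t) / T := by ring
      rw [e, abs_div, abs_of_pos hT0]
      have e1 : wgt ((w - t) / T) ≤ wgt (t - w) := by
        simp only [wgt, div_pow]
        rw [← neg_sub t w, neg_sq]
        have : (t - w) ^ 2 / T ^ 2 ≤ (t - w) ^ 2 :=
          div_le_self (sq_nonneg _) (one_le_pow₀ hT)
        linarith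
      have e2 : |w - t| ≤ wgt (t - w) := by
        simp only [wgt]
        nlinarith [sq_abs (t - w), abs_sub_comm w t, sq_nonneg (|t - w| - 1), abs_nonneg (t - w)]
      calc c₁ * V * wgt ((w - t) / T) * (|w - t| / T)
          ≤ c₁ * V * wgt (t - w) * (wgt (t - w) / T) := by
            have := wgt_pos ((w - t) / T)
            have := wgt_pos (t - w)
            gcongr
        _ = _ := by ring
    have h2 : (wgt (t - w)) ^ 2 ≤ 4 * ((wgt (t - u)) ^ 2 * (wgt (u - w)) ^ 2) := by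
      have := wgt_add_le (t - u) (u - w)
      rw [sub_add_sub_cancel] at this
      refine (pow_le_pow_left₀ (wgt_pos _).le this 2).trans_eq ?_
      ring
    have hw4 := wgt_pos (u - w)
    calc ‖W.k (u - w)‖ * ‖pwave W.β ((w + s) / T) - χ‖ * ‖pwave W.kk (w - t')‖
        ≤ c₂ * ((wgt (u - w)) ^ 4)⁻¹ * (c₁ / T * V * (4 * ((wgt (t - u)) ^ 2 * (wgt (u - w)) ^ 2))) *
            (c₃ * ((wgt (w - t')) ^ 1)⁻¹) := by
          refine mul_le_mul (mul_le_mul (hc₂ _) (h1.trans ?_) (norm_nonneg _) (by positivity))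
            (hc₃ _) (norm_nonneg _) (by have := wgt_pos (t - u); positivity)
          exact mul_le_mul_of_nonneg_left h2 (by positivity)
      _ = _ := by field_simp
  -- outer integral
  have hint1 : Integrable fun u => (W.k (t - u) * W.cT T s u t') • Φ u :=
    W.integrable_full hΦ hB T s (t, t')
  have hint2 : Integrable fun u => (W.k (t - u) * W.Ke (u - t')) • Φ u :=
    ((W.hki.comp_sub_left t).mul_bdd (W.continuous_Ke.comp (by fun_prop)).aestronglyMeasurable
      (Eventually.of_forall fun u => hCk _)).smul_bdd B hΦ.aestronglyMeasurable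
        (Eventually.of_forall hB)
  change ‖(∫ u, (W.k (t - u) * W.cT T s u t') • Φ u) -
    χ • ∫ u, (W.k (t - u) * W.Ke (u - t')) • Φ u‖ ≤ _
  rw [← integral_smul, ← integral_sub hint1 (hint2.fun_smul χ)]
  refine (norm_integral_le_conv
    (C := c₂ * (2 * Real.pi * (4 * c₁ * c₂ * c₃)) / T * V * B) (a := t) (b := t') (by positivity)
    fun u => ?_).trans ?_
  · rw [smul_smul, ← sub_smul, norm_smul, show W.k (t - u) * W.cT T s u t' -
      χ * (W.k (t - u) * W.Ke (u - t')) = W.k (t - u) * (W.cT T s u t' - χ * W.Ke (u - t')) by ring,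
      norm_mul]
    have hw := wgt_pos (t - u)
    have hw' := wgt_pos (u - t')
    calc ‖W.k (t - u)‖ * ‖W.cT T s u t' - χ * W.Ke (u - t')‖ * ‖Φ u‖
        ≤ c₂ * ((wgt (t - u)) ^ 4)⁻¹ * (2 * Real.pi * (4 * c₁ * c₂ * c₃) / T * V *
            (wgt (t - u)) ^ 2 * (wgt (u - t'))⁻¹) * B := by
          refine mul_le_mul (mul_le_mul (hc₂ _) (hin u) (norm_nonneg _) (by positivity)) (hB u)
            (norm_nonneg _) (by positivity)
      _ = _ := by field_simp
  · have := wgt_pos (t - t')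
    calc _ = 2 * Real.pi * (c₂ * (2 * Real.pi * (4 * c₁ * c₂ * c₃))) * 1 * B / T * V *
          (wgt (t - t'))⁻¹ := by ring
      _ ≤ _ := by gcongr; norm_num

end Window

variable {S : Std H} {D : Modular S}

namespace Orbit

variable (o : Orbit D)

lemma B_nonneg : 0 ≤ o.B := (norm_nonneg _).trans (o.F_bound 0 (by simp))

lemma norm_orbit_le (u : ℝ) (v : H) : ‖D.σ u o.a v‖ ≤ o.B * ‖v‖ := by
  rw [← o.F_real]
  exact (o.F u).le_of_opNorm_le (o.F_bound _ (by simp)) v

lemma J_orbit (u : ℝ) : D.J (D.σ u o.a S.Ω) = o.F (u - I / 2) S.Ω := by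
  have h := D.J_half (D.σ u o.a) (fun z => o.F (z + u))
    (o.F_diff.comp (differentiable_id.add_const _)) (fun z => o.F_mem _) fun t => by
      change o.F (t + u) = D.σ t (D.σ u o.a)
      rw [← Complex.ofReal_add, o.F_real, D.σ_σ]
  rw [← D.σ_star, o.sa.star_eq] at h
  rw [← h, D.J_J, neg_add_eq_sub]

variable (W : Window)

/-- Shifting the line of integration by `i / 2`. -/
theorem psi_eq_right (q : ℝ × ℝ) :
    W.psi (fun u => D.σ u o.a S.Ω) q =
      ∫ u, (W.k (u - q.2) * W.Ke (q.1 - u)) • D.J (D.σ u o.a S.Ω) := by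
  obtain ⟨t, t'⟩ := q
  set G : ℂ → H := fun z =>
    (pext W.g (t - z) * pext (expHalf W.g) (z - t')) • o.F z S.Ω with hG
  have hGd : Differentiable ℂ G :=
    (((differentiable_pext W.hg).comp (differentiable_id.const_sub _)).mul
      ((differentiable_pext W.hg.expHalf).comp (differentiable_id.sub_const _))).smul
      (o.F_diff.clm_apply (differentiable_const _))
  obtain ⟨c₁, hc₁0, hc₁⟩ := exists_decay W.hg 1 1
  obtain ⟨c₂, hc₂0, hc₂⟩ := exists_decay W.hg.expHalf 1 0
  have h := integral_shift_line hGd (a := 0) (b := -(1 / 2)) (C := 2 * c₁ * wgt t * c₂ * o.B)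
    fun x y hy => by
    have hy1 : |y| ≤ 1 := by
      rw [Set.uIcc_of_ge (by norm_num)] at hy
      rw [abs_le]
      constructor <;> linarith [hy.1, hy.2]
    have e1 : ‖pext W.g (t - (x + y * I))‖ ≤ 2 * c₁ * wgt t * (wgt x)⁻¹ := by
      refine (hc₁ _ (by simpa using hy1)).trans ?_
      simp only [Complex.sub_re, Complex.ofReal_re, Complex.add_re, Complex.mul_re, Complex.I_re,
        mul_zero, Complex.ofReal_im, Complex.I_im, zero_mul, sub_zero, add_zero, pow_one]
      have h2 : wgt x ≤ 2 * (wgt t * wgt (t - x)) := by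
        have := wgt_add_le t (x - t)
        rw [add_sub_cancel, show x - t = -(t - x) by ring, wgt_neg] at this
        exact this
      rw [show 2 * c₁ * wgt t * (wgt x)⁻¹ = c₁ * (2 * wgt t / wgt x) by ring]
      refine mul_le_mul_of_nonneg_left ?_ hc₁0
      rw [inv_eq_one_div, div_le_div_iff₀ (wgt_pos _) (wgt_pos _), one_mul]
      linarith
    have e2 : ‖pext (expHalf W.g) (x + y * I - t')‖ ≤ c₂ := by
      simpa using hc₂ _ (show |((x : ℂ) + y * I - t').im| ≤ 1 by simpa using hy1)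
    have e3 : ‖o.F (x + y * I) S.Ω‖ ≤ o.B := by
      simpa [S.norm_Ω] using (o.F (x + y * I)).le_of_opNorm_le (o.F_bound _ (by simpa using hy1)) S.Ω
    rw [hG, norm_smul, norm_mul]
    have := wgt_pos t
    have := wgt_pos x
    exact (mul_le_mul (mul_le_mul e1 e2 (norm_nonneg _) (by positivity)) e3 (norm_nonneg _)
      (by positivity)).trans_eq (by ring)
  refine Eq.trans ?_ (h.trans ?_)
  · refine integral_congr_ae (Eventually.of_forall fun x => ?_)
    simp only [hG, Complex.ofReal_zero, zero_mul, add_zero, ← Complex.ofReal_sub, pext_ofReal,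
      o.F_real]
    rfl
  · refine integral_congr_ae (Eventually.of_forall fun x => ?_)
    simp only [hG, o.J_orbit]
    rw [show (x : ℂ) + ((-(1 / 2) : ℝ) : ℂ) * I = x - I / 2 by push_cast; ring]
    rw [show (t : ℂ) - (x - I / 2) = ((t - x : ℝ) : ℂ) + I / 2 by push_cast; ring, pext_add_half,
      show (x : ℂ) - I / 2 - t' = ((x - t' : ℝ) : ℂ) - I / 2 by push_cast; ring,
      pext_expHalf_sub_half, mul_comm]
    rfl

/-- The left action on a packet. -/
theorem AL_packet (T s : ℝ) (w : H) {p : L22} (hp : (p : ℝ × ℝ → ℂ) =ᵐ[volume] W.pfn T s) :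
    (AL D W.hki o.a (ten w p) : ℝ × ℝ → H) =ᵐ[volume] W.full T s fun u => D.σ u o.a w := by
  have h : (ten w p : ℝ × ℝ → H) =ᵐ[volume] fun q => W.pfn T s q • w := by
    filter_upwards [coeFn_ten w p, hp] with q h1 h2
    rw [h1, h2]
  refine (ae_AL D W.hki o.a h).trans (Eventually.of_forall fun q => ?_)
  refine integral_congr_ae (Eventually.of_forall fun u => ?_)
  simp only [smul_smul]
  rw [integral_smul_const, map_smul, smul_smul]
  rfl

/-- The right action on a packet is exactly the main term. -/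
theorem AR_packet (T s : ℝ) {p : L22} (hp : (p : ℝ × ℝ → ℂ) =ᵐ[volume] W.pfn T s) :
    (AR D W.hki o.a (ten S.Ω p) : ℝ × ℝ → H) =ᵐ[volume] fun q =>
      pwave W.β ((q.1 + s) / T) • W.psi (fun u => D.σ u o.a S.Ω) q := by
  have h : (ten S.Ω p : ℝ × ℝ → H) =ᵐ[volume] fun q => W.pfn T s q • S.Ω := by
    filter_upwards [coeFn_ten S.Ω p, hp] with q h1 h2
    rw [h1, h2]
  refine (ae_AR D W.hki W.hk o.a h).trans (Eventually.of_forall fun q => ?_)
  dsimp only
  rw [psi_eq_right, ← integral_smul]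
  refine integral_congr_ae (Eventually.of_forall fun u => ?_)
  simp only [smul_smul]
  rw [integral_smul_const, map_smul, conjJ_apply, D.J_Ω, smul_smul]
  congr 1
  simp only [Window.pfn]
  rw [← W.conv_kk_k q.1 u]
  simp only [← integral_const_mul]
  refine integral_congr_ae (Eventually.of_forall fun v => ?_)
  ring

end Orbit

/-- Decay along the diagonal in square mean. -/
lemma norm_sq_le_diag {G : K2 H} {A T s : ℝ} (hT : 0 < T)
    (h : ∀ᵐ q : ℝ × ℝ, ‖G q‖ ≤ A * (wgt ((q.1 + s) / T))⁻¹ * (wgt (q.1 - q.2))⁻¹) :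
    ‖G‖ ^ 2 ≤ A ^ 2 * (Real.pi * T) * Real.pi := by
  have hsh : MeasurePreserving (fun p : ℝ × ℝ => (p.1, p.1 - p.2))
      ((volume : Measure ℝ).prod volume) ((volume : Measure ℝ).prod volume) :=
    (MeasurePreserving.id (volume : Measure ℝ)).skew_product (g := fun x y => x - y)
      (by exact measurable_fst.sub measurable_snd)
      (Eventually.of_forall fun x => (Measure.measurePreserving_sub_left volume x).map_eq)
  have h0 : Integrable fun x : ℝ => A ^ 2 * (wgt ((x + s) / T))⁻¹ :=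
    (((integrable_inv_one_add_sq.comp_div hT.ne').comp_add_right s).const_mul _)
  have hi := h0.mul_prod (integrable_inv_one_add_sq : Integrable fun x : ℝ => (1 + x ^ 2)⁻¹)
  have hi' := (hsh.integrable_comp hi.aestronglyMeasurable).2 hi
  rw [lp_norm_sq G]
  refine (integral_mono_of_nonneg (Eventually.of_forall fun q => sq_nonneg _) hi'
    ?_).trans_eq ?_
  · show ∀ᵐ q : ℝ × ℝ, _
    filter_upwards [h] with q hq
    refine (pow_le_pow_left₀ (norm_nonneg _) hq 2).trans ?_
    simp only [Function.comp, mul_pow]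
    refine mul_le_mul (mul_le_mul_of_nonneg_left ?_ (sq_nonneg _)) ?_ (sq_nonneg _)
      (mul_nonneg (sq_nonneg _) (inv_nonneg.2 (wgt_pos _).le))
    · exact pow_le_of_le_one (inv_nonneg.2 (wgt_pos _).le)
        (inv_le_one_of_one_le₀ (one_le_wgt _)) two_ne_zero
    · exact pow_le_of_le_one (inv_nonneg.2 (wgt_pos _).le)
        (inv_le_one_of_one_le₀ (one_le_wgt _)) two_ne_zero
  · have hcov : ∫ p : ℝ × ℝ, A ^ 2 * (wgt ((p.1 + s) / T))⁻¹ * (1 + (p.1 - p.2) ^ 2)⁻¹
        ∂((volume : Measure ℝ).prod volume) =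
        (∫ x : ℝ, A ^ 2 * (wgt ((x + s) / T))⁻¹) * ∫ y : ℝ, (1 + y ^ 2)⁻¹ := by
      rw [← integral_prod_mul]
      conv_rhs => rw [← hsh.map_eq]
      rw [integral_map hsh.measurable.aemeasurable]
      rw [hsh.map_eq]; exact hi.aestronglyMeasurable
    simp only [Function.comp] at hcov ⊢
    rw [hcov, integral_univ_inv_one_add_sq, integral_const_mul,
      integral_add_right_eq_self (fun x => (wgt (x / T))⁻¹) s]
    simp only [wgt]
    rw [Measure.integral_comp_div (fun x => (1 + x ^ 2)⁻¹) T, integral_univ_inv_one_add_sq,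
      abs_of_pos hT, smul_eq_mul]
    ring

/-- The generator almost annihilates the packets. -/
theorem Orbit.exists_move (o : Orbit D) (W : Window) : ∃ C : ℝ, 0 ≤ C ∧ ∀ (T s : ℝ), 1 ≤ T →
    ∀ p : L22, ((p : ℝ × ℝ → ℂ) =ᵐ[volume] W.pfn T s) →
      ‖(AL D W.hki o.a - AR D W.hki o.a) (ten S.Ω p)‖ ^ 2 ≤ C / T := by
  obtain ⟨C, hC0, hC⟩ := W.exists_full_bound (H := H)
  refine ⟨(C * o.B) ^ 2 * Real.pi * Real.pi, by positivity, fun T s hT p hp => ?_⟩
  have hT0 : 0 < T := zero_lt_one.trans_le hT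
  refine (norm_sq_le_diag (A := C * o.B / T) (s := s) hT0 ?_).trans_eq (by field_simp)
  filter_upwards [Lp.coeFn_sub (AL D W.hki o.a (ten S.Ω p)) (AR D W.hki o.a (ten S.Ω p)),
    o.AL_packet W T s S.Ω hp, o.AR_packet W T s hp] with q h1 h2 h3
  rw [sub_apply, h1, Pi.sub_apply, h2, h3]
  exact hC T s hT _ (D.continuous_σ_apply o.a S.Ω) o.B
    (fun u => (o.norm_orbit_le u S.Ω).trans_eq (by rw [S.norm_Ω, mul_one])) q

end P132.Core
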